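import Mathlib

/-! Gaussian calculus on finite products: integration by parts and differentiation under the integral. -/

open MeasureTheory ProbabilityTheory

namespace Vale.Agent.P150

variable {ι : Type*} [Fintype ι]

/-- standard Gaussian measure on `ι → ℝ` -/
noncomputable def gauss (ι : Type*) [Fintype ι] : Measure (ι → ℝ) := Measure.pi fun _ => gaussianReal 0 1

instance : IsProbabilityMeasure (gauss ι) := by unfold gauss; infer_instance

/-- `∑ |z_k|` -/
def l1 (z : ι → ℝ) : ℝ := ∑ k, |z k|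

/-- `∑ a_k z_k` -/
def dot (a z : ι → ℝ) : ℝ := ∑ k, a k * z k

lemma l1_nonneg (z : ι → ℝ) : 0 ≤ l1 z := Finset.sum_nonneg fun _ _ => abs_nonneg _

lemma abs_le_l1 (z : ι → ℝ) (k : ι) : |z k| ≤ l1 z :=
  Finset.single_le_sum (f := fun k => |z k|) (fun _ _ => abs_nonneg _) (Finset.mem_univ k)

lemma abs_dot_le {a : ι → ℝ} {A : ℝ} (ha : ∀ k, |a k| ≤ A) (z : ι → ℝ) : |dot a z| ≤ A * l1 z := by
  refine (Finset.abs_sum_le_sum_abs _ _).trans ?_
  rw [l1, Finset.mul_sum]
  exact Finset.sum_le_sum fun k _ => by rw [abs_mul]; exact mul_le_mul_of_nonneg_right (ha k) (abs_nonneg _)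

lemma integrable_exp_l1 (M : ℝ) : Integrable (fun z : ι → ℝ => Real.exp (M * l1 z)) (gauss ι) := by
  unfold l1 gauss
  simp only [Finset.mul_sum, Real.exp_sum]
  refine Integrable.fintype_prod (f := fun _ (t : ℝ) => Real.exp (M * |t|)) fun _ => ?_
  refine ((integrable_exp_mul_gaussianReal M).add (integrable_exp_mul_gaussianReal (-M))).mono'
    (by fun_prop) (Filter.Eventually.of_forall fun t => ?_)
  rw [Real.norm_eq_abs, Real.abs_exp]
  rcases abs_choice t with h | h <;> rw [h] <;> simp only [Pi.add_apply, mul_neg, neg_mul] <;>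
    linarith [Real.exp_pos (M * t), Real.exp_pos (-(M * t))]

lemma integrable_of_bound {F : (ι → ℝ) → ℝ} (hF : Continuous F) {C M : ℝ}
    (hb : ∀ z, |F z| ≤ C * Real.exp (M * l1 z)) : Integrable F (gauss ι) :=
  ((integrable_exp_l1 M).const_mul C).mono' hF.aestronglyMeasurable (Filter.Eventually.of_forall hb)

lemma hasDerivAt_gauss_integral {F F' : ℝ → (ι → ℝ) → ℝ} {θ₀ C M C₀ M₀ : ℝ}
    (hc : ∀ θ, Continuous (F θ)) (hc' : ∀ θ, Continuous (F' θ))
    (hb₀ : ∀ z, |F θ₀ z| ≤ C₀ * Real.exp (M₀ * l1 z))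
    (hb : ∀ θ, |θ - θ₀| ≤ 1 → ∀ z, |F' θ z| ≤ C * Real.exp (M * l1 z))
    (hd : ∀ θ z, HasDerivAt (F · z) (F' θ z) θ) :
    HasDerivAt (fun θ => ∫ z, F θ z ∂gauss ι) (∫ z, F' θ₀ z ∂gauss ι) θ₀ :=
  (hasDerivAt_integral_of_dominated_loc_of_deriv_le (Metric.ball_mem_nhds θ₀ one_pos)
    (Filter.Eventually.of_forall fun θ => (hc θ).aestronglyMeasurable) (integrable_of_bound (hc θ₀) hb₀)
    (hc' θ₀).aestronglyMeasurable
    (Filter.Eventually.of_forall fun z θ hθ => hb θ (by
      rw [Metric.mem_ball, Real.dist_eq] at hθ; exact hθ.le) z)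
    ((integrable_exp_l1 M).const_mul C) (Filter.Eventually.of_forall fun z θ _ => hd θ z)).2

lemma mgf_dot (a : ι → ℝ) :
    ∫ z, Real.exp (dot a z) ∂gauss ι = Real.exp ((∑ k, a k ^ 2) / 2) := by
  unfold gauss dot
  simp only [Real.exp_sum]
  rw [integral_fintype_prod_eq_prod (fun k (t : ℝ) => Real.exp (a k * t)), Finset.sum_div, Real.exp_sum]
  refine Finset.prod_congr rfl fun k _ => ?_
  have := congrFun (mgf_id_gaussianReal (μ := 0) (v := 1)) (a k)
  simpa [mgf, id] using this

lemma integral_exp_mul_sq {s : ℝ} (hs : s < 1 / 2) :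
    Integrable (fun t : ℝ => Real.exp (s * t ^ 2)) (gaussianReal 0 1) ∧
      ∫ t, Real.exp (s * t ^ 2) ∂gaussianReal 0 1 = (Real.sqrt (1 - 2 * s))⁻¹ := by
  have hb : (0:ℝ) < 1 / 2 - s := by linarith
  have e : ∀ t : ℝ, gaussianPDFReal 0 1 t * Real.exp (s * t ^ 2) =
      (Real.sqrt (2 * Real.pi))⁻¹ * Real.exp (-(1 / 2 - s) * t ^ 2) := fun t => by
    rw [gaussianPDFReal_def, mul_assoc, ← Real.exp_add]
    congr 1
    · norm_num
    · congr 1; push_cast; ring
  constructor
  · rw [gaussianReal_of_var_ne_zero 0 one_ne_zero, integrable_withDensity_iff (measurable_gaussianPDF 0 1)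
      (Filter.Eventually.of_forall fun t => gaussianPDF_lt_top)]
    simp only [toReal_gaussianPDF, mul_comm (Real.exp _), e]
    exact (integrable_exp_neg_mul_sq hb).const_mul _
  · rw [integral_gaussianReal_eq_integral_smul one_ne_zero]
    simp only [smul_eq_mul, e, integral_const_mul, integral_gaussian]
    rw [← Real.sqrt_inv, ← Real.sqrt_inv, ← Real.sqrt_mul (by positivity)]
    congr 1
    have hp := Real.pi_ne_zero
    have h2 : (1:ℝ) - 2 * s ≠ 0 := by linarith
    have h3 : (1:ℝ) / 2 - s = (1 - 2 * s) / 2 := by ring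
    rw [h3]; field_simp

lemma exp_sumsq {s : ℝ} (hs : s < 1 / 2) :
    Integrable (fun z : ι → ℝ => Real.exp (s * ∑ k, z k ^ 2)) (gauss ι) ∧
      ∫ z, Real.exp (s * ∑ k, z k ^ 2) ∂gauss ι = (Real.sqrt (1 - 2 * s))⁻¹ ^ Fintype.card ι := by
  unfold gauss
  simp only [Finset.mul_sum, Real.exp_sum]
  refine ⟨Integrable.fintype_prod (f := fun _ (t : ℝ) => Real.exp (s * t ^ 2)) fun _ => (integral_exp_mul_sq hs).1, ?_⟩
  rw [integral_fintype_prod_eq_pow (fun t : ℝ => Real.exp (s * t ^ 2)), (integral_exp_mul_sq hs).2]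

lemma stein_one {f f' : ℝ → ℝ} {C M : ℝ} (hd : ∀ t, HasDerivAt f (f' t) t) (hf' : Continuous f')
    (hb : ∀ t, |f t| ≤ C * Real.exp (M * |t|)) (hb' : ∀ t, |f' t| ≤ C * Real.exp (M * |t|)) :
    ∫ t, t * f t ∂gaussianReal 0 1 = ∫ t, f' t ∂gaussianReal 0 1 := by
  have hfc : Continuous f := continuous_iff_continuousAt.2 fun t => (hd t).continuousAt
  have hC : 0 ≤ C := nonneg_of_mul_nonneg_left ((abs_nonneg _).trans (hb 0)) (Real.exp_pos _)
  set ρ := fun t : ℝ => Real.exp (-(t ^ 2) / 2)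
  have hdom : ∀ (h : ℝ → ℝ) (t : ℝ), |h t| ≤ C * Real.exp ((M + 1) * |t|) →
      ‖h t * ρ t‖ ≤ C * Real.exp ((M + 1) ^ 2) * Real.exp (-(1 / 4) * t ^ 2) := by
    intro h t ht
    rw [Real.norm_eq_abs, abs_mul, Real.abs_exp, mul_assoc C, ← Real.exp_add]
    refine (mul_le_mul_of_nonneg_right ht (Real.exp_pos _).le).trans ?_
    rw [mul_assoc C, ← Real.exp_add]
    refine mul_le_mul_of_nonneg_left (Real.exp_le_exp.2 ?_) hC
    have := sq_nonneg (|t| / 2 - (M + 1))
    rw [show |t| = |t| from rfl] at this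
    nlinarith [sq_abs t]
  have hI := (integrable_exp_neg_mul_sq (show (0:ℝ) < 1 / 4 by norm_num)).const_mul (C * Real.exp ((M + 1) ^ 2))
  have up : ∀ t, C * Real.exp (M * |t|) ≤ C * Real.exp ((M + 1) * |t|) := fun t =>
    mul_le_mul_of_nonneg_left (Real.exp_le_exp.2 (by linarith [abs_nonneg t])) hC
  have upt : ∀ t, |t * f t| ≤ C * Real.exp ((M + 1) * |t|) := fun t => by
    rw [abs_mul, add_mul, one_mul, Real.exp_add, mul_comm |t|, ← mul_assoc]
    exact mul_le_mul (hb t) ((le_add_of_nonneg_right zero_le_one).trans (Real.add_one_le_exp |t|)) (abs_nonneg _)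
      (mul_nonneg hC (Real.exp_pos _).le)
  have i1 : Integrable (fun t => f t * ρ t) :=
    hI.mono' (by fun_prop) (Filter.Eventually.of_forall fun t => hdom f t ((hb t).trans (up t)))
  have i2 : Integrable (fun t => f' t * ρ t) :=
    hI.mono' (by fun_prop) (Filter.Eventually.of_forall fun t => hdom f' t ((hb' t).trans (up t)))
  have i3 : Integrable (fun t => (t * f t) * ρ t) :=
    hI.mono' (by fun_prop) (Filter.Eventually.of_forall fun t => hdom (fun t => t * f t) t (upt t))
  have hρ : ∀ t, HasDerivAt ρ (-t * ρ t) t := fun t => by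
    refine (((hasDerivAt_pow 2 t).neg).div_const 2).exp.congr_deriv ?_
    simp [ρ]; ring
  have h0 := integral_eq_zero_of_hasDerivAt_of_integrable
    (fun t => ((hd t).mul (hρ t)).congr_deriv (show f' t * ρ t + f t * (-t * ρ t) = f' t * ρ t - (t * f t) * ρ t by ring))
    (i2.sub i3) i1
  rw [integral_sub i2 i3, sub_eq_zero] at h0
  rw [integral_gaussianReal_eq_integral_smul one_ne_zero, integral_gaussianReal_eq_integral_smul one_ne_zero]
  have e : ∀ (h : ℝ → ℝ) (t : ℝ), gaussianPDFReal 0 1 t • h t = (Real.sqrt (2 * Real.pi))⁻¹ * (h t * ρ t) := by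
    intro h t
    simp only [gaussianPDFReal_def, smul_eq_mul, ρ]
    simp; ring
  simp only [e (fun t => t * f t), e f', integral_const_mul, h0]

variable [DecidableEq ι]

lemma resample (k : ι) :
    MeasurePreserving (fun p : (ι → ℝ) × ℝ => Function.update p.1 k p.2)
      ((gauss ι).prod (gaussianReal 0 1)) (gauss ι) := by
  have hm : Measurable fun p : (ι → ℝ) × ℝ => Function.update p.1 k p.2 := by fun_prop
  refine ⟨hm, (Measure.pi_eq fun s hs => ?_).symm⟩
  rw [Measure.map_apply hm (MeasurableSet.univ_pi hs)]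
  have e : (fun p : (ι → ℝ) × ℝ => Function.update p.1 k p.2) ⁻¹' Set.univ.pi s =
      (Set.univ.pi (Function.update s k Set.univ)) ×ˢ s k := by
    ext p
    simp only [Set.mem_preimage, Set.mem_univ_pi, Set.mem_prod]
    constructor
    · intro h
      refine ⟨fun i => ?_, by simpa using h k⟩
      by_cases hi : i = k
      · subst hi; simp
      · simpa [hi] using h i
    · rintro ⟨h, hk⟩ i
      by_cases hi : i = k
      · subst hi; simpa using hk
      · simpa [hi] using h i
  rw [e, Measure.prod_prod, gauss, Measure.pi_pi]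
  have e2 : ∀ i, gaussianReal 0 1 (Function.update s k Set.univ i) =
      Function.update (fun i => gaussianReal 0 1 (s i)) k 1 i := fun i => by
    by_cases hi : i = k
    · subst hi; simp
    · simp [hi]
  simp only [e2]
  rw [Finset.prod_update_of_mem (Finset.mem_univ k), one_mul, ← Finset.erase_eq,
    Finset.prod_erase_mul _ _ (Finset.mem_univ k)]

/-- Gaussian integration by parts -/
lemma gauss_ibp (k : ι) {φ φ' : (ι → ℝ) → ℝ} {C M : ℝ} (hM : 0 ≤ M) (hφ : Continuous φ) (hφ' : Continuous φ')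
    (hb : ∀ z, |φ z| ≤ C * Real.exp (M * l1 z)) (hb' : ∀ z, |φ' z| ≤ C * Real.exp (M * l1 z))
    (hd : ∀ z t, HasDerivAt (fun s => φ (Function.update z k s)) (φ' (Function.update z k t)) t) :
    ∫ z, z k * φ z ∂gauss ι = ∫ z, φ' z ∂gauss ι := by
  have hC : 0 ≤ C := nonneg_of_mul_nonneg_left ((abs_nonneg _).trans (hb 0)) (Real.exp_pos _)
  have hbk : ∀ z : ι → ℝ, |z k * φ z| ≤ C * Real.exp ((M + 1) * l1 z) := fun z => by
    rw [abs_mul, add_mul, one_mul, Real.exp_add, mul_comm |z k|, ← mul_assoc]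
    exact mul_le_mul (hb z) ((abs_le_l1 z k).trans ((le_add_of_nonneg_right zero_le_one).trans
      (Real.add_one_le_exp _))) (abs_nonneg _) (mul_nonneg hC (Real.exp_pos _).le)
  have hcu : Continuous fun p : (ι → ℝ) × ℝ => Function.update p.1 k p.2 := by fun_prop
  have key : ∀ {F : (ι → ℝ) → ℝ}, Continuous F → Integrable F (gauss ι) →
      ∫ z, F z ∂gauss ι = ∫ z, ∫ t, F (Function.update z k t) ∂gaussianReal 0 1 ∂gauss ι := by
    intro F hF hFi
    have hi : Integrable (fun p : (ι → ℝ) × ℝ => F (Function.update p.1 k p.2))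
        ((gauss ι).prod (gaussianReal 0 1)) := (resample k).integrable_comp_of_integrable hFi
    rw [← integral_prod (fun p : (ι → ℝ) × ℝ => F (Function.update p.1 k p.2)) hi]
    conv_lhs => rw [← (resample k).map_eq]
    exact integral_map (resample k).measurable.aemeasurable hF.aestronglyMeasurable
  have hkc : Continuous fun z : ι → ℝ => z k * φ z := (continuous_apply k).mul hφ
  rw [key hkc (integrable_of_bound hkc hbk), key hφ' (integrable_of_bound hφ' hb')]
  refine integral_congr_ae (Filter.Eventually.of_forall fun z => ?_)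
  simp only [Function.update_self]
  set R := l1 z
  have hl : ∀ t, l1 (Function.update z k t) ≤ R + |t| := fun t => by
    rw [l1, ← Finset.add_sum_erase _ _ (Finset.mem_univ k), Function.update_self, add_comm R]
    refine add_le_add le_rfl ((Finset.sum_le_sum_of_subset_of_nonneg (Finset.erase_subset k _)
      fun _ _ _ => abs_nonneg _).trans' (le_of_eq ?_))
    exact Finset.sum_congr rfl fun i hi => by rw [Function.update_of_ne (Finset.ne_of_mem_erase hi)]
  have hb2 : ∀ {g : (ι → ℝ) → ℝ}, (∀ z, |g z| ≤ C * Real.exp (M * l1 z)) → ∀ t,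
      |g (Function.update z k t)| ≤ C * Real.exp (M * R) * Real.exp (M * |t|) := fun hg t => by
    refine (hg _).trans ?_
    rw [mul_assoc, ← Real.exp_add, ← mul_add]
    exact mul_le_mul_of_nonneg_left (Real.exp_le_exp.2 (mul_le_mul_of_nonneg_left (hl t) hM)) hC
  exact stein_one (fun t => hd z t) (by fun_prop) (hb2 hb) (hb2 hb')

end Vale.Agent.P150
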