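import Vale.Agent.P150.Algebra

open MeasureTheory ProbabilityTheory

namespace Vale.Agent.P150

variable {n : ℕ}

instance (n : ℕ) : IsProbabilityMeasure (disorder n) := by
  unfold disorder; infer_instance

/-- coefficient of `g_e` in the energy -/
noncomputable def coef (x : Cfg n) (e : Edge n) : ℝ := spin (x e.1.1) * spin (x e.1.2) / Real.sqrt n

lemma energy_coef (g : Edge n → ℝ) (x : Cfg n) : energy g x = ∑ e, coef x e * g e := by
  rw [energy, Finset.mul_sum]
  exact Finset.sum_congr rfl fun e _ => by rw [coef]; ring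

lemma energy_lin (a b : ℝ) (g w : Edge n → ℝ) (x : Cfg n) :
    energy (fun e => a * g e + b * w e) x = a * energy g x + b * energy w x := by
  simp only [energy_coef, Finset.mul_sum, ← Finset.sum_add_distrib]
  exact Finset.sum_congr rfl fun e _ => by ring

lemma energy_scale (a : ℝ) (g : Edge n → ℝ) (x : Cfg n) :
    energy (fun e => a * g e) x = a * energy g x := by
  simp only [energy_coef, Finset.mul_sum]
  exact Finset.sum_congr rfl fun e _ => by ring

lemma two_sum_edge (v : Fin n → ℝ) :
    2 * ∑ e : Edge n, v e.1.1 * v e.1.2 = (∑ i, v i) ^ 2 - ∑ i, v i ^ 2 := by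
  have h := sum_edge_eq (n := n) (fun _ => 1) fun a b => v a * v b
  simp only [one_mul] at h
  rw [h]
  have hc : ∀ a b : Fin n, upper (fun _ : Edge n => (1:ℝ)) a b + upper (fun _ : Edge n => (1:ℝ)) b a =
      if a = b then 0 else 1 := by
    intro a b
    unfold upper
    rcases lt_trichotomy a b with h | h | h
    · simp [h, h.not_gt, h.ne]
    · simp [h]
    · simp [h, h.not_gt, h.ne']
  have hs : ∑ a, ∑ b, upper (fun _ : Edge n => (1:ℝ)) a b * (v a * v b) =
      ∑ a, ∑ b, upper (fun _ : Edge n => (1:ℝ)) b a * (v a * v b) := by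
    conv_lhs => rw [Finset.sum_comm]
    exact Finset.sum_congr rfl fun a _ => Finset.sum_congr rfl fun b _ => by ring
  rw [two_mul]
  nth_rewrite 2 [hs]
  simp only [← Finset.sum_add_distrib, ← add_mul, hc]
  rw [sq, Finset.sum_mul_sum, ← Finset.sum_sub_distrib]
  refine Finset.sum_congr rfl fun a _ => ?_
  have : ∀ b, (if a = b then (0:ℝ) else 1) * (v a * v b) = v a * v b - if a = b then v a * v b else 0 := by
    intro b; split <;> ring
  rw [Finset.sum_congr rfl fun b _ => this b, Finset.sum_sub_distrib, Finset.sum_ite_eq]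
  simp [sq]

lemma sum_coef_mul (hn : 0 < n) (x y : Cfg n) :
    2 * ∑ e, coef x e * coef y e = n * qsq x y - 1 := by
  have hn' : (0:ℝ) < n := by exact_mod_cast hn
  set v := fun i => spin (x i) * spin (y i)
  have hv : ∀ i, v i ^ 2 = 1 := fun i => by
    simp only [v]; rw [sq]
    linear_combination (spin (y i) * spin (y i)) * spin_mul_self (x i) + spin_mul_self (y i)
  have h := two_sum_edge v
  simp only [hv, Finset.sum_const, Finset.card_univ, Fintype.card_fin, nsmul_eq_mul, mul_one] at h
  have e1 : 2 * ∑ e, coef x e * coef y e = (2 * ∑ e : Edge n, v e.1.1 * v e.1.2) / n := by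
    rw [mul_div_assoc, Finset.sum_div]
    congr 1
    refine Finset.sum_congr rfl fun e _ => ?_
    simp only [coef, v, div_mul_div_comm, Real.mul_self_sqrt hn'.le]
    ring
  rw [e1, h, qsq]
  field_simp
  simp only [v]

lemma qsq_self (hn : 0 < n) (x : Cfg n) : qsq x x = 1 := by
  have hn' : (n:ℝ) ≠ 0 := by exact_mod_cast hn.ne'
  simp [qsq, spin_mul_self, hn']

lemma qsq_mem (x y : Cfg n) : 0 ≤ qsq x y ∧ qsq x y ≤ 1 := by
  refine ⟨sq_nonneg _, ?_⟩
  rw [qsq, sq_le_one_iff_abs_le_one, abs_div, Nat.abs_cast]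
  refine div_le_one_of_le₀ ((Finset.abs_sum_le_sum_abs _ _).trans ?_) (Nat.cast_nonneg _)
  have : ∀ i, |spin (x i) * spin (y i)| = 1 := fun i => by cases x i <;> cases y i <;> simp [spin]
  simp [this]

lemma mgf_linear (c : Edge n → ℝ) :
    ∫ w, Real.exp (∑ e, c e * w e) ∂disorder n = Real.exp ((∑ e, c e ^ 2) / 2) := by
  unfold disorder
  simp only [Real.exp_sum]
  rw [integral_fintype_prod_eq_prod (fun e (t : ℝ) => Real.exp (c e * t)), Finset.sum_div, Real.exp_sum]
  refine Finset.prod_congr rfl fun e _ => ?_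
  have := congrFun (mgf_id_gaussianReal (μ := 0) (v := 1)) (c e)
  simpa [mgf, id] using this

lemma integrable_linear (c : Edge n → ℝ) :
    Integrable (fun w => Real.exp (∑ e, c e * w e)) (disorder n) := by
  simp only [Real.exp_sum]
  exact Integrable.fintype_prod (f := fun e (t : ℝ) => Real.exp (c e * t))
    fun e => integrable_exp_mul_gaussianReal (c e)

@[fun_prop]
lemma measurable_energy (x : Cfg n) : Measurable fun g : Edge n → ℝ => energy g x := by
  unfold energy; fun_prop

lemma mgf_energy (hn : 0 < n) (t : ℝ) (x : Cfg n) :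
    ∫ w, Real.exp (t * energy w x) ∂disorder n = Real.exp (t ^ 2 * (n - 1) / 4) ∧
      Integrable (fun w => Real.exp (t * energy w x)) (disorder n) := by
  have e : ∀ w : Edge n → ℝ, t * energy w x = ∑ d, (t * coef x d) * w d := fun w => by
    rw [energy_coef, Finset.mul_sum]; simp only [mul_assoc]
  simp only [e, mgf_linear]
  refine ⟨?_, integrable_linear _⟩
  congr 1
  have h := sum_coef_mul hn x x
  rw [qsq_self hn] at h
  simp only [mul_pow, ← Finset.mul_sum, sq (coef x _)]
  linear_combination (t ^ 2 / 4) * h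

lemma tail_energy (hn : 0 < n) {r : ℝ} (hr : 0 ≤ r) (x : Cfg n) :
    (disorder n).real {g | r * n < |energy g x|} ≤ 2 * Real.exp (-(r ^ 2 * n)) := by
  have hn' : (0:ℝ) < n := by exact_mod_cast hn
  set θ := 2 * r
  have key : ∀ σ : ℝ, (σ = 1 ∨ σ = -1) →
      (disorder n).real {g | r * n ≤ σ * energy g x} ≤ Real.exp (-(r ^ 2 * n)) := by
    intro σ hσ
    obtain ⟨h1, h2⟩ := mgf_energy hn (θ * σ) x
    have hm := ProbabilityTheory.measure_ge_le_exp_mul_mgf (μ := disorder n) (X := fun g => σ * energy g x)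
      (r * n) (t := θ) (by positivity) (by simpa [mul_assoc] using h2)
    refine hm.trans ?_
    simp only [mgf, ← mul_assoc, h1]
    rw [← Real.exp_add]
    refine Real.exp_le_exp.2 ?_
    have hσ2 : σ ^ 2 = 1 := by rcases hσ with h | h <;> simp [h]
    simp only [θ, mul_pow, hσ2, mul_one]
    have := mul_nonneg (sq_nonneg r) (show (0:ℝ) ≤ 1 from zero_le_one)
    linarith
  have hsub : {g : Edge n → ℝ | r * n < |energy g x|} ⊆
      {g | r * n ≤ (1:ℝ) * energy g x} ∪ {g | r * n ≤ (-1:ℝ) * energy g x} := fun g hg => by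
    simp only [Set.mem_ofPred_eq, Set.mem_union, one_mul, neg_one_mul] at hg ⊢
    rcases abs_choice (energy g x) with h | h <;> rw [h] at hg
    · exact Or.inl hg.le
    · exact Or.inr hg.le
  refine (measureReal_mono hsub).trans ((measureReal_union_le _ _).trans ?_)
  linarith [key 1 (Or.inl rfl), key (-1) (Or.inr rfl)]

/-- all energies are at most `r n` in absolute value -/
def Bounded (r : ℝ) (g : Edge n → ℝ) : Prop := ∀ x, |energy g x| ≤ r * n

lemma measurable_bounded (r : ℝ) : MeasurableSet {g : Edge n → ℝ | Bounded r g} := by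
  simp only [Bounded, Set.ofPred_forall]
  exact MeasurableSet.iInter fun x => measurableSet_le (measurable_energy x).norm measurable_const

lemma prob_unbounded (hn : 0 < n) {r : ℝ} (hr : 0 ≤ r) :
    (disorder n).real {g | ¬ Bounded r g} ≤ 2 * Real.exp (-((r ^ 2 - Real.log 2) * n)) := by
  have hsub : {g : Edge n → ℝ | ¬ Bounded r g} ⊆ ⋃ x, {g | r * n < |energy g x|} := fun g hg => by
    simp only [Bounded, Set.mem_ofPred_eq, not_forall, not_le] at hg
    simpa using hg
  refine (measureReal_mono hsub).trans ((measureReal_iUnion_fintype_le _).trans ?_)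
  refine (Finset.sum_le_sum fun x _ => tail_energy hn hr x).trans (le_of_eq ?_)
  rw [Finset.sum_const, Finset.card_univ, Fintype.card_fun, Fintype.card_bool, Fintype.card_fin, nsmul_eq_mul]
  push_cast
  have : (2:ℝ) ^ n = Real.exp (Real.log 2 * n) := by
    rw [mul_comm, Real.exp_nat_mul, Real.exp_log two_pos]
  rw [this, mul_left_comm, ← Real.exp_add]
  congr 2; ring

lemma exp_secant {u v : ℝ} (hv : 0 ≤ v) (hv1 : v ≤ 1) : Real.exp (u * v) ≤ 1 + Real.exp u * v := by
  have := convexOn_exp.2 (Set.mem_univ u) (Set.mem_univ (0:ℝ)) hv (show 0 ≤ 1 - v by linarith) (by ring)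
  simp only [smul_eq_mul, Real.exp_zero, mul_zero, add_zero, mul_one] at this
  rw [mul_comm u v]
  linarith

/-- second-moment lower bound for a random tilt of a fixed probability vector -/
lemma tilt_small (hn : 0 < n) (p : Cfg n → ℝ) (hp : ∀ x, 0 ≤ p x) (hp1 : ∑ x, p x = 1) (t : ℝ) :
    (disorder n).real {w | ∑ x, p x * Real.exp (t * energy w x) < Real.exp (t ^ 2 * (n - 1) / 4) / 2} ≤
      4 * Real.exp (t ^ 2 * n / 2) * ∑ x, ∑ y, p x * p y * qsq x y := by
  set Z := fun w => ∑ x, p x * Real.exp (t * energy w x)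
  set e := Real.exp (t ^ 2 * (n - 1) / 4) with he
  have he0 : 0 < e := Real.exp_pos _
  have iterm : ∀ x, Integrable (fun w => p x * Real.exp (t * energy w x)) (disorder n) :=
    fun x => (mgf_energy hn t x).2.const_mul _
  have iZ : Integrable Z (disorder n) := integrable_finsetSum _ fun x _ => iterm x
  have eZ : ∫ w, Z w ∂disorder n = e := by
    simp only [Z]
    rw [integral_finsetSum _ fun x _ => iterm x]
    simp [integral_const_mul, (mgf_energy hn t _).1, ← Finset.sum_mul, hp1, e]
  have hsq : ∀ w, Z w ^ 2 = ∑ x, ∑ y, p x * p y * Real.exp (∑ d, (t * (coef x d + coef y d)) * w d) := by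
    intro w
    simp only [Z, sq, Finset.sum_mul_sum, energy_coef]
    refine Finset.sum_congr rfl fun x _ => Finset.sum_congr rfl fun y _ => ?_
    rw [mul_mul_mul_comm, ← Real.exp_add, Finset.mul_sum, Finset.mul_sum, ← Finset.sum_add_distrib]
    congr 2
    exact Finset.sum_congr rfl fun d _ => by ring
  have ipair : ∀ x y, Integrable (fun w => p x * p y * Real.exp (∑ d, (t * (coef x d + coef y d)) * w d))
      (disorder n) := fun x y => (integrable_linear _).const_mul _
  have iZ2 : Integrable (fun w => Z w ^ 2) (disorder n) := by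
    simp only [hsq]; exact integrable_finsetSum _ fun x _ => integrable_finsetSum _ fun y _ => ipair x y
  have eZ2 : ∫ w, Z w ^ 2 ∂disorder n ≤
      e ^ 2 * (1 + Real.exp (t ^ 2 * n / 2) * ∑ x, ∑ y, p x * p y * qsq x y) := by
    simp only [hsq]
    rw [integral_finsetSum _ fun x _ => integrable_finsetSum _ fun y _ => ipair x y]
    have h1 : e ^ 2 * (1 + Real.exp (t ^ 2 * n / 2) * ∑ x, ∑ y, p x * p y * qsq x y) =
        ∑ x, ∑ y, p x * p y * (e ^ 2 * (1 + Real.exp (t ^ 2 * n / 2) * qsq x y)) := by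
      have hpp : ∑ x, ∑ y, p x * p y = 1 := by
        simp only [← Finset.mul_sum, hp1, mul_one]
      rw [mul_add (e ^ 2), mul_one]
      nth_rewrite 1 [show e ^ 2 = e ^ 2 * ∑ x, ∑ y, p x * p y by rw [hpp, mul_one]]
      simp only [Finset.mul_sum, ← Finset.sum_add_distrib]
      exact Finset.sum_congr rfl fun x _ => Finset.sum_congr rfl fun y _ => by ring
    rw [h1]
    refine Finset.sum_le_sum fun x _ => ?_
    rw [integral_finsetSum _ fun y _ => ipair x y]
    refine Finset.sum_le_sum fun y _ => ?_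
    rw [integral_const_mul, mgf_linear]
    refine mul_le_mul_of_nonneg_left ?_ (mul_nonneg (hp x) (hp y))
    have hc : (∑ d, (t * (coef x d + coef y d)) ^ 2) / 2 =
        2 * (t ^ 2 * (n - 1) / 4) + t ^ 2 * (n * qsq x y - 1) / 2 := by
      have hx := sum_coef_mul hn x x
      have hy := sum_coef_mul hn y y
      rw [qsq_self hn] at hx hy
      have e3 : ∑ d, (t * (coef x d + coef y d)) ^ 2 = t ^ 2 * (∑ d, coef x d * coef x d +
          ∑ d, coef y d * coef y d + 2 * ∑ d, coef x d * coef y d) := by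
        simp only [Finset.mul_sum, ← Finset.sum_add_distrib]
        exact Finset.sum_congr rfl fun d _ => by ring
      rw [e3]
      linear_combination (t ^ 2 / 4) * hx + (t ^ 2 / 4) * hy + (t ^ 2 / 2) * sum_coef_mul hn x y
    have hsq2 : e ^ 2 = Real.exp (2 * (t ^ 2 * (n - 1) / 4)) := by
      rw [he, ← Real.exp_nat_mul]; norm_num
    rw [hc, Real.exp_add, hsq2]
    refine mul_le_mul_of_nonneg_left ?_ (Real.exp_pos _).le
    refine le_trans (Real.exp_le_exp.2 ?_) (exp_secant (qsq_mem x y).1 (qsq_mem x y).2)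
    have := sq_nonneg t; linarith
  set S := {w | Z w < e / 2}
  have hS : MeasurableSet S := measurableSet_lt (by fun_prop) measurable_const
  have hi : Integrable (fun w => (Z w - e) ^ 2) (disorder n) := by
    simp only [sub_sq]; exact (iZ2.sub ((iZ.const_mul 2).mul_const e)).add (integrable_const _)
  have h1 : (e / 2) ^ 2 * (disorder n).real S ≤ ∫ w, (Z w - e) ^ 2 ∂disorder n := by
    have := integral_mono ((integrable_const ((e/2)^2)).indicator hS) hi fun w => by
      by_cases hw : w ∈ S
      · rw [Set.indicator_of_mem hw]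
        have h : Z w < e / 2 := hw
        calc (e / 2) ^ 2 ≤ (e - Z w) ^ 2 := pow_le_pow_left₀ (by positivity) (by linarith) 2
          _ = _ := by ring
      · rw [Set.indicator_of_notMem hw]; positivity
    rwa [integral_indicator_const _ hS, smul_eq_mul, mul_comm] at this
  have h2 : ∫ w, (Z w - e) ^ 2 ∂disorder n = ∫ w, Z w ^ 2 ∂disorder n - e ^ 2 := by
    simp only [sub_sq]
    have i1 : Integrable (fun w => Z w ^ 2 - 2 * Z w * e) (disorder n) := iZ2.sub ((iZ.const_mul 2).mul_const e)
    rw [integral_add i1 (integrable_const _), integral_sub iZ2 ((iZ.const_mul 2).mul_const e),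
      integral_mul_const, integral_const_mul, eZ]
    simp; ring
  rw [h2] at h1
  refine le_of_mul_le_mul_left ?_ (sq_pos_of_pos (show 0 < e / 2 by positivity))
  refine h1.trans ?_
  linarith [eZ2]

lemma charFun_linear (c : Edge n → ℝ) :
    ∫ w, Complex.exp ((∑ e, c e * w e : ℝ) * Complex.I) ∂disorder n =
      Complex.exp (-((∑ e, c e ^ 2 : ℝ) : ℂ) / 2) := by
  unfold disorder
  push_cast
  simp only [Finset.sum_mul, Complex.exp_sum]
  rw [integral_fintype_prod_eq_prod
    (fun e (t : ℝ) => Complex.exp ((c e : ℂ) * (t : ℂ) * Complex.I)), ← Finset.sum_neg_distrib,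
    Finset.sum_div, Complex.exp_sum]
  refine Finset.prod_congr rfl fun e _ => ?_
  rw [← charFun_apply_real, charFun_gaussianReal]
  congr 1
  push_cast
  ring

/-- pairs obtained from two or three independent copies with the same covariance have the same law -/
lemma dual_pair (L : StrongDual ℝ ((Edge n → ℝ) × (Edge n → ℝ))) :
    ∃ p q : Edge n → ℝ, ∀ u v, L (u, v) = (∑ e, p e * u e) + ∑ e, q e * v e := by
  refine ⟨fun e => L (Pi.single e 1, 0), fun e => L (0, Pi.single e 1), fun u v => ?_⟩
  have : (u, v) = (∑ e, u e • ((Pi.single e 1 : Edge n → ℝ), (0 : Edge n → ℝ))) +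
      ∑ e, v e • ((0 : Edge n → ℝ), (Pi.single e 1 : Edge n → ℝ)) := by
    ext j <;> simp [Prod.fst_sum, Prod.snd_sum, Finset.sum_apply, Pi.single_apply]
  rw [this, map_add, map_sum, map_sum]
  simp only [map_smul, smul_eq_mul, mul_comm]

lemma charFun_two (L : StrongDual ℝ ((Edge n → ℝ) × (Edge n → ℝ))) (α₁ α₂ β₁ β₂ : ℝ)
    (p q : Edge n → ℝ) (hL : ∀ u v, L (u, v) = (∑ e, p e * u e) + ∑ e, q e * v e) :
    charFunDual (((disorder n).prod (disorder n)).map
      fun z => ((fun e => α₁ * z.1 e + α₂ * z.2 e), fun e => β₁ * z.1 e + β₂ * z.2 e)) L =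
      Complex.exp (-((∑ e, (p e * α₁ + q e * β₁) ^ 2 + ∑ e, (p e * α₂ + q e * β₂) ^ 2 : ℝ) : ℂ) / 2) := by
  rw [charFunDual_apply, integral_map (by fun_prop) (by fun_prop)]
  simp only [hL]
  have e : ∀ z : (Edge n → ℝ) × (Edge n → ℝ),
      Complex.exp ((((∑ e, p e * (α₁ * z.1 e + α₂ * z.2 e)) + ∑ e, q e * (β₁ * z.1 e + β₂ * z.2 e) : ℝ) : ℂ) * Complex.I)
      = Complex.exp ((∑ e, (p e * α₁ + q e * β₁) * z.1 e : ℝ) * Complex.I) *
        Complex.exp ((∑ e, (p e * α₂ + q e * β₂) * z.2 e : ℝ) * Complex.I) := by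
    intro z
    rw [← Complex.exp_add, ← add_mul, ← Complex.ofReal_add, ← Finset.sum_add_distrib, ← Finset.sum_add_distrib]
    congr 4
    funext e; ring
  simp only [e]
  rw [integral_prod_mul (fun u : Edge n → ℝ => Complex.exp ((∑ e, (p e * α₁ + q e * β₁) * u e : ℝ) * Complex.I))
    (fun u : Edge n → ℝ => Complex.exp ((∑ e, (p e * α₂ + q e * β₂) * u e : ℝ) * Complex.I)),
    charFun_linear, charFun_linear, ← Complex.exp_add]
  congr 1; push_cast; ring

/-- rotating two independent copies -/
lemma rotation (a b : ℝ) (hab : a ^ 2 + b ^ 2 = 1) :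
    MeasurePreserving (fun z : (Edge n → ℝ) × (Edge n → ℝ) =>
      ((fun e => a * z.1 e + b * z.2 e), fun e => b * z.1 e + (-a) * z.2 e))
      ((disorder n).prod (disorder n)) ((disorder n).prod (disorder n)) := by
  refine ⟨by fun_prop, ?_⟩
  apply Measure.ext_of_charFunDual
  ext L
  obtain ⟨p, q, hL⟩ := dual_pair L
  have hid := charFun_two L 1 0 0 1 p q hL
  simp only [one_mul, zero_mul, add_zero, zero_add] at hid
  rw [Measure.map_id'] at hid
  rw [charFun_two L a b b (-a) p q hL, hid]
  congr 4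
  rw [← Finset.sum_add_distrib, ← Finset.sum_add_distrib]
  refine Finset.sum_congr rfl fun e _ => ?_
  linear_combination (p e ^ 2 + q e ^ 2) * hab

/-- positive correlation of an event under a Gaussian perturbation -/
lemma correlation (a b : ℝ) (ha : 0 ≤ a) (hab : a ^ 2 + b ^ 2 = 1) {A : Set (Edge n → ℝ)} (hA : MeasurableSet A) :
    (disorder n).real A ^ 2 ≤
      ((disorder n).prod (disorder n)).real {z | z.1 ∈ A ∧ (fun e => a * z.1 e + b * z.2 e) ∈ A} := by
  classical
  have ha1 : a ≤ 1 := by
    have : a ^ 2 ≤ 1 := by linarith [sq_nonneg b]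
    exact (abs_le.1 ((sq_le_one_iff_abs_le_one a).1 this)).2
  set D := disorder n
  set α := Real.sqrt a
  set κ := Real.sqrt (1 - a)
  have hα : α ^ 2 = a := Real.sq_sqrt ha
  have hκ : κ ^ 2 = 1 - a := Real.sq_sqrt (by linarith)
  set P := fun u v : Edge n → ℝ => (fun e => α * u e + κ * v e : Edge n → ℝ)
  have hPm : Measurable fun z : (Edge n → ℝ) × (Edge n → ℝ) => P z.1 z.2 := by fun_prop
  set φ := fun u => ∫ v, A.indicator (fun _ => (1:ℝ)) (P u v) ∂D
  have i0 : Integrable (fun z : (Edge n → ℝ) × (Edge n → ℝ) => A.indicator (fun _ => (1:ℝ)) (P z.1 z.2)) (D.prod D) := by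
    refine Integrable.of_bound ((measurable_const.indicator hA).comp hPm).aestronglyMeasurable 1
      (Filter.Eventually.of_forall fun z => ?_)
    rw [Set.indicator_apply]; split <;> norm_num
  have hmean : ∫ u, φ u ∂D = D.real A := by
    have hmap : (D.prod D).map (fun z => P z.1 z.2) = D := by
      apply Measure.ext_of_charFunDual
      ext L
      set p := fun e => L (Pi.single e 1)
      have hL : ∀ u, L u = ∑ e, p e * u e := fun u => by
        conv_lhs => rw [pi_eq_sum_univ' u]
        simp [map_sum, p, mul_comm]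
      rw [charFunDual_apply, charFunDual_apply, integral_map (by fun_prop) (by fun_prop)]
      simp only [hL, charFun_linear, P]
      have e : ∀ z : (Edge n → ℝ) × (Edge n → ℝ),
          Complex.exp (((∑ e, p e * (α * z.1 e + κ * z.2 e) : ℝ) : ℂ) * Complex.I) =
          Complex.exp ((∑ e, (p e * α) * z.1 e : ℝ) * Complex.I) *
            Complex.exp ((∑ e, (p e * κ) * z.2 e : ℝ) * Complex.I) := by
        intro z
        rw [← Complex.exp_add, ← add_mul, ← Complex.ofReal_add, ← Finset.sum_add_distrib]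
        congr 4; funext e; ring
      simp only [e]
      rw [integral_prod_mul (fun u : Edge n → ℝ => Complex.exp ((∑ e, (p e * α) * u e : ℝ) * Complex.I))
        (fun u : Edge n → ℝ => Complex.exp ((∑ e, (p e * κ) * u e : ℝ) * Complex.I)),
        charFun_linear, charFun_linear, charFun_linear, ← Complex.exp_add]
      have hs : ∑ e, (p e * α) ^ 2 + ∑ e, (p e * κ) ^ 2 = ∑ e, p e ^ 2 := by
        rw [← Finset.sum_add_distrib]
        exact Finset.sum_congr rfl fun e _ => by rw [mul_pow, mul_pow, hα, hκ]; ring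
      congr 1
      rw [← hs]; push_cast; ring
    show ∫ u, ∫ v, A.indicator (fun _ => (1:ℝ)) (P u v) ∂D ∂D = _
    rw [← integral_prod _ i0, ← integral_map (φ := fun z : (Edge n → ℝ) × (Edge n → ℝ) => P z.1 z.2)
      hPm.aemeasurable (measurable_const.indicator hA).aestronglyMeasurable, hmap,
      integral_indicator_const _ hA]
    simp
  set T := fun z : (Edge n → ℝ) × ((Edge n → ℝ) × (Edge n → ℝ)) => (P z.1 z.2.1, P z.1 z.2.2)
  have hTm : Measurable T := by fun_prop
  have hlaw : (D.prod (D.prod D)).map T =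
      (D.prod D).map (fun z => ((fun e => 1 * z.1 e + 0 * z.2 e), fun e => a * z.1 e + b * z.2 e)) := by
    apply Measure.ext_of_charFunDual
    ext L
    obtain ⟨p, q, hL⟩ := dual_pair L
    rw [charFun_two L 1 0 a b p q hL, charFunDual_apply, integral_map hTm.aemeasurable (by fun_prop)]
    simp only [T, P, hL]
    have e : ∀ z : (Edge n → ℝ) × ((Edge n → ℝ) × (Edge n → ℝ)),
        Complex.exp ((((∑ e, p e * (α * z.1 e + κ * z.2.1 e)) + ∑ e, q e * (α * z.1 e + κ * z.2.2 e) : ℝ) : ℂ) * Complex.I) =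
        Complex.exp ((∑ e, ((p e + q e) * α) * z.1 e : ℝ) * Complex.I) *
          (Complex.exp ((∑ e, (p e * κ) * z.2.1 e : ℝ) * Complex.I) *
            Complex.exp ((∑ e, (q e * κ) * z.2.2 e : ℝ) * Complex.I)) := by
      intro z
      rw [← Complex.exp_add, ← Complex.exp_add, ← add_mul, ← add_mul, ← Complex.ofReal_add, ← Complex.ofReal_add,
        ← Finset.sum_add_distrib, ← Finset.sum_add_distrib, ← Finset.sum_add_distrib]
      congr 4; funext e; ring
    simp only [e]
    rw [integral_prod_mul (fun u : Edge n → ℝ => Complex.exp ((∑ e, ((p e + q e) * α) * u e : ℝ) * Complex.I))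
      (fun z : (Edge n → ℝ) × (Edge n → ℝ) => Complex.exp ((∑ e, (p e * κ) * z.1 e : ℝ) * Complex.I) *
            Complex.exp ((∑ e, (q e * κ) * z.2 e : ℝ) * Complex.I)),
      integral_prod_mul (fun u : Edge n → ℝ => Complex.exp ((∑ e, (p e * κ) * u e : ℝ) * Complex.I))
        (fun u : Edge n → ℝ => Complex.exp ((∑ e, (q e * κ) * u e : ℝ) * Complex.I)),
      charFun_linear, charFun_linear, charFun_linear, ← Complex.exp_add, ← Complex.exp_add]
    have hs : ∑ e, ((p e + q e) * α) ^ 2 + (∑ e, (p e * κ) ^ 2 + ∑ e, (q e * κ) ^ 2) =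
        ∑ e, (p e * 1 + q e * a) ^ 2 + ∑ e, (p e * 0 + q e * b) ^ 2 := by
      simp only [← Finset.sum_add_distrib]
      refine Finset.sum_congr rfl fun e _ => ?_
      linear_combination ((p e + q e) ^ 2) * hα + (p e ^ 2 + q e ^ 2) * hκ - q e ^ 2 * hab
    congr 1
    rw [← hs]; push_cast; ring
  have hAA : MeasurableSet {y : (Edge n → ℝ) × (Edge n → ℝ) | y.1 ∈ A ∧ y.2 ∈ A} :=
    (hA.preimage measurable_fst).inter (hA.preimage measurable_snd)
  have hpair : (D.prod D).real {z | z.1 ∈ A ∧ (fun e => a * z.1 e + b * z.2 e) ∈ A} = ∫ u, φ u ^ 2 ∂D := by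
    have h1 : (D.prod D).real {z | z.1 ∈ A ∧ (fun e => a * z.1 e + b * z.2 e) ∈ A} =
        (((D.prod D).map (fun z => ((fun e => 1 * z.1 e + 0 * z.2 e), fun e => a * z.1 e + b * z.2 e))).real
          {y | y.1 ∈ A ∧ y.2 ∈ A}) := by
      rw [map_measureReal_apply (by fun_prop) hAA]
      simp
    rw [h1, ← hlaw, map_measureReal_apply hTm hAA, ← integral_indicator_one (hTm hAA)]
    have e : ∀ z : (Edge n → ℝ) × ((Edge n → ℝ) × (Edge n → ℝ)),
        (T ⁻¹' {y | y.1 ∈ A ∧ y.2 ∈ A}).indicator (1 : (Edge n → ℝ) × ((Edge n → ℝ) × (Edge n → ℝ)) → ℝ) z =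
          A.indicator (fun _ => (1:ℝ)) (P z.1 z.2.1) * A.indicator (fun _ => (1:ℝ)) (P z.1 z.2.2) := by
      intro z
      by_cases h1 : P z.1 z.2.1 ∈ A <;> by_cases h2 : P z.1 z.2.2 ∈ A <;> simp [T, h1, h2]
    simp only [e]
    rw [integral_prod]
    · congr 1; funext u
      rw [integral_prod_mul (fun v => A.indicator (fun _ => (1:ℝ)) (P u v))
        (fun v => A.indicator (fun _ => (1:ℝ)) (P u v)), sq]
    · refine Integrable.of_bound ?_ 1 (Filter.Eventually.of_forall fun z => ?_)
      · exact (((measurable_const.indicator hA).comp (by fun_prop : Measurable fun z :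
            (Edge n → ℝ) × ((Edge n → ℝ) × (Edge n → ℝ)) => P z.1 z.2.1)).mul
          ((measurable_const.indicator hA).comp (by fun_prop : Measurable fun z :
            (Edge n → ℝ) × ((Edge n → ℝ) × (Edge n → ℝ)) => P z.1 z.2.2))).aestronglyMeasurable
      · simp only [Set.indicator_apply]; split <;> split <;> norm_num
  rw [hpair, ← hmean]
  have hφm : Measurable φ :=
    (((measurable_const.indicator hA).comp hPm).stronglyMeasurable.integral_prod_right').measurable
  have hφb : ∀ u, |φ u| ≤ 1 := fun u => by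
    rw [← Real.norm_eq_abs]
    refine (norm_integral_le_of_norm_le_const (C := 1) (Filter.Eventually.of_forall fun v => ?_)).trans_eq (by simp)
    rw [Set.indicator_apply]; split <;> norm_num
  have iφ : Integrable φ D := Integrable.of_bound hφm.aestronglyMeasurable 1 (Filter.Eventually.of_forall fun u => hφb u)
  have iφ2 : Integrable (fun u => φ u ^ 2) D := Integrable.of_bound (hφm.pow_const 2).aestronglyMeasurable 1
    (Filter.Eventually.of_forall fun u => by rw [Real.norm_eq_abs, abs_pow]; exact pow_le_one₀ (abs_nonneg _) (hφb u))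
  set m := ∫ u, φ u ∂D
  have : 0 ≤ ∫ u, (φ u - m) ^ 2 ∂D := integral_nonneg fun u => sq_nonneg _
  have i1 : Integrable (fun u => φ u ^ 2 - 2 * φ u * m) D := iφ2.sub ((iφ.const_mul 2).mul_const m)
  simp only [sub_sq] at this
  rw [integral_add i1 (integrable_const _), integral_sub iφ2 ((iφ.const_mul 2).mul_const m),
    integral_mul_const, integral_const_mul] at this
  simp only [integral_const, probReal_univ, one_smul] at this
  linarith

end Vale.Agent.P150
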