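import Vale.Agent.P150.GaussCalc

/-! Gaussian comparison for powers of exponential sums. -/

open MeasureTheory ProbabilityTheory

namespace Vale.Agent.P150

variable {α ι κ : Type*} [Fintype α] [Nonempty α] [Fintype ι] [Fintype κ]

/-- exponential sum -/
noncomputable def esum (a : α → ι → ℝ) (z : ι → ℝ) : ℝ := ∑ x, Real.exp (dot (a x) z)

lemma esum_pos (a : α → ι → ℝ) (z : ι → ℝ) : 0 < esum a z :=
  Finset.sum_pos (fun _ _ => Real.exp_pos _) Finset.univ_nonempty

omit [Nonempty α] in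
lemma esum_le {a : α → ι → ℝ} {A : ℝ} (ha : ∀ x k, |a x k| ≤ A) (z : ι → ℝ) :
    esum a z ≤ Fintype.card α * Real.exp (A * l1 z) := by
  refine (Finset.sum_le_card_nsmul _ _ (Real.exp (A * l1 z)) fun x _ =>
    Real.exp_le_exp.2 ((le_abs_self _).trans (abs_dot_le (ha x) z))).trans (le_of_eq ?_)
  rw [nsmul_eq_mul, Finset.card_univ]

lemma rpow_le_add_one {u r : ℝ} (hu : 0 < u) (h0 : 0 ≤ r) (h1 : r ≤ 1) : u ^ r ≤ u + 1 := by
  rcases le_total u 1 with h | h
  · linarith [Real.rpow_le_one hu.le h h0]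
  · linarith [Real.rpow_le_self_of_one_le h h1]

lemma esum_rpow_integrable (a : α → ι → ℝ) {r : ℝ} (h0 : 0 ≤ r) (h1 : r ≤ 1) :
    Integrable (fun z => esum a z ^ r) (gauss ι) := by
  set A := ∑ x, ∑ k, |a x k|
  have ha : ∀ x k, |a x k| ≤ A := fun x k =>
    (Finset.single_le_sum (f := fun k => |a x k|) (fun _ _ => abs_nonneg _) (Finset.mem_univ k)).trans
      (Finset.single_le_sum (f := fun y => ∑ k, |a y k|) (fun y _ => Finset.sum_nonneg fun _ _ => abs_nonneg _)
        (Finset.mem_univ x))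
  have hA : 0 ≤ A := Finset.sum_nonneg fun y _ => Finset.sum_nonneg fun _ _ => abs_nonneg _
  refine integrable_of_bound (C := Fintype.card α + 1) (M := A)
    ((by unfold esum dot; fun_prop : Continuous (esum a)).rpow_const fun z => Or.inl (esum_pos a z).ne') fun z => ?_
  rw [abs_of_pos (Real.rpow_pos_of_pos (esum_pos a z) r), add_mul, one_mul]
  exact (rpow_le_add_one (esum_pos a z) h0 h1).trans
    (add_le_add (esum_le ha z) (Real.one_le_exp (mul_nonneg hA (l1_nonneg z))))

variable [DecidableEq ι] [DecidableEq κ]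

/-- Slepian-type comparison -/
theorem slepian (a : α → ι → ℝ) (c : α → κ → ℝ) {r : ℝ} (h0 : 0 < r) (h1 : r ≤ 1)
    (hdiag : ∀ x, ∑ k, a x k * a x k = ∑ k, c x k * c x k)
    (hcross : ∀ x y, ∑ k, c x k * c y k ≤ ∑ k, a x k * a y k) :
    ∫ z, esum a z ^ r ∂gauss ι ≤ ∫ z, esum c z ^ r ∂gauss κ := by
  set v := fun (φ : ℝ) (x : α) => Sum.elim (fun k => Real.cos φ * a x k) (fun k => Real.sin φ * c x k) with hv
  set v' := fun (φ : ℝ) (x : α) => Sum.elim (fun k => -Real.sin φ * a x k) (fun k => Real.cos φ * c x k) with hv'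
  set A := (∑ x, ∑ k, |a x k|) + ∑ x, ∑ k, |c x k| with hAdef
  have hA : 0 ≤ A := add_nonneg (Finset.sum_nonneg fun _ _ => Finset.sum_nonneg fun _ _ => abs_nonneg _)
    (Finset.sum_nonneg fun _ _ => Finset.sum_nonneg fun _ _ => abs_nonneg _)
  have hba : ∀ x k, |a x k| ≤ A := fun x k =>
    ((Finset.single_le_sum (f := fun k => |a x k|) (fun _ _ => abs_nonneg _) (Finset.mem_univ k)).trans
      (Finset.single_le_sum (f := fun y => ∑ k, |a y k|) (fun y _ => Finset.sum_nonneg fun _ _ => abs_nonneg _)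
        (Finset.mem_univ x))).trans (le_add_of_nonneg_right (Finset.sum_nonneg fun _ _ => Finset.sum_nonneg fun _ _ => abs_nonneg _))
  have hbc : ∀ x k, |c x k| ≤ A := fun x k =>
    ((Finset.single_le_sum (f := fun k => |c x k|) (fun _ _ => abs_nonneg _) (Finset.mem_univ k)).trans
      (Finset.single_le_sum (f := fun y => ∑ k, |c y k|) (fun y _ => Finset.sum_nonneg fun _ _ => abs_nonneg _)
        (Finset.mem_univ x))).trans (le_add_of_nonneg_left (Finset.sum_nonneg fun _ _ => Finset.sum_nonneg fun _ _ => abs_nonneg _))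
  have bv : ∀ φ x k, |v φ x k| ≤ A := fun φ x k => by
    cases k with
    | inl k => simp only [hv, Sum.elim_inl, abs_mul]; exact (mul_le_of_le_one_left (abs_nonneg _) (Real.abs_cos_le_one φ)).trans (hba x k)
    | inr k => simp only [hv, Sum.elim_inr, abs_mul]; exact (mul_le_of_le_one_left (abs_nonneg _) (Real.abs_sin_le_one φ)).trans (hbc x k)
  have bv' : ∀ φ x k, |v' φ x k| ≤ A := fun φ x k => by
    cases k with
    | inl k => simp only [hv', Sum.elim_inl, abs_mul, abs_neg]; exact (mul_le_of_le_one_left (abs_nonneg _) (Real.abs_sin_le_one φ)).trans (hba x k)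
    | inr k => simp only [hv', Sum.elim_inr, abs_mul]; exact (mul_le_of_le_one_left (abs_nonneg _) (Real.abs_cos_le_one φ)).trans (hbc x k)
  have dv : ∀ φ x k, HasDerivAt (fun t => v t x k) (v' φ x k) φ := fun φ x k => by
    cases k with
    | inl k => simpa [hv, hv'] using (Real.hasDerivAt_cos φ).mul_const (a x k)
    | inr k => simpa [hv, hv'] using (Real.hasDerivAt_sin φ).mul_const (c x k)
  set u := fun φ (z : ι ⊕ κ → ℝ) => esum (v φ) z with hu
  set G := fun φ k (z : ι ⊕ κ → ℝ) => ∑ x, Real.exp (dot (v φ x) z) * v' φ x k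
  set P := fun φ k (z : ι ⊕ κ → ℝ) => ∑ x, Real.exp (dot (v φ x) z) * v φ x k
  set Q := fun φ k (z : ι ⊕ κ → ℝ) => ∑ x, Real.exp (dot (v φ x) z) * (v φ x k * v' φ x k)
  set ψ := fun φ k (z : ι ⊕ κ → ℝ) => u φ z ^ (r - 1) * G φ k z with hψ
  set ψ' := fun φ k (z : ι ⊕ κ → ℝ) => (r - 1) * u φ z ^ (r - 1) * (P φ k z / u φ z) * G φ k z + u φ z ^ (r - 1) * Q φ k z with hψ'
  have hupos : ∀ φ z, 0 < u φ z := fun φ z => esum_pos _ z
  have bexp : ∀ φ x (z : ι ⊕ κ → ℝ), Real.exp (-(A * l1 z)) ≤ Real.exp (dot (v φ x) z) ∧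
      Real.exp (dot (v φ x) z) ≤ Real.exp (A * l1 z) := fun φ x z => by
    have := abs_le.1 (abs_dot_le (bv φ x) z)
    exact ⟨Real.exp_le_exp.2 this.1, Real.exp_le_exp.2 this.2⟩
  have bpow : ∀ φ z, u φ z ^ (r - 1) ≤ 2 * Real.exp (A * l1 z) := fun φ z => by
    rw [Real.rpow_sub_one (hupos φ z).ne']
    obtain ⟨x₀⟩ := (inferInstance : Nonempty α)
    have h3 : Real.exp (-(A * l1 z)) ≤ u φ z :=
      (bexp φ x₀ z).1.trans (Finset.single_le_sum (f := fun x => Real.exp (dot (v φ x) z)) (fun _ _ => (Real.exp_pos _).le) (Finset.mem_univ x₀))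
    have h4 : (u φ z)⁻¹ ≤ Real.exp (A * l1 z) := by
      rw [← inv_inv (Real.exp (A * l1 z)), ← Real.exp_neg]
      exact inv_anti₀ (Real.exp_pos _) h3
    rw [div_le_iff₀ (hupos φ z)]
    refine (rpow_le_add_one (hupos φ z) h0.le h1).trans ?_
    have h5 : 1 ≤ Real.exp (A * l1 z) * u φ z := by
      have := mul_le_mul_of_nonneg_right h4 (hupos φ z).le
      rwa [inv_mul_cancel₀ (hupos φ z).ne'] at this
    have h6 := mul_le_mul_of_nonneg_right (Real.one_le_exp (mul_nonneg hA (l1_nonneg z))) (hupos φ z).le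
    linarith
  set N := (Fintype.card α : ℝ)
  have bsum : ∀ φ (z : ι ⊕ κ → ℝ) (w : α → ℝ) (B : ℝ), (∀ x, |w x| ≤ B) →
      |∑ x, Real.exp (dot (v φ x) z) * w x| ≤ B * u φ z ∧
      |∑ x, Real.exp (dot (v φ x) z) * w x| ≤ B * (N * Real.exp (A * l1 z)) := fun φ z w B hw => by
    have hB : 0 ≤ B := (abs_nonneg _).trans (hw (Classical.arbitrary α))
    have h : |∑ x, Real.exp (dot (v φ x) z) * w x| ≤ B * u φ z := by
      simp only [hu, esum, Finset.mul_sum]
      refine (Finset.abs_sum_le_sum_abs _ _).trans (Finset.sum_le_sum fun x _ => ?_)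
      rw [abs_mul, Real.abs_exp, mul_comm]
      exact mul_le_mul_of_nonneg_right (hw x) (Real.exp_pos _).le
    exact ⟨h, h.trans (mul_le_mul_of_nonneg_left (esum_le (bv φ) z) hB)⟩
  have bψ : ∀ φ k z, |ψ φ k z| ≤ 2 * N * A * Real.exp ((2 * A) * l1 z) := fun φ k z => by
    simp only [hψ]
    rw [abs_mul, abs_of_pos (Real.rpow_pos_of_pos (hupos φ z) _), two_mul A, add_mul A A, Real.exp_add]
    refine (mul_le_mul (bpow φ z) (bsum φ z (fun x => v' φ x k) A fun x => bv' φ x k).2 (abs_nonneg _) (by positivity)).trans (le_of_eq ?_)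
    ring
  have bψ' : ∀ φ k z, |ψ' φ k z| ≤ (4 * N * A ^ 2) * Real.exp ((2 * A) * l1 z) := fun φ k z => by
    have hup := Real.rpow_pos_of_pos (hupos φ z) (r - 1)
    have h3 : |P φ k z / u φ z| ≤ A := by
      rw [abs_div, abs_of_pos (hupos φ z), div_le_iff₀ (hupos φ z)]
      exact (bsum φ z (fun x => v φ x k) A fun x => bv φ x k).1
    have h4 : |Q φ k z| ≤ A ^ 2 * (N * Real.exp (A * l1 z)) :=
      (bsum φ z (fun x => v φ x k * v' φ x k) (A ^ 2) fun x => by
        rw [abs_mul, sq]; exact mul_le_mul (bv φ x k) (bv' φ x k) (abs_nonneg _) hA).2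
    simp only [hψ']
    refine (abs_add_le _ _).trans ?_
    rw [abs_mul, abs_mul, abs_mul, abs_mul, abs_of_pos hup, two_mul A, add_mul A A, Real.exp_add]
    have hr1 : |r - 1| ≤ 1 := abs_le.2 ⟨by linarith, by linarith⟩
    refine (add_le_add (mul_le_mul (mul_le_mul (mul_le_mul hr1 (bpow φ z) hup.le zero_le_one) h3 (abs_nonneg _) (by positivity))
      (bsum φ z (fun x => v' φ x k) A fun x => bv' φ x k).2 (abs_nonneg _) (by positivity))
      (mul_le_mul (bpow φ z) h4 (abs_nonneg _) (by positivity))).trans (le_of_eq ?_)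
    ring
  have cu : ∀ φ, Continuous (u φ) := fun φ => by simp only [hu, esum, dot]; fun_prop
  have cpow : ∀ φ, Continuous fun z => u φ z ^ (r - 1) := fun φ =>
    (cu φ).rpow_const fun z => Or.inl (hupos φ z).ne'
  have cG : ∀ φ k, Continuous (G φ k) := fun φ k => by simp only [G, dot]; fun_prop
  have cP : ∀ φ k, Continuous (P φ k) := fun φ k => by simp only [P, dot]; fun_prop
  have cQ : ∀ φ k, Continuous (Q φ k) := fun φ k => by simp only [Q, dot]; fun_prop
  have cψ : ∀ φ k, Continuous (ψ φ k) := fun φ k => (cpow φ).mul (cG φ k)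
  have cψ' : ∀ φ k, Continuous (ψ' φ k) := fun φ k =>
    (((continuous_const.mul (cpow φ)).mul ((cP φ k).div (cu φ) fun z => (hupos φ z).ne')).mul (cG φ k)).add
      ((cpow φ).mul (cQ φ k))
  have hd : ∀ φ k z t, HasDerivAt (fun s => ψ φ k (Function.update z k s)) (ψ' φ k (Function.update z k t)) t := by
    intro φ k z t
    have hu' := hasDerivAt_pi.1 (hasDerivAt_update z k t)
    have hdot : ∀ x, HasDerivAt (fun s => dot (v φ x) (Function.update z k s)) (v φ x k) t := fun x => by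
      refine (HasDerivAt.fun_sum fun j _ => (hu' j).const_mul (v φ x j)).congr_deriv ?_
      simp [Pi.single_apply]
    have du : HasDerivAt (fun s => u φ (Function.update z k s)) (P φ k (Function.update z k t)) t :=
      HasDerivAt.fun_sum fun x _ => (hdot x).exp
    have dG : HasDerivAt (fun s => G φ k (Function.update z k s)) (Q φ k (Function.update z k t)) t := by
      refine (HasDerivAt.fun_sum fun x _ => ((hdot x).exp).mul_const (v' φ x k)).congr_deriv ?_
      exact Finset.sum_congr rfl fun x _ => by ring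
    refine ((du.rpow_const (p := r - 1) (Or.inl (hupos φ _).ne')).mul dG).congr_deriv ?_
    simp only [hψ']
    rw [Real.rpow_sub_one (hupos φ _).ne' (r - 1)]
    ring
  have hpt : ∀ φ z, HasDerivAt (fun t => u t z ^ r) (∑ k, r * (z k * ψ φ k z)) φ := by
    intro φ z
    have hdot : ∀ x, HasDerivAt (fun t => dot (v t x) z) (∑ k, v' φ x k * z k) φ := fun x =>
      HasDerivAt.fun_sum fun k _ => (dv φ x k).mul_const (z k)
    have du : HasDerivAt (fun t => u t z) (∑ x, Real.exp (dot (v φ x) z) * ∑ k, v' φ x k * z k) φ :=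
      HasDerivAt.fun_sum fun x _ => (hdot x).exp
    refine (du.rpow_const (p := r) (Or.inl (hupos φ z).ne')).congr_deriv ?_
    simp only [hψ, G, Finset.mul_sum, Finset.sum_mul]
    rw [Finset.sum_comm]
    exact Finset.sum_congr rfl fun k _ => Finset.sum_congr rfl fun x _ => by ring
  set Φ := fun φ => ∫ z, u φ z ^ r ∂gauss (ι ⊕ κ)
  have hΦ : ∀ φ, HasDerivAt Φ (∑ k, r * ∫ z, ψ' φ k z ∂gauss (ι ⊕ κ)) φ := by
    intro φ
    have hb : ∀ t, |t - φ| ≤ 1 → ∀ z : ι ⊕ κ → ℝ, |∑ k, r * (z k * ψ t k z)| ≤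
        (Fintype.card (ι ⊕ κ) * (2 * N * A)) * Real.exp ((2 * A + 1) * l1 z) := fun t _ z => by
      refine (Finset.abs_sum_le_sum_abs _ _).trans ((Finset.sum_le_card_nsmul _ _ (2 * N * A * Real.exp ((2 * A + 1) * l1 z)) fun k _ => ?_).trans (le_of_eq ?_))
      · rw [abs_mul, abs_mul, add_mul (2 * A) 1 (l1 z), one_mul, Real.exp_add, ← mul_assoc (2 * N * A), mul_comm |z k|]
        refine (mul_le_of_le_one_left (by positivity) (abs_le.2 ⟨by linarith, h1⟩)).trans ?_
        exact mul_le_mul (bψ t k z) (((abs_le_l1 z k).trans (le_add_of_nonneg_right zero_le_one)).trans (Real.add_one_le_exp _))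
          (abs_nonneg _) (by positivity)
      · rw [nsmul_eq_mul, Finset.card_univ]; ring
    have hb0 : ∀ z, |u φ z ^ r| ≤ (N + 1) * Real.exp (A * l1 z) := fun z => by
      rw [abs_of_pos (Real.rpow_pos_of_pos (hupos φ z) r), add_mul, one_mul]
      exact (rpow_le_add_one (hupos φ z) h0.le h1).trans
        (add_le_add (esum_le (bv φ) z) (Real.one_le_exp (mul_nonneg hA (l1_nonneg z))))
    refine (hasDerivAt_gauss_integral (F := fun t z => u t z ^ r) (F' := fun t z => ∑ k, r * (z k * ψ t k z))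
      (fun t => (cu t).rpow_const fun z => Or.inl (hupos t z).ne')
      (fun t => continuous_finsetSum _ fun k _ => continuous_const.mul ((continuous_apply k).mul (cψ t k))) hb0 hb hpt).congr_deriv ?_
    have izψ : ∀ k, Integrable (fun z => z k * ψ φ k z) (gauss (ι ⊕ κ)) := fun k =>
      integrable_of_bound (C := 2 * N * A) (M := 2 * A + 1) ((continuous_apply k).mul (cψ φ k)) fun z => by
        rw [abs_mul, add_mul (2 * A) 1 (l1 z), one_mul, Real.exp_add, ← mul_assoc (2 * N * A), mul_comm |z k|]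
        exact mul_le_mul (bψ φ k z) (((abs_le_l1 z k).trans (le_add_of_nonneg_right zero_le_one)).trans (Real.add_one_le_exp _))
          (abs_nonneg _) (by positivity)
    rw [integral_finsetSum _ fun k _ => (izψ k).const_mul r]
    refine Finset.sum_congr rfl fun k _ => ?_
    rw [integral_const_mul, gauss_ibp k (C := max (2 * N * A) (4 * N * A ^ 2)) (by positivity) (cψ φ k) (cψ' φ k)
      (fun z => (bψ φ k z).trans (mul_le_mul_of_nonneg_right (le_max_left _ _) (Real.exp_pos _).le))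
      (fun z => (bψ' φ k z).trans (mul_le_mul_of_nonneg_right (le_max_right _ _) (Real.exp_pos _).le)) (hd φ k)]
  have hsign : ∀ φ, 0 ≤ φ → φ ≤ Real.pi / 2 → 0 ≤ ∑ k, r * ∫ z, ψ' φ k z ∂gauss (ι ⊕ κ) := by
    intro φ hφ0 hφ1
    have hsc : 0 ≤ Real.sin φ * Real.cos φ := mul_nonneg
      (Real.sin_nonneg_of_nonneg_of_le_pi hφ0 (by linarith [Real.pi_pos]))
      (Real.cos_nonneg_of_mem_Icc ⟨by linarith [Real.pi_pos], hφ1⟩)
    have cross : ∀ x y, ∑ k, v φ x k * v' φ y k =
        Real.sin φ * Real.cos φ * (∑ k, c x k * c y k - ∑ k, a x k * a y k) := fun x y => by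
      simp only [hv, hv', Fintype.sum_sum_type, Sum.elim_inl, Sum.elim_inr, mul_sub, Finset.mul_sum]
      rw [sub_eq_add_neg, ← Finset.sum_neg_distrib, add_comm]
      congr 1 <;> exact Finset.sum_congr rfl fun k _ => by ring
    rw [← Finset.mul_sum, ← integral_finsetSum _ fun k _ => integrable_of_bound (cψ' φ k) (bψ' φ k)]
    refine mul_nonneg h0.le (integral_nonneg fun z => ?_)
    have hQ : ∑ k, Q φ k z = 0 := by
      simp only [Q]
      rw [Finset.sum_comm]
      simp only [← Finset.mul_sum, cross, hdiag, sub_self, mul_zero, Finset.sum_const_zero]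
    have hPG : ∑ k, P φ k z * G φ k z ≤ 0 := by
      have e : ∑ k, P φ k z * G φ k z = ∑ x, ∑ y, Real.exp (dot (v φ x) z) * Real.exp (dot (v φ y) z) * ∑ k, v φ x k * v' φ y k := by
        simp only [P, G, Finset.sum_mul_sum]
        simp only [Finset.mul_sum]
        rw [Finset.sum_comm]
        refine Finset.sum_congr rfl fun x _ => ?_
        rw [Finset.sum_comm]
        exact Finset.sum_congr rfl fun y _ => Finset.sum_congr rfl fun k _ => by ring
      rw [e]
      refine Finset.sum_nonpos fun x _ => Finset.sum_nonpos fun y _ => ?_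
      rw [cross]
      exact mul_nonpos_of_nonneg_of_nonpos (by positivity)
        (mul_nonpos_of_nonneg_of_nonpos hsc (sub_nonpos.2 (hcross x y)))
    show 0 ≤ ∑ k, ψ' φ k z
    have e : ∑ k, ψ' φ k z = (r - 1) * (u φ z ^ (r - 1) / u φ z) * ∑ k, P φ k z * G φ k z := by
      simp only [hψ']
      rw [Finset.sum_add_distrib, ← Finset.mul_sum (a := u φ z ^ (r - 1)), hQ, mul_zero, add_zero, Finset.mul_sum]
      exact Finset.sum_congr rfl fun k _ => by ring
    rw [e]
    exact mul_nonneg_of_nonpos_of_nonpos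
      (mul_nonpos_of_nonpos_of_nonneg (by linarith) (div_nonneg (Real.rpow_nonneg (hupos φ z).le _) (hupos φ z).le)) hPG
  have hmono : MonotoneOn Φ (Set.Icc 0 (Real.pi / 2)) := by
    refine monotoneOn_of_hasDerivWithinAt_nonneg (convex_Icc _ _)
      (fun t _ => (hΦ t).continuousAt.continuousWithinAt) (fun t _ => (hΦ t).hasDerivWithinAt) fun t ht => ?_
    rw [interior_Icc] at ht
    exact hsign t ht.1.le ht.2.le
  have hπ : (0:ℝ) ≤ Real.pi / 2 := by positivity
  have hfin := hmono (Set.left_mem_Icc.2 hπ) (Set.right_mem_Icc.2 hπ) hπ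
  have hmp : MeasurePreserving (MeasurableEquiv.sumPiEquivProdPi fun _ : ι ⊕ κ => ℝ) (gauss (ι ⊕ κ)) ((gauss ι).prod (gauss κ)) :=
    measurePreserving_sumPiEquivProdPi (X := fun _ : ι ⊕ κ => ℝ) fun _ => gaussianReal 0 1
  have e0 : Φ 0 = ∫ z, esum a z ^ r ∂gauss ι := by
    rw [show Φ 0 = ∫ z, (fun p : (ι → ℝ) × (κ → ℝ) => esum a p.1 ^ r)
        (MeasurableEquiv.sumPiEquivProdPi (fun _ : ι ⊕ κ => ℝ) z) ∂gauss (ι ⊕ κ) from by
      refine integral_congr_ae (Filter.Eventually.of_forall fun z => ?_)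
      simp only [hu, hv, esum, dot, Fintype.sum_sum_type, Sum.elim_inl, Sum.elim_inr, Real.cos_zero, Real.sin_zero, one_mul, zero_mul, Finset.sum_const_zero, add_zero]
      rfl, hmp.integral_comp' (g := fun p : (ι → ℝ) × (κ → ℝ) => esum a p.1 ^ r),
      integral_fun_fst (fun z => esum a z ^ r)]
    simp
  have e1 : Φ (Real.pi / 2) = ∫ z, esum c z ^ r ∂gauss κ := by
    rw [show Φ (Real.pi / 2) = ∫ z, (fun p : (ι → ℝ) × (κ → ℝ) => esum c p.2 ^ r)
        (MeasurableEquiv.sumPiEquivProdPi (fun _ : ι ⊕ κ => ℝ) z) ∂gauss (ι ⊕ κ) from by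
      refine integral_congr_ae (Filter.Eventually.of_forall fun z => ?_)
      simp only [hu, hv, esum, dot, Fintype.sum_sum_type, Sum.elim_inl, Sum.elim_inr, Real.cos_pi_div_two, Real.sin_pi_div_two, one_mul, zero_mul, Finset.sum_const_zero, zero_add]
      rfl, hmp.integral_comp' (g := fun p : (ι → ℝ) × (κ → ℝ) => esum c p.2 ^ r),
      integral_fun_snd (fun z => esum c z ^ r)]
    simp
  rwa [e0, e1] at hfin

end Vale.Agent.P150
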