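import Vale.Agent.P150.Mixing
import Vale.Agent.P150.Slepian
import Vale.Agent.P150.Gauss
import Vale.Agent.P157.Upper

/-! High-probability bounds on the coupling matrix. -/

open MeasureTheory ProbabilityTheory

namespace Vale.Agent.P150

variable {n : ℕ}

lemma disorder_eq_gauss (n : ℕ) : disorder n = gauss (Edge n) := rfl

lemma quad_coupling (g : Edge n → ℝ) (v : Fin n → ℝ) :
    ∑ i, ∑ j, coupling g i j * (v i * v j) = ∑ e : Edge n, (2 * (v e.1.1 * v e.1.2)) * g e := by
  have h : ∑ i, ∑ j, coupling g i j * (v i * v j) = 2 * ∑ i, ∑ j, upper g i j * (v i * v j) := by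
    simp only [coupling_eq, add_mul, Finset.sum_add_distrib]
    rw [Finset.sum_comm (f := fun i j => upper g j i * (v i * v j)), two_mul]
    congr 1
    exact Finset.sum_congr rfl fun i _ => Finset.sum_congr rfl fun j _ => by ring
  rw [h, ← sum_edge_eq g fun a b => v a * v b, Finset.mul_sum]
  exact Finset.sum_congr rfl fun e _ => by ring

/-- padded covariance vectors of the quadratic form -/
noncomputable def padVec (s : ℝ) (v : Fin n → ℝ) : Edge n ⊕ Option (Fin n) → ℝ :=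
  Sum.elim (fun e => s * (2 * (v e.1.1 * v e.1.2)))
    (fun o => o.elim (Real.sqrt 2) fun i => Real.sqrt 2 * v i ^ 2)

lemma padVec_inner {s : ℝ} (hs : s * s = 1) (v w : Fin n → ℝ) :
    ∑ k, padVec s v k * padVec s w k = 2 * (∑ i, v i * w i) ^ 2 + 2 := by
  have h2 := Real.mul_self_sqrt (two_pos (α := ℝ)).le
  have h := two_sum_edge fun i => v i * w i
  simp only [Fintype.sum_sum_type, Fintype.sum_option, padVec, Sum.elim_inl, Sum.elim_inr, Option.elim]
  have e1 : ∑ e : Edge n, s * (2 * (v e.1.1 * v e.1.2)) * (s * (2 * (w e.1.1 * w e.1.2))) =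
      2 * (2 * ∑ e : Edge n, v e.1.1 * w e.1.1 * (v e.1.2 * w e.1.2)) := by
    simp only [Finset.mul_sum]
    exact Finset.sum_congr rfl fun e _ => by
      linear_combination (4 * (v e.1.1 * v e.1.2) * (w e.1.1 * w e.1.2)) * hs
  have e2 : ∑ i, Real.sqrt 2 * v i ^ 2 * (Real.sqrt 2 * w i ^ 2) = 2 * ∑ i, (v i * w i) ^ 2 := by
    rw [Finset.mul_sum]
    exact Finset.sum_congr rfl fun i _ => by linear_combination (v i ^ 2 * w i ^ 2) * h2
  rw [e1, e2, h, h2]; ring

/-- all quadratic forms on a finite set of unit vectors are at most `a√n`, with high probability -/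
lemma net_bound_gen {α : Type*} [Fintype α] [Nonempty α] (v : α → Fin n → ℝ) (hv : ∀ a, ∑ i, v a i ^ 2 = 1)
    {s ε r a₀ : ℝ} (hs : s * s = 1) (hε : 0 < ε) (hε4 : ε ≤ 1 / 4) (hr : 0 < r) (hr1 : r ≤ 1) (hn : 0 < n) :
    (gauss (Edge n)).real {g | ∃ a, a₀ * Real.sqrt n < s * ∑ i, ∑ j, coupling g i j * (v a i * v a j)} ≤
      (Fintype.card α : ℝ) ^ r * Real.exp (-(n * (ε * (a₀ - 2) - 4 * ε ^ 2))) := by
  have hn' : (0:ℝ) < n := by exact_mod_cast hn
  set rn := Real.sqrt n
  have hrn : 0 < rn := Real.sqrt_pos.2 hn'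
  have hrn2 : rn * rn = n := Real.mul_self_sqrt hn'.le
  set σ := ε * rn with hσ
  have hσ0 : 0 < σ := by positivity
  set A := fun a k => σ / r * padVec s (v a) k with hA
  set C := fun a i => σ / r * (2 * v a i) with hC
  have hcomp := slepian A C hr hr1 (fun a => by
      simp only [hA, hC, mul_mul_mul_comm _ (padVec s (v a) _), mul_mul_mul_comm _ (2 * v a _), ← Finset.mul_sum, padVec_inner hs]
      have e : ∑ i, 2 * v a i * (2 * v a i) = 4 := by
        rw [show ∑ i, 2 * v a i * (2 * v a i) = 4 * ∑ i, v a i ^ 2 by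
          rw [Finset.mul_sum]; exact Finset.sum_congr rfl fun i _ => by ring, hv, mul_one]
      rw [e, show ∑ i, v a i * v a i = 1 by rw [← hv a]; exact Finset.sum_congr rfl fun i _ => (sq _).symm]
      norm_num)
    (fun a c => by
      simp only [hA, hC, mul_mul_mul_comm _ (padVec s (v a) _), mul_mul_mul_comm _ (2 * v a _), ← Finset.mul_sum, padVec_inner hs]
      refine mul_le_mul_of_nonneg_left ?_ (mul_self_nonneg _)
      rw [show ∑ i, 2 * v a i * (2 * v c i) = 4 * ∑ i, v a i * v c i by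
        rw [Finset.mul_sum]; exact Finset.sum_congr rfl fun i _ => by ring]
      linarith [sq_nonneg (∑ i, v a i * v c i - 1)])
  -- right side
  have hR : ∫ h, esum C h ^ r ∂gauss (Fin n) ≤ (Fintype.card α : ℝ) ^ r * Real.exp (n * (2 * ε + 4 * ε ^ 2)) := by
    obtain ⟨hi, he⟩ := exp_sumsq (ι := Fin n) (show ε < 1 / 2 by linarith)
    have hpt : ∀ h, esum C h ^ r ≤ (Fintype.card α : ℝ) ^ r * (Real.exp (ε * n) * Real.exp (ε * ∑ i, h i ^ 2)) := by
      intro h
      set B := ε * n + ε * ∑ i, h i ^ 2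
      have hb : ∀ a, dot (C a) h ≤ B / r := fun a => by
        have e : dot (C a) h = σ / r * (2 * ∑ i, v a i * h i) := by
          simp only [dot, hC, Finset.mul_sum]
          exact Finset.sum_congr rfl fun i _ => by ring
        rw [e, div_mul_eq_mul_div]
        refine div_le_div_of_nonneg_right ?_ hr.le
        have h1 : ∀ i, 2 * (rn * (v a i * h i)) ≤ rn * rn * v a i ^ 2 + h i ^ 2 := fun i => by
          linarith [sq_nonneg (rn * v a i - h i)]
        have h2 := Finset.sum_le_sum (s := (Finset.univ : Finset (Fin n))) fun i _ => h1 i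
        simp only [← Finset.mul_sum, Finset.sum_add_distrib, hv, hrn2, mul_one] at h2
        have h3 := mul_le_mul_of_nonneg_left h2 hε.le
        simp only [B, hσ]; linarith
      have h4 : esum C h ≤ Fintype.card α * Real.exp (B / r) :=
        (Finset.sum_le_card_nsmul _ _ (Real.exp (B / r)) fun a _ => Real.exp_le_exp.2 (hb a)).trans
          (le_of_eq (by rw [nsmul_eq_mul, Finset.card_univ]))
      refine (Real.rpow_le_rpow (esum_pos C h).le h4 hr.le).trans (le_of_eq ?_)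
      rw [Real.mul_rpow (Nat.cast_nonneg _) (Real.exp_pos _).le, ← Real.exp_mul, div_mul_cancel₀ _ hr.ne',
        ← Real.exp_add]
    refine (integral_mono (esum_rpow_integrable C hr.le hr1) ((hi.const_mul _).const_mul _) hpt).trans ?_
    rw [integral_const_mul, integral_const_mul, he, Fintype.card_fin]
    refine mul_le_mul_of_nonneg_left ?_ (Real.rpow_nonneg (Nat.cast_nonneg _) _)
    have hbase : (Real.sqrt (1 - 2 * ε))⁻¹ ≤ Real.exp (ε + 4 * ε ^ 2) := by
      have h12 : 0 < 1 - 2 * ε := by linarith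
      rw [← Real.sqrt_inv, Real.sqrt_le_left (Real.exp_pos _).le, ← Real.exp_nat_mul, ← Real.log_le_iff_le_exp (inv_pos.2 h12)]
      refine (Real.log_le_sub_one_of_pos (inv_pos.2 h12)).trans ?_
      rw [sub_le_iff_le_add, inv_le_iff_one_le_mul₀ h12]
      push_cast
      have := mul_nonneg (sq_nonneg ε) (by linarith : (0:ℝ) ≤ 1 / 4 - ε)
      linarith
    refine (mul_le_mul_of_nonneg_left (pow_le_pow_left₀ (inv_nonneg.2 (Real.sqrt_nonneg _)) hbase n) (Real.exp_pos _).le).trans (le_of_eq ?_)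
    rw [← Real.exp_nat_mul, ← Real.exp_add]; ring_nf
  -- left side
  set E := {g : Edge n → ℝ | ∃ a, a₀ * rn < s * ∑ i, ∑ j, coupling g i j * (v a i * v a j)}
  have hE : MeasurableSet E := by
    simp only [E, Set.ofPred_exists, quad_coupling]
    exact MeasurableSet.iUnion fun a => measurableSet_lt measurable_const (by fun_prop)
  set cL := Real.exp (σ * (a₀ * rn))
  have hL : (gauss (Edge n)).real E * cL ≤ ∫ z, esum A z ^ r ∂gauss (Edge n ⊕ Option (Fin n)) := by
    have hmp : MeasurePreserving (MeasurableEquiv.sumPiEquivProdPi fun _ : Edge n ⊕ Option (Fin n) => ℝ)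
        (gauss (Edge n ⊕ Option (Fin n))) ((gauss (Edge n)).prod (gauss (Option (Fin n)))) :=
      measurePreserving_sumPiEquivProdPi (X := fun _ : Edge n ⊕ Option (Fin n) => ℝ) fun _ => gaussianReal 0 1
    set F := fun p : (Edge n → ℝ) × (Option (Fin n) → ℝ) => esum A (Sum.elim p.1 p.2) ^ r
    have hcomp' : ∀ z, F (MeasurableEquiv.sumPiEquivProdPi (fun _ : Edge n ⊕ Option (Fin n) => ℝ) z) = esum A z ^ r := fun z => by
      have e : Sum.elim (fun e => z (Sum.inl e)) (fun o => z (Sum.inr o)) = z := funext fun k => by cases k <;> rfl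
      show esum A (Sum.elim (fun e => z (Sum.inl e)) (fun o => z (Sum.inr o))) ^ r = _
      rw [e]
    have hiF : Integrable F ((gauss (Edge n)).prod (gauss (Option (Fin n)))) := by
      rw [← hmp.integrable_comp_emb (MeasurableEquiv.measurableEmbedding _)]
      exact (esum_rpow_integrable A hr.le hr1).congr (Filter.Eventually.of_forall fun z => (hcomp' z).symm)
    rw [← integral_congr_ae (Filter.Eventually.of_forall hcomp'), hmp.integral_comp' (g := F), integral_prod F hiF]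
    refine le_trans (le_of_eq (by rw [integral_indicator_const _ hE, smul_eq_mul]))
      (integral_mono_ae ((integrable_const cL).indicator hE) hiF.integral_prod_left
        (hiF.prod_right_ae.mono fun g hg => ?_))
    by_cases hgE : g ∈ E
    · rw [Set.indicator_of_mem hgE]
      obtain ⟨a, ha⟩ := hgE
      set X := s * ∑ i, ∑ j, coupling g i j * (v a i * v a j) with hX
      set w := fun o : Option (Fin n) => σ * padVec s (v a) (Sum.inr o)
      have hpt : ∀ d, Real.exp (σ * X) * Real.exp (dot w d) ≤ F (g, d) := fun d => by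
        refine le_trans (le_of_eq ?_) (Real.rpow_le_rpow (Real.exp_pos _).le
          (Finset.single_le_sum (f := fun a => Real.exp (dot (A a) (Sum.elim g d))) (fun _ _ => (Real.exp_pos _).le) (Finset.mem_univ a)) hr.le)
        rw [← Real.exp_mul, ← Real.exp_add]
        congr 1
        simp only [dot, Fintype.sum_sum_type, hA, Sum.elim_inl, Sum.elim_inr, w, hX, quad_coupling, padVec, Finset.mul_sum, add_mul, Finset.sum_mul]
        congr 1 <;> exact Finset.sum_congr rfl fun k _ => by field_simp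
      refine le_trans ?_ (integral_mono ((integrable_of_bound (C := 1) (M := ∑ o, |w o|) (by unfold dot; fun_prop) fun d => by
        rw [Real.abs_exp, one_mul]
        exact Real.exp_le_exp.2 ((le_abs_self _).trans (abs_dot_le (fun o => Finset.single_le_sum (f := fun o => |w o|) (fun _ _ => abs_nonneg _) (Finset.mem_univ o)) d))).const_mul _) hg hpt)
      rw [integral_const_mul, mgf_dot]
      exact (Real.exp_le_exp.2 (mul_le_mul_of_nonneg_left ha.le hσ0.le)).trans
        (le_mul_of_one_le_right (Real.exp_pos _).le (Real.one_le_exp (by positivity)))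
    · rw [Set.indicator_of_notMem hgE]
      exact integral_nonneg fun d => Real.rpow_nonneg (esum_pos A _).le r
  have h := hL.trans (hcomp.trans hR)
  rw [← le_div_iff₀ (Real.exp_pos _), mul_div_assoc, ← Real.exp_sub] at h
  refine h.trans (le_of_eq ?_)
  congr 2
  rw [hσ, show ε * rn * (a₀ * rn) = ε * a₀ * (rn * rn) by ring, hrn2]
  ring

/-- all quadratic forms on a finite set of unit vectors are at most `(2+5ε)√n`, with high probability -/
lemma net_bound {α : Type*} [Fintype α] [Nonempty α] (v : α → Fin n → ℝ) (hv : ∀ a, ∑ i, v a i ^ 2 = 1)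
    {s ε r : ℝ} (hs : s * s = 1) (hε : 0 < ε) (hε4 : ε ≤ 1 / 4) (hr : 0 < r) (hr1 : r ≤ 1) (hn : 0 < n) :
    (gauss (Edge n)).real {g | ∃ a, (2 + 5 * ε) * Real.sqrt n < s * ∑ i, ∑ j, coupling g i j * (v a i * v a j)} ≤
      (Fintype.card α : ℝ) ^ r * Real.exp (-(n * ε ^ 2)) :=
  (net_bound_gen v hv hs hε hε4 hr hr1 hn).trans_eq (by ring_nf)

lemma norm_sq_vec (u : P157.Vec n) : ‖u‖ ^ 2 = ∑ i, u i ^ 2 := EuclideanSpace.real_norm_sq_eq u

/-- from a net to all vectors -/
lemma net_to_all {J : Fin n → Fin n → ℝ} (hs : ∀ i j, J i j = J j i) (hn : 0 < n) {δ L : ℝ} (hδ : 0 < δ) (hδ4 : δ ≤ 1 / 4)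
    (S : Finset (P157.Vec n)) (hcov : ∀ u : P157.Vec n, ‖u‖ = 1 → ∃ P ∈ S, ‖u - P‖ ≤ δ / 2)
    (hnear : ∀ P ∈ S, |‖P‖ - 1| ≤ δ / 2)
    (hb : ∀ P ∈ S, |∑ i, ∑ j, J i j * ((‖P‖⁻¹ • P) i * (‖P‖⁻¹ • P) j)| ≤ L) (v : Fin n → ℝ) :
    |∑ i, ∑ j, J i j * (v i * v j)| ≤ L / (1 - 2 * δ) * ∑ i, v i ^ 2 := by
  set q := fun u : P157.Vec n => ∑ i, ∑ j, J i j * (u i * u j) with hq
  obtain ⟨u, hu, hmax⟩ := (isCompact_sphere (0 : P157.Vec n) 1).exists_isMaxOn
    ⟨EuclideanSpace.single ⟨0, hn⟩ (1:ℝ), by simp⟩ (f := fun u => |q u|) (by fun_prop)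
  have hu1 : ‖u‖ = 1 := by simpa using hu
  set M := |q u|
  have hgen : ∀ w, |q w| ≤ M * ‖w‖ ^ 2 := fun w => by
    by_cases hw : w = 0
    · simp [hq, hw]
    have hw' : 0 < ‖w‖ := norm_pos_iff.2 hw
    have h : |q (‖w‖⁻¹ • w)| ≤ M := hmax (show ‖w‖⁻¹ • w ∈ Metric.sphere (0 : P157.Vec n) 1 by simp [norm_smul, hw'.ne'])
    have e : q (‖w‖⁻¹ • w) = q w / ‖w‖ ^ 2 := by
      simp only [hq, PiLp.smul_apply, smul_eq_mul, Finset.sum_div]
      exact Finset.sum_congr rfl fun i _ => Finset.sum_congr rfl fun j _ => by field_simp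
    rw [e, abs_div, abs_of_pos (pow_pos hw' 2), div_le_iff₀ (pow_pos hw' 2)] at h
    exact h
  have hM0 : 0 ≤ M := abs_nonneg _
  set bl := fun x y : P157.Vec n => ∑ i, ∑ j, J i j * (x i * y j) with hbl
  have hsym : ∀ x y, bl x y = bl y x := fun x y => by
    simp only [hbl]; rw [Finset.sum_comm]
    exact Finset.sum_congr rfl fun i _ => Finset.sum_congr rfl fun j _ => by rw [hs j i]; ring
  have hpol : ∀ x y, ‖x‖ = 1 → ‖y‖ = 1 → |bl x y| ≤ M := fun x y hx hy => by
    have e : q (x + y) - q (x - y) = 2 * (bl x y + bl y x) := by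
      simp only [hq, hbl, PiLp.add_apply, PiLp.sub_apply, mul_add, Finset.mul_sum, ← Finset.sum_sub_distrib, ← Finset.sum_add_distrib]
      exact Finset.sum_congr rfl fun i _ => Finset.sum_congr rfl fun j _ => by ring
    have h1 := abs_sub' (hgen (x + y)) (hgen (x - y))
    have h2 : ‖x + y‖ ^ 2 + ‖x - y‖ ^ 2 = 4 := by
      have := parallelogram_law_with_norm ℝ x y
      rw [hx, hy] at this
      linarith [this, sq ‖x + y‖, sq ‖x - y‖]
    rw [e, hsym y x, ← mul_add, h2, ← two_mul, ← mul_assoc, abs_mul, abs_of_pos (by norm_num : (0:ℝ) < 2 * 2)] at h1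
    linarith
  have hbil : ∀ x y, |bl x y| ≤ M * (‖x‖ * ‖y‖) := fun x y => by
    by_cases hx : x = 0
    · simp [hbl, hx]
    by_cases hy : y = 0
    · simp [hbl, hy]
    have hx' := norm_pos_iff.2 hx; have hy' := norm_pos_iff.2 hy
    have h := hpol (‖x‖⁻¹ • x) (‖y‖⁻¹ • y) (by simp [norm_smul, hx'.ne']) (by simp [norm_smul, hy'.ne'])
    have e : bl (‖x‖⁻¹ • x) (‖y‖⁻¹ • y) = bl x y / (‖x‖ * ‖y‖) := by
      simp only [hbl, PiLp.smul_apply, smul_eq_mul, Finset.sum_div]
      exact Finset.sum_congr rfl fun i _ => Finset.sum_congr rfl fun j _ => by field_simp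
    rw [e, abs_div, abs_of_pos (mul_pos hx' hy'), div_le_iff₀ (mul_pos hx' hy')] at h
    exact h
  obtain ⟨P, hP, hd⟩ := hcov u hu1
  obtain ⟨hn1, hn2⟩ := abs_le.1 (hnear P hP)
  have hP0 : 0 < ‖P‖ := by linarith
  set P' := ‖P‖⁻¹ • P
  have hP1 : ‖P'‖ = 1 := by simp [P', norm_smul, hP0.ne']
  have hdist : ‖u - P'‖ ≤ δ := by
    have h3 : ‖P - P'‖ ≤ δ / 2 := by
      have : P - P' = (1 - ‖P‖⁻¹) • P := by simp [P', sub_smul]
      rw [this, norm_smul, Real.norm_eq_abs]
      have e : |1 - ‖P‖⁻¹| * ‖P‖ = |‖P‖ - 1| := by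
        rw [show |1 - ‖P‖⁻¹| * ‖P‖ = |1 - ‖P‖⁻¹| * abs ‖P‖ by rw [abs_norm], ← abs_mul, sub_mul, one_mul, inv_mul_cancel₀ hP0.ne']
      rw [e]; exact hnear P hP
    have := norm_sub_le_norm_sub_add_norm_sub u P P'
    linarith
  have e : q u = q P' + bl (u - P') (u + P') := by
    have h : bl (u - P') (u + P') = q u - q P' + (bl u P' - bl P' u) := by
      simp only [hq, hbl, PiLp.add_apply, PiLp.sub_apply, ← Finset.sum_sub_distrib, ← Finset.sum_add_distrib]
      exact Finset.sum_congr rfl fun i _ => Finset.sum_congr rfl fun j _ => by ring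
    rw [h, hsym P' u]; ring
  have hM : M ≤ L + M * (δ * 2) := by
    refine (le_of_eq (show M = |q P' + bl (u - P') (u + P')| from congrArg abs e)).trans ((abs_add' (hb P hP) (hbil _ _)).trans ?_)
    refine add_le_add le_rfl (mul_le_mul_of_nonneg_left (mul_le_mul hdist ((norm_add_le _ _).trans ?_) (norm_nonneg _) hδ.le) hM0)
    rw [hu1, hP1]; norm_num
  have hMle : M ≤ L / (1 - 2 * δ) := by rw [le_div_iff₀ (by linarith)]; linarith
  have h := hgen (WithLp.toLp 2 v)
  rw [norm_sq_vec] at h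
  exact h.trans (mul_le_mul_of_nonneg_right hMle (Finset.sum_nonneg fun i _ => sq_nonneg _))

lemma card_le_exp {δ : ℝ} (hδ : 0 < δ) (hn : 0 < n) : ∃ S : Finset (P157.Vec n), S.Nonempty ∧
    (∀ u : P157.Vec n, ‖u‖ = 1 → ∃ P ∈ S, ‖u - P‖ ≤ δ / 2) ∧ (∀ P ∈ S, |‖P‖ - 1| ≤ δ / 2) ∧
    (S.card : ℝ) ≤ Real.exp (n * (2 / δ ^ 2 + 1/2 + Real.log 4)) := P157.exists_net hδ hn

/-- the coupling matrix has quadratic form at most `(2+5ε)/(1-2δ) √n`, with high probability -/
lemma opnorm_bound {ε δ : ℝ} (hε : 0 < ε) (hε4 : ε ≤ 1 / 4) (hδ : 0 < δ) (hδ4 : δ ≤ 1 / 4) :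
    ∃ c : ℝ, 0 < c ∧ ∀ n, 0 < n → (disorder n).real
      {g | ∃ v : Fin n → ℝ, (2 + 5 * ε) / (1 - 2 * δ) * Real.sqrt n * ∑ i, v i ^ 2 <
        |∑ i, ∑ j, coupling g i j * (v i * v j)|} ≤ 2 * Real.exp (-(c * n)) := by
  set D := 2 / δ ^ 2 + 1/2 + Real.log 4
  have hD : 0 < D := by have := Real.log_pos (show (1:ℝ) < 4 by norm_num); positivity
  set r := min 1 (ε ^ 2 / (2 * D))
  have hr : 0 < r := lt_min one_pos (by positivity)
  have hr1 : r ≤ 1 := min_le_left _ _
  refine ⟨ε ^ 2 / 2, by positivity, fun n hn => ?_⟩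
  obtain ⟨S, hS, hcov, hnear, hcard⟩ := card_le_exp hδ hn
  have : Nonempty S := ⟨⟨hS.choose, hS.choose_spec⟩⟩
  set v := fun P : S => fun i => ((‖(P : P157.Vec n)‖⁻¹) • (P : P157.Vec n)) i
  have hv : ∀ P : S, ∑ i, v P i ^ 2 = 1 := fun P => by
    have h0 : 0 < ‖(P : P157.Vec n)‖ := by have := (abs_le.1 (hnear P P.2)).1; linarith
    rw [← norm_sq_vec, norm_smul]; simp [h0.ne']
  have hb : ∀ s : ℝ, s * s = 1 → (disorder n).real
      {g | ∃ a : S, (2 + 5 * ε) * Real.sqrt n < s * ∑ i, ∑ j, coupling g i j * (v a i * v a j)} ≤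
      Real.exp (-(ε ^ 2 / 2 * n)) := fun s hs => by
    rw [disorder_eq_gauss]
    refine (net_bound v hv hs hε hε4 hr hr1 hn).trans ?_
    refine (mul_le_mul_of_nonneg_right (Real.rpow_le_rpow (Nat.cast_nonneg _)
      ((Fintype.card_coe S).symm ▸ hcard) hr.le) (Real.exp_pos _).le).trans ?_
    rw [← Real.exp_mul, ← Real.exp_add]
    refine Real.exp_le_exp.2 ?_
    have h1 : D * r ≤ ε ^ 2 / 2 := by
      calc D * r ≤ D * (ε ^ 2 / (2 * D)) := mul_le_mul_of_nonneg_left (min_le_right _ _) hD.le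
        _ = ε ^ 2 / 2 := by field_simp
    have := mul_le_mul_of_nonneg_left h1 (Nat.cast_nonneg n : (0:ℝ) ≤ n)
    simp only [D] at this
    linarith
  refine (measureReal_mono (s₂ := {g | ∃ a : S, (2 + 5 * ε) * Real.sqrt n < (1:ℝ) * ∑ i, ∑ j, coupling g i j * (v a i * v a j)} ∪
      {g | ∃ a : S, (2 + 5 * ε) * Real.sqrt n < (-1:ℝ) * ∑ i, ∑ j, coupling g i j * (v a i * v a j)}) fun g hg => ?_).trans
    ((measureReal_union_le _ _).trans (by linarith [hb 1 (by norm_num), hb (-1) (by norm_num)]))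
  by_contra hcon
  simp only [Set.mem_union, Set.mem_ofPred_eq, not_or, not_exists, not_lt, one_mul, neg_one_mul] at hcon
  obtain ⟨w, hw⟩ := hg
  have := net_to_all (fun i j => coupling_symm g i j) hn hδ hδ4 S hcov hnear
    (fun P hP => abs_le.2 ⟨by linarith [hcon.2 ⟨P, hP⟩], hcon.1 ⟨P, hP⟩⟩) w
  rw [show (2 + 5 * ε) * Real.sqrt n / (1 - 2 * δ) = (2 + 5 * ε) / (1 - 2 * δ) * Real.sqrt n from mul_div_right_comm _ _ _] at this
  exact absurd hw (not_lt.2 this)

lemma coupling_sq (g : Edge n → ℝ) (i j : Fin n) : coupling g i j ^ 2 = coupling (fun e => g e ^ 2) i j := by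
  unfold coupling; split_ifs <;> simp

/-- incidence indicator -/
def inc (i : Fin n) (e : Edge n) : ℝ := if e.1.1 = i ∨ e.1.2 = i then 1 else 0

lemma row_eq (g : Edge n → ℝ) (i : Fin n) : ∑ j, coupling g i j = ∑ e : Edge n, g e * inc i e := by
  have e : ∀ e : Edge n, inc i e = (if e.1.1 = i then (1:ℝ) else 0) + if e.1.2 = i then 1 else 0 := fun e => by
    unfold inc
    have := e.2.ne
    by_cases h1 : e.1.1 = i <;> by_cases h2 : e.1.2 = i <;> simp [h1, h2] <;> simp_all
  simp only [e]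
  rw [sum_edge_eq g fun a b => (if a = i then (1:ℝ) else 0) + if b = i then 1 else 0]
  simp only [coupling_eq, mul_add, Finset.sum_add_distrib, mul_ite, mul_one, mul_zero, Finset.sum_ite_eq', Finset.mem_univ, if_true]
  rw [Finset.sum_comm (f := fun a b => if a = i then upper g a b else 0)]
  simp

lemma exp_weighted (w : Edge n → ℝ) (hw : ∀ e, w e = 0 ∨ w e = 1) :
    Integrable (fun g : Edge n → ℝ => Real.exp (1 / 4 * ∑ e, w e * g e ^ 2)) (gauss (Edge n)) ∧
      ∫ g, Real.exp (1 / 4 * ∑ e, w e * g e ^ 2) ∂gauss (Edge n) ≤ Real.exp ((∑ e, w e) * (Real.log 2 / 2)) := by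
  simp only [Finset.mul_sum, Real.exp_sum, gauss]
  have h0 := integral_exp_mul_sq (show (1:ℝ) / 4 < 1 / 2 by norm_num)
  have hi : ∀ e, Integrable (fun t : ℝ => Real.exp (1 / 4 * (w e * t ^ 2))) (gaussianReal 0 1) := fun e => by
    rcases hw e with h | h
    · simp [h]
    · simpa [h] using h0.1
  refine ⟨Integrable.fintype_prod (f := fun e (t : ℝ) => Real.exp (1 / 4 * (w e * t ^ 2))) hi, ?_⟩
  rw [integral_fintype_prod_eq_prod (fun e (t : ℝ) => Real.exp (1 / 4 * (w e * t ^ 2))), Finset.sum_mul, Real.exp_sum]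
  refine Finset.prod_le_prod (fun e _ => integral_nonneg fun t => (Real.exp_pos _).le) fun e _ => le_of_eq ?_
  rcases hw e with h | h
  · simp [h]
  · simp only [h, one_mul]
    rw [h0.2, ← Real.sqrt_inv, show (1:ℝ) - 2 * (1 / 4) = 1 / 2 by norm_num, one_div, inv_inv,
      Real.sqrt_eq_rpow, Real.rpow_def_of_pos two_pos]
    ring_nf

lemma weighted_tail (w : Edge n → ℝ) (hw : ∀ e, w e = 0 ∨ w e = 1) (L : ℝ) :
    (disorder n).real {g | L ≤ ∑ e, w e * g e ^ 2} ≤ Real.exp ((∑ e, w e) * (Real.log 2 / 2) - L / 4) := by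
  obtain ⟨hi, hE⟩ := exp_weighted w hw
  rw [← disorder_eq_gauss] at hi hE
  refine (ProbabilityTheory.measure_ge_le_exp_mul_mgf (μ := disorder n) (X := fun g => ∑ e, w e * g e ^ 2)
    L (t := 1 / 4) (by norm_num) hi).trans ?_
  rw [mgf, sub_eq_add_neg, Real.exp_add, mul_comm]
  refine (mul_le_mul_of_nonneg_right hE (Real.exp_pos _).le).trans_eq ?_
  ring_nf

lemma row_bound (i : Fin n) :
    (disorder n).real {g | 2 * (n:ℝ) ≤ ∑ j, coupling g i j ^ 2} ≤ Real.exp (-((1 - Real.log 2) / 2 * n)) := by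
  have h01 : ∀ e, inc i e = 0 ∨ inc i e = 1 := fun e => by unfold inc; split <;> simp
  have hcount : ∑ e, inc i e ≤ (n:ℝ) := by
    have h := row_eq (fun _ => (1:ℝ)) i
    simp only [one_mul] at h
    rw [← h]
    refine (Finset.sum_le_card_nsmul _ _ (1:ℝ) fun j _ => ?_).trans_eq (by simp)
    unfold coupling; split_ifs <;> norm_num
  have e : ∀ g : Edge n → ℝ, ∑ j, coupling g i j ^ 2 = ∑ e, inc i e * g e ^ 2 := fun g => by
    simp only [coupling_sq, row_eq, mul_comm]
  simp only [e]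
  refine (weighted_tail _ h01 _).trans (Real.exp_le_exp.2 ?_)
  have := mul_le_mul_of_nonneg_right hcount (div_nonneg (Real.log_pos one_lt_two).le two_pos.le)
  linarith

lemma entry_bound (e : Edge n) {L : ℝ} (hL : 0 ≤ L) :
    (disorder n).real {g | L < |g e|} ≤ Real.exp (Real.log 2 / 2 - L ^ 2 / 4) := by
  refine le_trans (measureReal_mono (s₂ := {g : Edge n → ℝ | L ^ 2 ≤ ∑ e', (if e' = e then (1:ℝ) else 0) * g e' ^ 2}) ?_)
    ((weighted_tail _ (fun e' => by split <;> simp) (L ^ 2)).trans_eq (by simp))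
  intro g hg
  simp only [Set.mem_ofPred_eq, ite_mul, one_mul, zero_mul, Finset.sum_ite_eq', Finset.mem_univ, if_true] at hg ⊢
  rw [← sq_abs (g e)]
  exact pow_le_pow_left₀ hL hg.le 2

end Vale.Agent.P150
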