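import Vale.Agent.P150.RSBound

/-! Gibbs mean energy, convexity of the free energy and the overlap identity. -/

open MeasureTheory ProbabilityTheory

namespace Vale.Agent.P150

variable {n : ℕ}

/-- Gibbs mean of the energy -/
noncomputable def meanE (β : ℝ) (g : Edge n → ℝ) : ℝ := ∑ x, gibbs β g x * energy g x

lemma jensen_gibbs (β : ℝ) (g : Edge n → ℝ) (v : Cfg n → ℝ) :
    Real.exp (∑ x, gibbs β g x * v x) ≤ ∑ x, gibbs β g x * Real.exp (v x) := by
  set m := ∑ x, gibbs β g x * v x with hm
  have pt : ∀ x, gibbs β g x * (Real.exp m * (1 - m)) + Real.exp m * (gibbs β g x * v x) ≤ gibbs β g x * Real.exp (v x) := fun x => by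
    have h := mul_le_mul_of_nonneg_left (mul_le_mul_of_nonneg_left (Real.add_one_le_exp (v x - m)) (Real.exp_pos m).le) (gibbs_pos β g x).le
    rw [← Real.exp_add, show m + (v x - m) = v x by ring] at h
    linarith
  refine le_trans (le_of_eq ?_) (Finset.sum_le_sum fun x _ => pt x)
  rw [Finset.sum_add_distrib, ← Finset.sum_mul, gibbs_sum, ← Finset.mul_sum, ← hm]; ring

/-- convexity of the free energy -/
lemma meanE_le (β s : ℝ) (g : Edge n → ℝ) :
    s * meanE β g ≤ Real.log (Zfun (β + s) g) - Real.log (Zfun β g) := by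
  have hp : 0 < Zfun β g := partition_pos β g
  have h1 : Zfun β g * Real.exp (∑ x, gibbs β g x * (s * energy g x)) ≤ Zfun (β + s) g := by
    refine (mul_le_mul_of_nonneg_left (jensen_gibbs β g _) hp.le).trans (le_of_eq ?_)
    rw [← Zfun_tilt]
    exact Finset.sum_congr rfl fun x _ => by rw [← Real.exp_add]; ring_nf
  have h2 := Real.log_le_log (mul_pos hp (Real.exp_pos _)) h1
  rw [Real.log_mul hp.ne' (Real.exp_pos _).ne', Real.log_exp] at h2
  have e : ∑ x, gibbs β g x * (s * energy g x) = s * meanE β g := by
    rw [meanE, Finset.mul_sum]; exact Finset.sum_congr rfl fun x _ => by ring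
  linarith

lemma abs_coef_le (hn : 0 < n) (x : Cfg n) (e : Edge n) : |coef x e| ≤ 1 := by
  have h1 : (1:ℝ) ≤ Real.sqrt n := Real.one_le_sqrt.2 (by exact_mod_cast hn)
  have hs : ∀ b, |spin b| = 1 := fun b => by cases b <;> simp [spin]
  rw [coef, abs_div, abs_mul, hs, hs, abs_of_nonneg (Real.sqrt_nonneg (n:ℝ)), one_mul]
  exact (div_le_one (by linarith)).2 h1

lemma continuous_gibbs (β : ℝ) (x : Cfg n) : Continuous fun g : Edge n → ℝ => gibbs β g x := by
  unfold gibbs
  exact (((continuous_energy' x).const_mul β).rexp).div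
    (continuous_finsetSum _ fun y _ => ((continuous_energy' y).const_mul β).rexp) fun g => (partition_pos β g).ne'

/-- expected mean energy -/
theorem mean_identity (hn : 0 < n) {β : ℝ} (hβ : 0 ≤ β) :
    Integrable (meanE (n := n) β) (disorder n) ∧ Integrable (fun g => overlapSq (n := n) β g) (disorder n) ∧
    ∫ g, meanE β g ∂disorder n = β * n / 2 * (1 - ∫ g, overlapSq (n := n) β g ∂disorder n) := by
  classical
  rw [gauss_edge]
  set φ := fun (e : Edge n) (g : Edge n → ℝ) => ∑ x, gibbs β g x * coef x e
  set ψ := fun (e : Edge n) (g : Edge n → ℝ) => ∑ x, gibbs β g x * coef x e ^ 2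
  set φ' := fun e g => β * (ψ e g - φ e g ^ 2)
  have cφ : ∀ e, Continuous (φ e) := fun e => continuous_finsetSum _ fun x _ => (continuous_gibbs β x).mul continuous_const
  have cψ : ∀ e, Continuous (ψ e) := fun e => continuous_finsetSum _ fun x _ => (continuous_gibbs β x).mul continuous_const
  have avg : ∀ g (v : Cfg n → ℝ), (∀ x, |v x| ≤ 1) → |∑ x, gibbs β g x * v x| ≤ 1 := fun g v hv => by
    refine (Finset.abs_sum_le_sum_abs _ _).trans ((Finset.sum_le_sum fun x _ => ?_).trans (gibbs_sum β g).le)
    rw [abs_mul, abs_of_pos (gibbs_pos β g x)]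
    exact mul_le_of_le_one_right (gibbs_pos β g x).le (hv x)
  have bφ : ∀ e g, |φ e g| ≤ 1 := fun e g => avg g _ fun x => abs_coef_le hn x e
  have bψ : ∀ e g, |ψ e g| ≤ 1 := fun e g => avg g _ fun x => by
    rw [abs_pow]; exact pow_le_one₀ (abs_nonneg _) (abs_coef_le hn x e)
  have bφ' : ∀ e g, |φ' e g| ≤ 2 * β := fun e g => by
    simp only [φ', abs_mul, abs_of_nonneg hβ]
    rw [mul_comm 2]
    refine mul_le_mul_of_nonneg_left ((abs_sub _ _).trans ?_) hβ
    rw [abs_pow]
    linarith [bψ e g, pow_le_one₀ (n := 2) (abs_nonneg _) (bφ e g)]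
  have hd : ∀ e z t, HasDerivAt (fun s => φ e (Function.update z e s)) (φ' e (Function.update z e t)) t := by
    intro e z t
    have hE : ∀ x, HasDerivAt (fun s => energy (Function.update z e s) x) (coef x e) t := fun x => by
      simp only [energy_coef]
      refine (HasDerivAt.fun_sum fun j _ => ((hasDerivAt_pi.1 (hasDerivAt_update z e t)) j).const_mul (coef x j)).congr_deriv ?_
      simp [Pi.single_apply]
    have hw : ∀ x, HasDerivAt (fun s => Real.exp (β * energy (Function.update z e s) x))
        (Real.exp (β * energy (Function.update z e t) x) * (β * coef x e)) t := fun x => ((hE x).const_mul β).exp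
    have hZ := HasDerivAt.fun_sum (u := Finset.univ) fun x (_ : x ∈ Finset.univ) => hw x
    have hg : ∀ x, HasDerivAt (fun s => gibbs β (Function.update z e s) x)
        (β * gibbs β (Function.update z e t) x * (coef x e - φ e (Function.update z e t))) t := fun x => by
      refine ((hw x).div hZ (partition_pos β _).ne').congr_deriv ?_
      have hp := (partition_pos β (Function.update z e t)).ne'
      simp only [φ, gibbs, div_mul_eq_mul_div, ← Finset.sum_div]
      have e1 : ∑ y, Real.exp (β * energy (Function.update z e t) y) * (β * coef y e) =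
          β * ∑ y, Real.exp (β * energy (Function.update z e t) y) * coef y e := by
        rw [Finset.mul_sum]; exact Finset.sum_congr rfl fun y _ => by ring
      rw [e1]
      field_simp
    refine (HasDerivAt.fun_sum fun x (_ : x ∈ Finset.univ) => (hg x).mul_const (coef x e)).congr_deriv ?_
    simp only [φ', ψ, mul_sub, sub_mul, Finset.sum_sub_distrib]
    congr 1
    · rw [Finset.mul_sum]; exact Finset.sum_congr rfl fun x _ => by ring
    · rw [sq, show φ e (Function.update z e t) * φ e (Function.update z e t) = φ e (Function.update z e t) * ∑ x, gibbs β (Function.update z e t) x * coef x e from rfl,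
        Finset.mul_sum, Finset.mul_sum]
      exact Finset.sum_congr rfl fun x _ => by ring
  have hibp : ∀ e, ∫ g, g e * φ e g ∂gauss (Edge n) = ∫ g, φ' e g ∂gauss (Edge n) := fun e =>
    gauss_ibp e (C := 1 + 2 * β) (M := 0) le_rfl (cφ e) (continuous_const.mul ((cψ e).sub ((cφ e).pow 2)))
      (fun g => by simpa using (bφ e g).trans (by linarith))
      (fun g => by simpa using (bφ' e g).trans (by linarith)) (hd e)
  have iφ : ∀ e, Integrable (fun g => g e * φ e g) (gauss (Edge n)) := fun e =>
    integrable_of_bound (C := 1) (M := 1) ((continuous_apply e).mul (cφ e)) fun g => by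
      rw [abs_mul, one_mul, one_mul]
      exact (mul_le_of_le_one_right (abs_nonneg _) (bφ e g)).trans
        ((abs_le_l1 g e).trans ((le_add_of_nonneg_right zero_le_one).trans (Real.add_one_le_exp _)))
  have iφ' : ∀ e, Integrable (φ' e) (gauss (Edge n)) := fun e =>
    integrable_of_bound (C := 2 * β) (M := 0) (continuous_const.mul ((cψ e).sub ((cφ e).pow 2))) fun g => by
      simpa using bφ' e g
  have em : ∀ g, meanE β g = ∑ e, g e * φ e g := fun g => by
    simp only [meanE, energy_coef, φ, Finset.mul_sum]
    rw [Finset.sum_comm]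
    exact Finset.sum_congr rfl fun e _ => Finset.sum_congr rfl fun x _ => by ring
  have es : ∀ g, ∑ e, φ' e g = β * n / 2 * (1 - overlapSq β g) := fun g => by
    simp only [φ', ← Finset.mul_sum, Finset.sum_sub_distrib]
    have e1 : ∑ e, ψ e g = ((n:ℝ) - 1) / 2 := by
      simp only [ψ]
      rw [Finset.sum_comm]
      have : ∀ x, ∑ e, gibbs β g x * coef x e ^ 2 = gibbs β g x * (((n:ℝ) - 1) / 2) := fun x => by
        have h := sum_coef_mul hn x x
        rw [qsq_self hn] at h
        rw [← Finset.mul_sum]; congr 1
        simp only [sq]; linarith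
      simp only [this, ← Finset.sum_mul, gibbs_sum, one_mul]
    have e2 : ∑ e, φ e g ^ 2 = ((n:ℝ) * overlapSq β g - 1) / 2 := by
      have : ∑ e, φ e g ^ 2 = ∑ x, ∑ y, gibbs β g x * gibbs β g y * ∑ e, coef x e * coef y e := by
        simp only [φ, sq]
        simp only [Finset.sum_mul_sum]
        simp only [Finset.mul_sum]
        rw [Finset.sum_comm]
        refine Finset.sum_congr rfl fun x _ => ?_
        rw [Finset.sum_comm]
        exact Finset.sum_congr rfl fun y _ => Finset.sum_congr rfl fun e _ => by ring
      rw [this]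
      have h3 : ∀ x y, ∑ e, coef x e * coef y e = ((n:ℝ) * qsq x y - 1) / 2 := fun x y => by
        linarith [sum_coef_mul hn x y]
      simp only [h3, overlapSq]
      have h4 : ∀ x y, gibbs β g x * gibbs β g y * (((n:ℝ) * qsq x y - 1) / 2) =
          (n:ℝ) / 2 * (gibbs β g x * gibbs β g y * qsq x y) - 1 / 2 * (gibbs β g x * gibbs β g y) := fun x y => by ring
      simp only [h4, Finset.sum_sub_distrib, ← Finset.mul_sum, gibbs_sum, mul_one]
      ring
    rw [e1, e2]; ring
  have cO : Continuous fun g : Edge n → ℝ => overlapSq β g := by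
    unfold overlapSq
    exact continuous_finsetSum _ fun x _ => continuous_finsetSum _ fun y _ =>
      ((continuous_gibbs β x).mul (continuous_gibbs β y)).mul continuous_const
  have iO : Integrable (fun g : Edge n → ℝ => overlapSq β g) (gauss (Edge n)) := by
    refine integrable_of_bound (C := 1) (M := 0) cO fun g => ?_
    rw [zero_mul, Real.exp_zero, mul_one]
    simp only [overlapSq, mul_assoc, ← Finset.mul_sum]
    refine avg g _ fun x => avg g _ fun y => ?_
    rw [abs_of_nonneg (qsq_mem x y).1]; exact (qsq_mem x y).2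
  have iM : Integrable (meanE (n := n) β) (gauss (Edge n)) :=
    (integrable_finsetSum Finset.univ fun e _ => iφ e).congr (Filter.Eventually.of_forall fun g => (em g).symm)
  refine ⟨iM, iO, ?_⟩
  simp only [em]
  rw [integral_finsetSum _ fun e _ => iφ e]
  simp only [hibp]
  rw [← integral_finsetSum _ fun e _ => iφ' e]
  simp only [es]
  rw [integral_const_mul, integral_sub (integrable_const _) iO]
  simp

end Vale.Agent.P150
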