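import Mathlib

namespace Vale.Agent.P150

set_option linter.unusedVariables false

lemma abs_add' {a b A B : ℝ} (ha : |a| ≤ A) (hb : |b| ≤ B) : |a + b| ≤ A + B :=
  (abs_add_le a b).trans (add_le_add ha hb)

lemma abs_sub' {a b A B : ℝ} (ha : |a| ≤ A) (hb : |b| ≤ B) : |a - b| ≤ A + B :=
  (abs_sub a b).trans (add_le_add ha hb)

lemma abs_mul' {a b A B : ℝ} (ha : |a| ≤ A) (hb : |b| ≤ B) : |a * b| ≤ A * B := by
  rw [abs_mul]; exact mul_le_mul ha hb (abs_nonneg b) ((abs_nonneg a).trans ha)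

/-- second-order expansion of `1/((1+x)(1+y))` -/
lemma inv_expand {x y r : ℝ} (hx : |x| ≤ r) (hy : |y| ≤ r) (hr : r ≤ 1 / 4) :
    |1 / ((1 + x) * (1 + y)) - (1 - (x + y) + (x * x + x * y + y * y))| ≤ 16 * r ^ 3 ∧
    |(1 / ((1 + x) * (1 + y))) ^ 2 - (1 - 2 * (x + y))| ≤ 64 * r ^ 2 ∧
    |(1 / ((1 + x) * (1 + y))) ^ 3 - 1| ≤ 64 * r := by
  have hr0 : 0 ≤ r := (abs_nonneg x).trans hx
  have hx' := abs_le.1 hx
  have hy' := abs_le.1 hy
  have hd : ∀ z : ℝ, |z| ≤ r → |1 / (1 + z)| ≤ 2 ∧ |1 / (1 + z) - (1 - z + z * z)| ≤ 2 * r ^ 3 := by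
    intro z hz
    have hz' := abs_le.1 hz
    have hpos : 0 < 1 + z := by linarith
    have h1 : |1 / (1 + z)| ≤ 2 := by
      rw [abs_of_pos (by positivity), div_le_iff₀ hpos]; linarith
    refine ⟨h1, ?_⟩
    have e : 1 / (1 + z) - (1 - z + z * z) = -(z * (z * z)) * (1 / (1 + z)) := by field_simp; ring
    rw [e]
    refine (abs_mul' (A := r * (r * r)) (B := 2) ?_ h1).trans_eq (by ring)
    rw [abs_neg]; exact abs_mul' hz (abs_mul' hz hz)
  obtain ⟨-, a2⟩ := hd x hx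
  obtain ⟨b1, b2⟩ := hd y hy
  set q := 1 / ((1 + x) * (1 + y))
  have hq : q = 1 / (1 + x) * (1 / (1 + y)) := (one_div_mul_one_div _ _).symm
  have hbase : |1 - x + x * x| ≤ 2 := by
    refine (abs_add' (abs_sub' (abs_one (α := ℝ)).le hx) (abs_mul' hx hx)).trans ?_
    linarith [mul_le_mul hr hr hr0 (by norm_num)]
  have e1 : |q - (1 - (x + y) + (x * x + x * y + y * y))| ≤ 16 * r ^ 3 := by
    have e : q - (1 - (x + y) + (x * x + x * y + y * y)) = (-(x * (y * y)) - x * (x * y) + (x * x) * (y * y)) +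
        ((1 / (1 + x) - (1 - x + x * x)) * (1 / (1 + y)) +
          (1 - x + x * x) * (1 / (1 + y) - (1 - y + y * y))) := by rw [hq]; ring
    rw [e]
    refine (abs_add' (abs_add' (abs_sub' (show |-(x * (y * y))| ≤ r * (r * r) by rw [abs_neg]; exact abs_mul' hx (abs_mul' hy hy))
      (abs_mul' hx (abs_mul' hx hy))) (abs_mul' (abs_mul' hx hx) (abs_mul' hy hy)))
      (abs_add' (abs_mul' a2 b1) (abs_mul' hbase b2))).trans ?_
    have h3 : 0 ≤ r ^ 3 := by positivity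
    have : r ^ 4 ≤ r ^ 3 := by
      calc r ^ 4 = r * r ^ 3 := by ring
        _ ≤ 1 * r ^ 3 := mul_le_mul_of_nonneg_right (by linarith) h3
        _ = _ := one_mul _
    linarith
  set e := q - (1 - (x + y)) with he
  have heb : |e| ≤ 7 * r ^ 2 := by
    have h : e = (q - (1 - (x + y) + (x * x + x * y + y * y))) + ((x * x + x * y) + y * y) := by rw [he]; ring
    rw [h]
    refine (abs_add' e1 (abs_add' (abs_add' (abs_mul' hx hx) (abs_mul' hx hy)) (abs_mul' hy hy))).trans ?_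
    have h2 : 0 ≤ r ^ 2 := by positivity
    have : 16 * r ^ 3 ≤ 4 * r ^ 2 := by
      calc 16 * r ^ 3 = (16 * r) * r ^ 2 := by ring
        _ ≤ 4 * r ^ 2 := mul_le_mul_of_nonneg_right (by linarith) h2
    linarith
  refine ⟨e1, ?_, ?_⟩
  · have h : q ^ 2 - (1 - 2 * (x + y)) = ((x + y) * (x + y) + 2 * (e * (1 - (x + y)))) + e * e := by rw [he]; ring
    rw [h]
    refine (abs_add' (abs_add' (abs_mul' (abs_add' hx hy) (abs_add' hx hy))
      (abs_mul' (A := 2) (by norm_num) (abs_mul' heb (abs_sub' (abs_one (α := ℝ)).le (abs_add' hx hy)))))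
      (abs_mul' heb heb)).trans ?_
    have h2 : 0 ≤ r ^ 2 := by positivity
    have h3 : r * r ^ 2 ≤ 1/4 * r ^ 2 := mul_le_mul_of_nonneg_right hr h2
    have h4 : (r * r) * r ^ 2 ≤ 1/16 * r ^ 2 :=
      mul_le_mul_of_nonneg_right (by linarith [mul_le_mul hr hr hr0 (by norm_num)]) h2
    linarith
  · have hqe : q = 1 - (x + y) + e := by rw [he]; ring
    have hq1 : |q - 1| ≤ 4 * r := by
      have h : q - 1 = e - (x + y) := by rw [hqe]; ring
      rw [h]; refine (abs_sub' heb (abs_add' hx hy)).trans ?_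
      have : 7 * r ^ 2 ≤ 2 * r := by
        calc 7 * r ^ 2 = (7 * r) * r := by ring
          _ ≤ 2 * r := mul_le_mul_of_nonneg_right (by linarith) hr0
      linarith
    have hq2 : |q| ≤ 3 := by
      have h : q = (q - 1) + 1 := by ring
      rw [h]; refine (abs_add' hq1 (abs_one (α := ℝ)).le).trans ?_; linarith
    have h : q ^ 3 - 1 = (q - 1) * ((q * q + q) + 1) := by ring
    rw [h]
    refine (abs_mul' hq1 (abs_add' (abs_add' (abs_mul' hq2 hq2) hq2) (abs_one (α := ℝ)).le)).trans ?_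
    linarith

/-- The kernel of the two-site identity, `a st` up to third order in the coupling. -/
noncomputable def pairKernel (m l T s t : ℝ) : ℝ :=
  s * t * (1 - T * (s * t)) * (1 / ((1 + m * T * t) * (1 + l * T * s))) +
    T * (1 - T ^ 2) * ((1 + m * s) * (1 + l * t) * (1 + T * (s * t))) *
      (1 / ((1 + m * T * t) * (1 + l * T * s))) ^ 2 +
    2 * T ^ 2 * (1 - T ^ 2) * ((1 + m * s) * (1 + l * t) * (1 + T * (s * t))) * ((m + T * t) * (l + T * s)) *
      (1 / ((1 + m * T * t) * (1 + l * T * s))) ^ 3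

/-- the coefficient of `st` -/
def pairCoef (m l T : ℝ) : ℝ := 1 + T * (m * l) + T ^ 2 * (1 - m ^ 2 - l ^ 2 + 2 * m ^ 2 * l ^ 2)

set_option linter.unusedVariables false in
lemma pairKernel_approx {m l T s t : ℝ} (hm : |m| ≤ 1) (hl : |l| ≤ 1) (hT : |T| ≤ 1 / 4)
    (hs : s = 1 ∨ s = -1) (ht : t = 1 ∨ t = -1) :
    |pairKernel m l T s t - pairCoef m l T * (s * t)| ≤ 5000 * |T| ^ 3 := by
  have hs1 : |s| ≤ 1 := by rcases hs with h | h <;> simp [h]
  have ht1 : |t| ≤ 1 := by rcases ht with h | h <;> simp [h]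
  have hT0 := abs_nonneg T
  have hst : |s * t| ≤ 1 := (abs_mul' hs1 ht1).trans (by norm_num)
  have hms : |m * s| ≤ 1 := (abs_mul' hm hs1).trans (by norm_num)
  have hlt : |l * t| ≤ 1 := (abs_mul' hl ht1).trans (by norm_num)
  have hx : |m * T * t| ≤ |T| := (abs_mul' (abs_mul' hm le_rfl) ht1).trans_eq (by ring)
  have hy : |l * T * s| ≤ |T| := (abs_mul' (abs_mul' hl le_rfl) hs1).trans_eq (by ring)
  obtain ⟨e1, e2, e3⟩ := inv_expand hx hy hT
  set q := 1 / ((1 + m * T * t) * (1 + l * T * s))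
  set E1 := q - (1 - (m * T * t + l * T * s) +
    (m * T * t * (m * T * t) + m * T * t * (l * T * s) + l * T * s * (l * T * s)))
  set E2 := q ^ 2 - (1 - 2 * (m * T * t + l * T * s))
  set E3 := q ^ 3 - 1
  set w0 := (1 + m * s) * (1 + l * t)
  set u := m * t + l * s
  set R := -(m * m + l * l + m * l * (s * t)) +
      w0 * (-(1 + T * (s * t) - 2 * (T * u) - 2 * (T * T * (s * t) * u)) - 2 * (s * t * u)) +
      2 * w0 * (s * t * (m * l) + m * s + l * t + T * (s * t) * (1 + m * s + l * t) + T * T) -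
      2 * T * w0 * ((1 + T * (s * t)) * ((m + T * t) * (l + T * s)))
  have key : pairKernel m l T s t - pairCoef m l T * (s * t) =
      s * t * (1 - T * (s * t)) * E1 + T * (1 - T ^ 2) * (w0 * (1 + T * (s * t))) * E2 +
        2 * T ^ 2 * (1 - T ^ 2) * (w0 * (1 + T * (s * t))) * ((m + T * t) * (l + T * s)) * E3 + T ^ 3 * R := by
    have hk : pairKernel m l T s t = s * t * (1 - T * (s * t)) * q +
        T * (1 - T ^ 2) * (w0 * (1 + T * (s * t))) * q ^ 2 +
        2 * T ^ 2 * (1 - T ^ 2) * (w0 * (1 + T * (s * t))) * ((m + T * t) * (l + T * s)) * q ^ 3 := rfl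
    rw [hk]
    simp only [pairCoef, E1, E2, E3, R, w0, u]
    generalize q = z
    rcases hs with rfl | rfl <;> rcases ht with rfl | rfl <;> ring
  rw [key]
  have h1s : ∀ {z : ℝ}, |z| ≤ 1 → |1 + z| ≤ 2 := fun hz =>
    (abs_add' (abs_one (α := ℝ)).le hz).trans (by norm_num)
  have hw0 : |w0| ≤ 4 := (abs_mul' (h1s hms) (h1s hlt)).trans (by norm_num)
  have hTst : |T * (s * t)| ≤ 1 := (abs_mul' hT hst).trans (by norm_num)
  have hw : |w0 * (1 + T * (s * t))| ≤ 8 := (abs_mul' hw0 (h1s hTst)).trans (by norm_num)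
  have hT2 : |1 - T ^ 2| ≤ 1 := by
    have h := abs_le.1 hT
    have : T ^ 2 ≤ 1 := (sq_le_one_iff_abs_le_one T).2 (hT.trans (by norm_num))
    rw [abs_le]; constructor <;> linarith [sq_nonneg T]
  have hmT : |m + T * t| ≤ 2 := (abs_add' hm (abs_mul' hT ht1)).trans (by norm_num)
  have hlT : |l + T * s| ≤ 2 := (abs_add' hl (abs_mul' hT hs1)).trans (by norm_num)
  have hu : |u| ≤ 2 := (abs_add' (abs_mul' hm ht1) (abs_mul' hl hs1)).trans (by norm_num)
  have hR : |R| ≤ 300 := by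
    refine (abs_sub' (abs_add' (abs_add' ?_ (abs_mul' hw0 (abs_sub' ?_ ?_))) (abs_mul' (abs_mul' (A := 2) (by norm_num) hw0) ?_))
      (abs_mul' (abs_mul' (abs_mul' (A := 2) (by norm_num) hT) hw0) (abs_mul' (h1s hTst) (abs_mul' hmT hlT)))).trans
      (show 3 + 4 * (20 + 4) + 2 * 4 * 12 + 2 * (1/4) * 4 * (2 * (2 * 2)) ≤ (300:ℝ) by norm_num)
    · rw [abs_neg]
      exact (abs_add' (abs_add' (abs_mul' hm hm) (abs_mul' hl hl)) (abs_mul' (abs_mul' hm hl) hst)).trans (by norm_num)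
    · rw [abs_neg]
      exact (abs_sub' (abs_sub' (h1s hTst) (abs_mul' (A := 2) (by norm_num) (abs_mul' hT hu)))
        (abs_mul' (A := 2) (by norm_num) (abs_mul' (abs_mul' (abs_mul' hT hT) hst) hu))).trans (by norm_num)
    · exact (abs_mul' (A := 2) (by norm_num) (abs_mul' hst hu)).trans (by norm_num)
    · exact (abs_add' (abs_add' (abs_add' (abs_add' (abs_mul' hst (abs_mul' hm hl)) hms) hlt)
        (abs_mul' hTst (abs_add' (h1s hms) hlt))) (abs_mul' hT hT)).trans (by norm_num)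
  have b1 : |s * t * (1 - T * (s * t)) * E1| ≤ 1 * 2 * (16 * |T| ^ 3) :=
    abs_mul' (abs_mul' hst ((abs_sub' (abs_one (α := ℝ)).le hTst).trans (by norm_num))) e1
  have b2 : |T * (1 - T ^ 2) * (w0 * (1 + T * (s * t))) * E2| ≤ |T| * 1 * 8 * (64 * |T| ^ 2) :=
    abs_mul' (abs_mul' (abs_mul' le_rfl hT2) hw) e2
  have b3 : |2 * T ^ 2 * (1 - T ^ 2) * (w0 * (1 + T * (s * t))) * ((m + T * t) * (l + T * s)) * E3| ≤
      2 * |T| ^ 2 * 1 * 8 * (2 * 2) * (64 * |T|) :=
    abs_mul' (abs_mul' (abs_mul' (abs_mul' (abs_mul' (A := 2) (by norm_num) (abs_pow T 2).le) hT2) hw)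
      (abs_mul' hmT hlT)) e3
  have b4 : |T ^ 3 * R| ≤ |T| ^ 3 * 300 := abs_mul' (abs_pow T 3).le hR
  refine (abs_add' (abs_add' (abs_add' b1 b2) b3) b4).trans ?_
  have : 0 ≤ |T| ^ 3 := by positivity
  linarith

set_option linter.unusedVariables false in
/-- The two-site inequality. -/
lemma pair_nonneg {m l T : ℝ} (hm : |m| < 1) (hl : |l| < 1) (hT : |T| ≤ 1 / 4) (U V : Bool → ℝ)
    (hUV : U true - U false = V true - V false) (σ : Bool → ℝ) (hσ : σ true = 1 ∧ σ false = -1) :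
    0 ≤ ∑ b : Bool, ∑ c : Bool, ((1 + m * σ b) * (1 + l * σ c) * (1 + T * (σ b * σ c))) *
      ((σ b - (m + T * σ c) / (1 + m * T * σ c)) * U c * ((σ c - (l + T * σ b) / (1 + l * T * σ b)) * V b) +
        T * (((1 - ((m + T * σ c) / (1 + m * T * σ c)) ^ 2) * U c) *
          ((1 - ((l + T * σ b) / (1 + l * T * σ b)) ^ 2) * V b)) +
        2 * T ^ 2 * ((((m + T * σ c) / (1 + m * T * σ c)) * ((1 - ((m + T * σ c) / (1 + m * T * σ c)) ^ 2) * U c)) *
          (((l + T * σ b) / (1 + l * T * σ b)) * ((1 - ((l + T * σ b) / (1 + l * T * σ b)) ^ 2) * V b))) +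
        10000 * |T| ^ 3 * ((1 - ((m + T * σ c) / (1 + m * T * σ c)) ^ 2) * U c ^ 2 +
          (1 - ((l + T * σ b) / (1 + l * T * σ b)) ^ 2) * V b ^ 2)) := by
  have hm' := abs_lt.1 hm
  have hl' := abs_lt.1 hl
  have hT' := abs_le.1 hT
  have hsgn : ∀ b, σ b = 1 ∨ σ b = -1 := fun b => by cases b <;> simp [hσ.1, hσ.2]
  have hTsq : 0 < 1 - T ^ 2 := by
    have : T ^ 2 ≤ (1/4) ^ 2 := by rw [← sq_abs]; exact pow_le_pow_left₀ (abs_nonneg T) hT 2
    linarith
  set P := (1 - m ^ 2) * (1 - l ^ 2) * (1 - T ^ 2)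
  have hpm : 0 < 1 - m ^ 2 := by have := (sq_lt_one_iff_abs_lt_one m).2 hm; linarith
  have hpl : 0 < 1 - l ^ 2 := by have := (sq_lt_one_iff_abs_lt_one l).2 hl; linarith
  have hP : 0 ≤ P := by positivity
  have hD : ∀ {k : ℝ}, |k| < 1 → ∀ b, 0 < 1 + k * T * σ b ∧ 1 + k * T * σ b ≤ 2 := fun {k} hk b => by
    have h : |k * T * σ b| ≤ 1 / 4 := by
      refine (abs_mul' (abs_mul' hk.le hT) (B := 1) ?_).trans (by norm_num)
      rcases hsgn b with h | h <;> simp [h]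
    have := abs_le.1 h
    constructor <;> linarith
  have pt : ∀ b c : Bool, P * (pairCoef m l T * (σ b * σ c)) * (U c * V b) ≤
      ((1 + m * σ b) * (1 + l * σ c) * (1 + T * (σ b * σ c))) *
      ((σ b - (m + T * σ c) / (1 + m * T * σ c)) * U c * ((σ c - (l + T * σ b) / (1 + l * T * σ b)) * V b) +
        T * (((1 - ((m + T * σ c) / (1 + m * T * σ c)) ^ 2) * U c) *
          ((1 - ((l + T * σ b) / (1 + l * T * σ b)) ^ 2) * V b)) +
        2 * T ^ 2 * ((((m + T * σ c) / (1 + m * T * σ c)) * ((1 - ((m + T * σ c) / (1 + m * T * σ c)) ^ 2) * U c)) *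
          (((l + T * σ b) / (1 + l * T * σ b)) * ((1 - ((l + T * σ b) / (1 + l * T * σ b)) ^ 2) * V b)))) +
        2500 * |T| ^ 3 * P * (U c ^ 2 + V b ^ 2) := by
    intro b c
    obtain ⟨d1, -⟩ := hD hm c
    obtain ⟨d2, -⟩ := hD hl b
    have happ := pairKernel_approx hm.le hl.le hT (hsgn b) (hsgn c)
    have main : ((1 + m * σ b) * (1 + l * σ c) * (1 + T * (σ b * σ c))) *
      ((σ b - (m + T * σ c) / (1 + m * T * σ c)) * U c * ((σ c - (l + T * σ b) / (1 + l * T * σ b)) * V b) +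
        T * (((1 - ((m + T * σ c) / (1 + m * T * σ c)) ^ 2) * U c) *
          ((1 - ((l + T * σ b) / (1 + l * T * σ b)) ^ 2) * V b)) +
        2 * T ^ 2 * ((((m + T * σ c) / (1 + m * T * σ c)) * ((1 - ((m + T * σ c) / (1 + m * T * σ c)) ^ 2) * U c)) *
          (((l + T * σ b) / (1 + l * T * σ b)) * ((1 - ((l + T * σ b) / (1 + l * T * σ b)) ^ 2) * V b)))) =
      P * pairKernel m l T (σ b) (σ c) * (U c * V b) := by
      unfold pairKernel
      rcases hsgn b with hb | hb <;> rcases hsgn c with hc | hc <;>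
        simp only [P, hb, hc, mul_one, mul_neg] at d1 d2 ⊢ <;> field_simp <;> ring
    rw [main]
    have hUV2 : |U c * V b| ≤ (U c ^ 2 + V b ^ 2) / 2 := by
      rw [abs_le]; constructor <;> linarith [sq_nonneg (U c + V b), sq_nonneg (U c - V b)]
    have h := abs_mul' (abs_mul' (le_of_eq (abs_of_nonneg hP)) happ) hUV2
    have := (abs_le.1 h).1
    linarith
  have hsum : 0 ≤ ∑ b : Bool, ∑ c : Bool, P * (pairCoef m l T * (σ b * σ c)) * (U c * V b) := by
    have e : ∑ b : Bool, ∑ c : Bool, P * (pairCoef m l T * (σ b * σ c)) * (U c * V b) =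
        P * pairCoef m l T * ((U true - U false) * (V true - V false)) := by
      simp only [Fintype.sum_bool, hσ.1, hσ.2]; ring
    rw [e, hUV]
    refine mul_nonneg (mul_nonneg hP ?_) (mul_self_nonneg _)
    have h1 : |m * l| ≤ 1 := (abs_mul' hm.le hl.le).trans (by norm_num)
    have hm2 : |m ^ 2| ≤ 1 := (abs_pow m 2).le.trans (pow_le_one₀ (abs_nonneg m) hm.le)
    have hl2 : |l ^ 2| ≤ 1 := (abs_pow l 2).le.trans (pow_le_one₀ (abs_nonneg l) hl.le)
    have h2 : |1 - m ^ 2 - l ^ 2 + 2 * m ^ 2 * l ^ 2| ≤ 5 :=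
      (abs_add' (abs_sub' (abs_sub' (abs_one (α := ℝ)).le hm2) hl2)
        (abs_mul' (abs_mul' (A := 2) (by norm_num) hm2) hl2)).trans (by norm_num)
    have h3 : |T ^ 2| ≤ 1 / 16 := (abs_pow T 2).le.trans ((pow_le_pow_left₀ (abs_nonneg T) hT 2).trans (by norm_num))
    have h4 := abs_le.1 (abs_add' (abs_mul' hT h1) (abs_mul' h3 h2))
    simp only [pairCoef]; linarith
  refine le_trans hsum ?_
  have hmain := Finset.sum_le_sum (s := (Finset.univ : Finset Bool)) fun b _ =>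
    Finset.sum_le_sum (s := (Finset.univ : Finset Bool)) fun c _ => pt b c
  refine hmain.trans ?_
  have hT3 : (0:ℝ) ≤ 2500 * |T| ^ 3 := by positivity
  have slack : ∀ (m' l' : ℝ) (c : Bool), |m'| < 1 → |l'| < 1 → ∀ X : ℝ, 0 ≤ X →
      (1 - m' ^ 2) * (1 - l' ^ 2) * (1 - T ^ 2) * X * 2 ≤
        4 * ((1 - ((m' + T * σ c) / (1 + m' * T * σ c)) ^ 2) * X *
          (((1 + m' * 1) * (1 + l' * σ c) * (1 + T * (1 * σ c))) + ((1 + m' * -1) * (1 + l' * σ c) * (1 + T * (-1 * σ c))))) := by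
    intro m' l' c hm1 hl1 X hX
    obtain ⟨d1, d2⟩ := hD hm1 c
    have hl'' := abs_lt.1 hl1
    have hpm' : 0 ≤ 1 - m' ^ 2 := by have := (sq_lt_one_iff_abs_lt_one m').2 hm1; linarith
    have hfac : 1 - ((m' + T * σ c) / (1 + m' * T * σ c)) ^ 2 =
        (1 - m' ^ 2) * (1 - T ^ 2) / (1 + m' * T * σ c) ^ 2 := by
      rcases hsgn c with h | h <;> rw [h] at d1 ⊢ <;> simp only [mul_one, mul_neg] at d1 ⊢ <;> field_simp <;> ring
    have e : (1 - ((m' + T * σ c) / (1 + m' * T * σ c)) ^ 2) * X *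
          (((1 + m' * 1) * (1 + l' * σ c) * (1 + T * (1 * σ c))) + ((1 + m' * -1) * (1 + l' * σ c) * (1 + T * (-1 * σ c)))) =
        2 * ((1 - m' ^ 2) * (1 - T ^ 2) * X * (1 + l' * σ c) / (1 + m' * T * σ c)) := by
      rw [hfac]; field_simp; ring
    have hfin : (1 - l' ^ 2) * 2 * (1 + m' * T * σ c) ≤ 4 * 2 * (1 + l' * σ c) := by
      have h1 : 1 - l' ^ 2 = (1 + l' * σ c) * (1 - l' * σ c) := by
        rcases hsgn c with h | h <;> rw [h] <;> ring
      have h2 : 0 ≤ 1 + l' * σ c ∧ 0 ≤ 1 - l' * σ c ∧ 1 - l' * σ c ≤ 2 := by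
        rcases hsgn c with h | h <;> rw [h] <;> refine ⟨?_, ?_, ?_⟩ <;> linarith
      rw [h1]
      have := mul_le_mul_of_nonneg_left (mul_le_mul h2.2.2 d2 d1.le two_pos.le) h2.1
      linarith
    rw [e, ← mul_div_assoc, ← mul_div_assoc, le_div_iff₀ d1]
    have := mul_le_mul_of_nonneg_left hfin (mul_nonneg (mul_nonneg hpm' hTsq.le) hX)
    linarith
  have s1 := fun c => mul_le_mul_of_nonneg_left (slack m l c hm hl (U c ^ 2) (sq_nonneg _)) hT3
  have s2 := fun b => mul_le_mul_of_nonneg_left (slack l m b hl hm (V b ^ 2) (sq_nonneg _)) hT3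
  have := s1 true; have := s1 false; have := s2 true; have := s2 false
  simp only [Fintype.sum_bool, hσ.1, hσ.2, P] at *
  linarith

end Vale.Agent.P150
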