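import Vale.Agent.P150.GaussCalc

/-! Entropic stability of a finite measure along a Gaussian channel. -/

open MeasureTheory ProbabilityTheory

namespace Vale.Agent.P150

variable {α ι : Type*} [Fintype α] [Fintype ι]

set_option linter.unusedVariables false

/-- likelihood of observation `z` at signal strength `θ` -/
noncomputable def ker (a : α → ι → ℝ) (θ : ℝ) (z : ι → ℝ) (x : α) : ℝ :=
  Real.exp (θ * dot (a x) z - θ ^ 2 / 2 * ∑ k, a x k ^ 2)

/-- mixture of likelihoods -/
noncomputable def mix (c : α → ℝ) (a : α → ι → ℝ) (θ : ℝ) (z : ι → ℝ) : ℝ := ∑ x, c x * ker a θ z x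

/-- posterior distribution -/
noncomputable def post (μ : α → ℝ) (a : α → ι → ℝ) (θ : ℝ) (z : ι → ℝ) (x : α) : ℝ :=
  μ x * ker a θ z x / mix μ a θ z

/-- entropy of `f` for the weights `p` -/
noncomputable def ent (p f : α → ℝ) : ℝ :=
  ∑ x, p x * (f x * Real.log (f x)) - (∑ x, p x * f x) * Real.log (∑ x, p x * f x)

lemma dual_entropy [Nonempty α] {p f : α → ℝ} (hp : ∀ x, 0 < p x) (hf : ∀ x, 0 < f x)
    (hp1 : ∑ x, p x = 1) (h : α → ℝ) :
    ∑ x, p x * (f x * h x) ≤ ent p f + (∑ x, p x * f x) * Real.log (∑ x, p x * Real.exp (h x)) := by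
  set r := ∑ x, p x * f x
  set q := ∑ x, p x * Real.exp (h x)
  have hr : 0 < r := Finset.sum_pos (fun x _ => mul_pos (hp x) (hf x)) Finset.univ_nonempty
  have hq : 0 < q := Finset.sum_pos (fun x _ => mul_pos (hp x) (Real.exp_pos _)) Finset.univ_nonempty
  have pt : ∀ x, p x * (f x * h x) ≤
      p x * (f x * Real.log (f x)) - p x * f x * Real.log r + p x * f x * Real.log q +
        r / q * (p x * Real.exp (h x)) - p x * f x := fun x => by
    have h1 := Real.log_le_sub_one_of_pos (x := r * Real.exp (h x) / (q * f x))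
      (div_pos (mul_pos hr (Real.exp_pos _)) (mul_pos hq (hf x)))
    rw [Real.log_div (by positivity) (mul_pos hq (hf x)).ne', Real.log_mul hr.ne' (Real.exp_pos _).ne',
      Real.log_exp, Real.log_mul hq.ne' (hf x).ne'] at h1
    have h2 := mul_le_mul_of_nonneg_left h1 (mul_pos (hp x) (hf x)).le
    have e : p x * f x * (r * Real.exp (h x) / (q * f x) - 1) = r / q * (p x * Real.exp (h x)) - p x * f x := by
      have := (hf x).ne'
      field_simp
    rw [e] at h2
    linarith
  refine (Finset.sum_le_sum fun x _ => pt x).trans (le_of_eq ?_)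
  simp only [Finset.sum_sub_distrib, Finset.sum_add_distrib, ← Finset.sum_mul, ← Finset.mul_sum]
  rw [div_mul_cancel₀ _ hq.ne', ent]
  ring

omit [Fintype α] in
lemma ker_pos (a : α → ι → ℝ) (θ : ℝ) (z : ι → ℝ) (x : α) : 0 < ker a θ z x := Real.exp_pos _

lemma mix_pos [Nonempty α] {c : α → ℝ} (hc : ∀ x, 0 < c x) (a : α → ι → ℝ) (θ : ℝ) (z : ι → ℝ) :
    0 < mix c a θ z :=
  Finset.sum_pos (fun x _ => mul_pos (hc x) (ker_pos a θ z x)) Finset.univ_nonempty

lemma abs_mix_le {a : α → ι → ℝ} {A₀ : ℝ} (ha : ∀ x k, |a x k| ≤ A₀) (c : α → ℝ) (θ : ℝ) (z : ι → ℝ) :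
    |mix c a θ z| ≤ (∑ x, |c x|) * Real.exp (|θ| * A₀ * l1 z) := by
  refine (Finset.abs_sum_le_sum_abs _ _).trans ?_
  rw [Finset.sum_mul]
  refine Finset.sum_le_sum fun x _ => ?_
  rw [abs_mul, abs_of_pos (ker_pos a θ z x)]
  refine mul_le_mul_of_nonneg_left (Real.exp_le_exp.2 ?_) (abs_nonneg _)
  have h1 : θ * dot (a x) z ≤ |θ| * (A₀ * l1 z) := (le_abs_self _).trans <| by
    rw [abs_mul]; exact mul_le_mul_of_nonneg_left (abs_dot_le (ha x) z) (abs_nonneg _)
  have h2 : 0 ≤ θ ^ 2 / 2 * ∑ k, a x k ^ 2 := by positivity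
  linarith

lemma continuous_mix (c : α → ℝ) (a : α → ι → ℝ) (θ : ℝ) : Continuous fun z => mix c a θ z := by
  unfold mix ker dot; fun_prop

lemma hasDerivAt_mix (c : α → ℝ) (a : α → ι → ℝ) (θ : ℝ) (z : ι → ℝ) :
    HasDerivAt (fun t => mix c a t z)
      (∑ k, (z k * mix (fun x => c x * a x k) a θ z - θ * mix (fun x => c x * a x k ^ 2) a θ z)) θ := by
  have h : ∀ x, HasDerivAt (fun t => c x * ker a t z x)
      (c x * (ker a θ z x * (dot (a x) z - θ * ∑ k, a x k ^ 2))) θ := fun x => by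
    refine ((((hasDerivAt_id θ).mul_const (dot (a x) z)).sub
      (((hasDerivAt_pow 2 θ).div_const 2).mul_const (∑ k, a x k ^ 2))).exp.const_mul (c x)).congr_deriv ?_
    simp [ker]
  refine (HasDerivAt.fun_sum fun x _ => h x).congr_deriv ?_
  simp only [mix, dot, Finset.mul_sum, ← Finset.sum_sub_distrib]
  rw [Finset.sum_comm]
  exact Finset.sum_congr rfl fun k _ => Finset.sum_congr rfl fun x _ => by ring

lemma hasDerivAt_mix_update [DecidableEq ι] (c : α → ℝ) (a : α → ι → ℝ) (θ : ℝ) (z : ι → ℝ) (k : ι) (t : ℝ) :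
    HasDerivAt (fun s => mix c a θ (Function.update z k s))
      (θ * mix (fun x => c x * a x k) a θ (Function.update z k t)) t := by
  have hu := hasDerivAt_pi.1 (hasDerivAt_update z k t)
  have hdot : ∀ x, HasDerivAt (fun s => dot (a x) (Function.update z k s)) (a x k) t := fun x => by
    refine (HasDerivAt.fun_sum fun j _ => (hu j).const_mul (a x j)).congr_deriv ?_
    simp [Pi.single_apply]
  have h : ∀ x, HasDerivAt (fun s => c x * ker a θ (Function.update z k s) x)
      (c x * (ker a θ (Function.update z k t) x * (θ * a x k))) t := fun x =>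
    ((((hdot x).const_mul θ).sub_const _).exp).const_mul (c x)
  refine (HasDerivAt.fun_sum fun x _ => h x).congr_deriv ?_
  simp only [mix, Finset.mul_sum]
  exact Finset.sum_congr rfl fun x _ => by ring

lemma integral_mix (c : α → ℝ) (a : α → ι → ℝ) (θ : ℝ) : ∫ z, mix c a θ z ∂gauss ι = ∑ x, c x := by
  have e : ∀ x, ∀ z : ι → ℝ,
      ker a θ z x = Real.exp (-(θ ^ 2 / 2 * ∑ k, a x k ^ 2)) * Real.exp (dot (fun k => θ * a x k) z) := fun x z => by
    have : dot (fun k => θ * a x k) z = θ * dot (a x) z := by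
      simp only [dot, Finset.mul_sum, mul_assoc]
    rw [ker, ← Real.exp_add, this]; ring_nf
  have hi : ∀ x, Integrable (fun z => c x * ker a θ z x) (gauss ι) := fun x => by
    refine integrable_of_bound (C := |c x|) (M := |θ| * ∑ y, ∑ k, |a y k|) (by unfold ker dot; fun_prop) fun z => ?_
    rw [abs_mul, abs_of_pos (ker_pos a θ z x)]
    refine mul_le_mul_of_nonneg_left (Real.exp_le_exp.2 ?_) (abs_nonneg _)
    have hA : ∀ k, |a x k| ≤ ∑ y, ∑ k, |a y k| := fun k =>
      (Finset.single_le_sum (f := fun k => |a x k|) (fun _ _ => abs_nonneg _) (Finset.mem_univ k)).trans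
        (Finset.single_le_sum (f := fun y => ∑ k, |a y k|) (fun y _ => Finset.sum_nonneg fun _ _ => abs_nonneg _)
          (Finset.mem_univ x))
    have h1 : θ * dot (a x) z ≤ |θ| * ((∑ y, ∑ k, |a y k|) * l1 z) := (le_abs_self _).trans <| by
      rw [abs_mul]; exact mul_le_mul_of_nonneg_left (abs_dot_le hA z) (abs_nonneg _)
    have h2 : 0 ≤ θ ^ 2 / 2 * ∑ k, a x k ^ 2 := by positivity
    linarith
  unfold mix
  rw [integral_finsetSum _ fun x _ => hi x]
  refine Finset.sum_congr rfl fun x _ => ?_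
  simp only [e, integral_const_mul, mgf_dot, mul_pow, ← Finset.mul_sum]
  rw [← Real.exp_add]; ring_nf; simp

variable [DecidableEq ι] [Nonempty α]

/-- If all posteriors are sub-Gaussian with constant `A`, the channel keeps a fraction `exp (-A)` of the entropy. -/
theorem entropic_stability {μ f : α → ℝ} {a : α → ι → ℝ} {A : ℝ} (hA : 0 < A)
    (hμ : ∀ x, 0 < μ x) (hμ1 : ∑ x, μ x = 1) (hf : ∀ x, 0 < f x)
    (hsub : ∀ θ z, 0 ≤ θ → θ ≤ 1 → ∀ v : ι → ℝ,
      ∑ x, post μ a θ z x * Real.exp (dot v (a x) - ∑ y, post μ a θ z y * dot v (a y)) ≤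
        Real.exp (A * (∑ k, v k ^ 2) / 2)) :
    ent μ f ≤ Real.exp A * ∫ z, mix μ a 1 z * ent (post μ a 1 z) f ∂gauss ι := by
  set c := fun x => μ x * f x
  set d := fun x => μ x * (f x * Real.log (f x))
  have hc : ∀ x, 0 < c x := fun x => mul_pos (hμ x) (hf x)
  set r := fun θ z => mix c a θ z / mix μ a θ z with hr
  set L := ∑ x, |Real.log (f x)|
  set A₀ := ∑ y, ∑ k, |a y k|
  have ha : ∀ x k, |a x k| ≤ A₀ := fun x k =>
    (Finset.single_le_sum (f := fun k => |a x k|) (fun _ _ => abs_nonneg _) (Finset.mem_univ k)).trans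
      (Finset.single_le_sum (f := fun y => ∑ k, |a y k|) (fun y _ => Finset.sum_nonneg fun _ _ => abs_nonneg _)
        (Finset.mem_univ x))
  have hA₀ : 0 ≤ A₀ := Finset.sum_nonneg fun y _ => Finset.sum_nonneg fun _ _ => abs_nonneg _
  have hL : 0 ≤ L := Finset.sum_nonneg fun x _ => abs_nonneg _
  have hu : ∀ θ z, 0 < mix μ a θ z := fun θ z => mix_pos hμ a θ z
  have hw : ∀ θ z, 0 < mix c a θ z := fun θ z => mix_pos hc a θ z
  have hr0 : ∀ θ z, 0 < r θ z := fun θ z => div_pos (hw θ z) (hu θ z)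
  have hrb : ∀ θ z, Real.exp (-L) ≤ r θ z ∧ r θ z ≤ Real.exp L := fun θ z => by
    have hfx : ∀ x, Real.exp (-L) ≤ f x ∧ f x ≤ Real.exp L := fun x => by
      have h := abs_le.1 (Finset.single_le_sum (f := fun x => |Real.log (f x)|) (fun _ _ => abs_nonneg _) (Finset.mem_univ x))
      exact ⟨(Real.le_log_iff_exp_le (hf x)).1 h.1, (Real.log_le_iff_le_exp (hf x)).1 h.2⟩
    simp only [hr]
    rw [le_div_iff₀ (hu θ z), div_le_iff₀ (hu θ z)]
    simp only [mix, Finset.mul_sum]
    exact ⟨Finset.sum_le_sum fun x _ => by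
        have := mul_le_mul_of_nonneg_left (hfx x).1 (mul_pos (hμ x) (ker_pos a θ z x)).le
        simp only [c]; linarith,
      Finset.sum_le_sum fun x _ => by
        have := mul_le_mul_of_nonneg_left (hfx x).2 (mul_pos (hμ x) (ker_pos a θ z x)).le
        simp only [c]; linarith⟩
  have hlog : ∀ θ z, |Real.log (r θ z) + 1| ≤ L + 1 := fun θ z => by
    refine (abs_add_le _ _).trans (add_le_add (abs_le.2 ⟨?_, ?_⟩) (abs_one (α := ℝ)).le)
    · exact (Real.le_log_iff_exp_le (hr0 θ z)).2 (hrb θ z).1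
    · exact (Real.log_le_iff_le_exp (hr0 θ z)).2 (hrb θ z).2
  set G := fun k θ z => mix (fun x => c x * a x k) a θ z
  set K := fun k θ z => mix (fun x => μ x * a x k) a θ z
  set Q := fun k θ z => mix (fun x => c x * a x k ^ 2) a θ z
  set R := fun k θ z => mix (fun x => μ x * a x k ^ 2) a θ z
  set Φ := fun k θ z => (Real.log (r θ z) + 1) * G k θ z - r θ z * K k θ z with hΦ
  set Ψ := fun k θ z => (Real.log (r θ z) + 1) * Q k θ z - r θ z * R k θ z with hΨ
  set D := fun k θ z => (G k θ z - r θ z * K k θ z) ^ 2 / mix c a θ z with hD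
  -- growth bounds
  have bmix : ∀ θ z, ∀ c' : α → ℝ, |mix c' a θ z| ≤ (∑ x, |c' x|) * Real.exp (|θ| * A₀ * l1 z) :=
    fun θ z c' => abs_mix_le ha c' θ z
  have ratio : ∀ θ z k, ∀ c' : α → ℝ, (∀ x, 0 < c' x) → |mix (fun x => c' x * a x k) a θ z| ≤ A₀ * mix c' a θ z := by
    intro θ z k c' hc'
    refine (Finset.abs_sum_le_sum_abs _ _).trans ?_
    rw [mix, Finset.mul_sum]
    refine Finset.sum_le_sum fun x _ => ?_
    rw [abs_mul, abs_mul, abs_of_pos (hc' x), abs_of_pos (ker_pos a θ z x)]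
    have := mul_le_mul_of_nonneg_right (ha x k) (mul_pos (hc' x) (ker_pos a θ z x)).le
    linarith
  have bsum : ∀ θ z, ∀ c₁ c₂ : α → ℝ,
      |(Real.log (r θ z) + 1) * mix c₁ a θ z - r θ z * mix c₂ a θ z| ≤
        ((L + 1) * (∑ x, |c₁ x|) + Real.exp L * ∑ x, |c₂ x|) * Real.exp (|θ| * A₀ * l1 z) := fun θ z c₁ c₂ => by
    refine (abs_sub _ _).trans ?_
    rw [abs_mul, abs_mul, add_mul, mul_assoc (L + 1), mul_assoc (Real.exp L), abs_of_pos (hr0 θ z)]
    exact add_le_add (mul_le_mul (hlog θ z) (bmix θ z c₁) (abs_nonneg _) (by linarith))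
      (mul_le_mul (hrb θ z).2 (bmix θ z c₂) (abs_nonneg _) (Real.exp_pos _).le)
  set SΦ := fun k => (L + 1) * (∑ x, |c x * a x k|) + Real.exp L * ∑ x, |μ x * a x k|
  set SΨ := fun k => (L + 1) * (∑ x, |c x * a x k ^ 2|) + Real.exp L * ∑ x, |μ x * a x k ^ 2|
  have bΦ : ∀ k θ z, |Φ k θ z| ≤ SΦ k * Real.exp (|θ| * A₀ * l1 z) := fun k θ z => bsum θ z _ _
  have bΨ : ∀ k θ z, |Ψ k θ z| ≤ SΨ k * Real.exp (|θ| * A₀ * l1 z) := fun k θ z => bsum θ z _ _
  have bD : ∀ k θ z, |D k θ z| ≤ 4 * A₀ ^ 2 * (∑ x, |c x|) * Real.exp (|θ| * A₀ * l1 z) := fun k θ z => by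
    have h1 : |G k θ z - r θ z * K k θ z| ≤ 2 * A₀ * mix c a θ z := by
      refine (abs_sub _ _).trans ?_
      rw [abs_mul, abs_of_pos (hr0 θ z)]
      have h2 := mul_le_mul_of_nonneg_left (ratio θ z k μ hμ) (hr0 θ z).le
      have h3 : r θ z * (A₀ * mix μ a θ z) = A₀ * mix c a θ z := by
        have := (hu θ z).ne'
        simp only [hr]; field_simp
      linarith [ratio θ z k c hc]
    simp only [hD]
    rw [abs_div, abs_pow, abs_of_pos (hw θ z), div_le_iff₀ (hw θ z)]
    refine (pow_le_pow_left₀ (abs_nonneg _) h1 2).trans ?_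
    have h4 := mul_le_mul_of_nonneg_left ((le_abs_self _).trans (bmix θ z c))
      (mul_nonneg (by positivity : (0:ℝ) ≤ 4 * A₀ ^ 2) (hw θ z).le)
    linarith
  -- continuity
  have cr : ∀ θ, Continuous (r θ) := fun θ =>
    (continuous_mix c a θ).div (continuous_mix μ a θ) fun z => (hu θ z).ne'
  have clog : ∀ θ, Continuous fun z => Real.log (r θ z) + 1 := fun θ =>
    ((cr θ).log fun z => (hr0 θ z).ne').add continuous_const
  have cΦ : ∀ k θ, Continuous (Φ k θ) := fun k θ =>
    ((clog θ).mul (continuous_mix _ a θ)).sub ((cr θ).mul (continuous_mix _ a θ))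
  have cΨ : ∀ k θ, Continuous (Ψ k θ) := fun k θ =>
    ((clog θ).mul (continuous_mix _ a θ)).sub ((cr θ).mul (continuous_mix _ a θ))
  have cD : ∀ k θ, Continuous (D k θ) := fun k θ =>
    (((continuous_mix _ a θ).sub ((cr θ).mul (continuous_mix _ a θ))).pow 2).div (continuous_mix _ a θ)
      fun z => (hw θ z).ne'
  -- coordinate derivative
  have hΦd : ∀ k θ z t, HasDerivAt (fun s => Φ k θ (Function.update z k s))
      (θ * Ψ k θ (Function.update z k t) + θ * D k θ (Function.update z k t)) t := by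
    intro k θ z t
    have dw := hasDerivAt_mix_update c a θ z k t
    have du := hasDerivAt_mix_update μ a θ z k t
    have dr := dw.div du (hu θ _).ne'
    have dl := (dr.log (hr0 θ _).ne').add_const (1:ℝ)
    have dG := hasDerivAt_mix_update (fun x => c x * a x k) a θ z k t
    have dK := hasDerivAt_mix_update (fun x => μ x * a x k) a θ z k t
    refine ((dl.mul dG).sub (dr.mul dK)).congr_deriv ?_
    simp only [Pi.div_apply]
    generalize Function.update z k t = y
    have e1 : mix (fun x => c x * a x k * a x k) a θ y = Q k θ y := by simp only [Q, mul_assoc, sq]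
    have e2 : mix (fun x => μ x * a x k * a x k) a θ y = R k θ y := by simp only [R, mul_assoc, sq]
    rw [e1, e2]
    simp only [hΨ, hD, hr, G, K]
    have := (hu θ y).ne'
    have := (hw θ y).ne'
    field_simp
    ring
  -- θ derivative
  set H := fun θ => ∫ z, mix c a θ z * Real.log (r θ z) ∂gauss ι
  have hHd : ∀ θ, HasDerivAt H (θ * ∫ z, ∑ k, D k θ z ∂gauss ι) θ := by
    intro θ
    have hpt : ∀ t z, HasDerivAt (fun s => mix c a s z * Real.log (r s z))
        (∑ k, (z k * Φ k t z - t * Ψ k t z)) t := by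
      intro t z
      have dw := hasDerivAt_mix c a t z
      have du := hasDerivAt_mix μ a t z
      refine (dw.mul ((dw.div du (hu t z).ne').log (hr0 t z).ne')).congr_deriv ?_
      simp only [hr, Pi.div_apply]
      have := (hu t z).ne'
      have := (hw t z).ne'
      rw [show (∑ k, (z k * Φ k t z - t * Ψ k t z)) = (Real.log (mix c a t z / mix μ a t z) + 1) *
          (∑ k, (z k * G k t z - t * Q k t z)) -
          mix c a t z / mix μ a t z * ∑ k, (z k * K k t z - t * R k t z) by
        simp only [hΦ, hΨ, hr, Finset.mul_sum, ← Finset.sum_sub_distrib]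
        exact Finset.sum_congr rfl fun k _ => by ring]
      field_simp
      ring
    have hS : ∀ {k}, 0 ≤ SΦ k ∧ 0 ≤ SΨ k := fun {k} => by constructor <;> positivity
    set M := (|θ| + 1) * A₀ + 1
    have hbd : ∀ t, |t - θ| ≤ 1 → ∀ z : ι → ℝ, |∑ k, (z k * Φ k t z - t * Ψ k t z)| ≤
        (∑ k, (SΦ k + (|θ| + 1) * SΨ k)) * Real.exp (M * l1 z) := by
      intro t ht z
      refine (Finset.abs_sum_le_sum_abs _ _).trans ?_
      rw [Finset.sum_mul]
      refine Finset.sum_le_sum fun k _ => ?_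
      have htb : |t| ≤ |θ| + 1 := by have := abs_sub_abs_le_abs_sub t θ; linarith
      have hl := l1_nonneg z
      have he : Real.exp (|t| * A₀ * l1 z) ≤ Real.exp ((|θ| + 1) * A₀ * l1 z) :=
        Real.exp_le_exp.2 (mul_le_mul_of_nonneg_right (mul_le_mul_of_nonneg_right htb hA₀) hl)
      have hM : Real.exp (M * l1 z) = Real.exp ((|θ| + 1) * A₀ * l1 z) * Real.exp (l1 z) := by
        rw [← Real.exp_add]; congr 1; ring
      refine (abs_sub _ _).trans ?_
      rw [abs_mul, abs_mul, add_mul, hM]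
      refine add_le_add ?_ ?_
      · refine (mul_le_mul (((abs_le_l1 z k).trans (le_add_of_nonneg_right zero_le_one)).trans (Real.add_one_le_exp _))
          ((bΦ k t z).trans (mul_le_mul_of_nonneg_left he hS.1)) (abs_nonneg _) (Real.exp_pos _).le).trans (le_of_eq ?_)
        ring
      · refine (mul_le_mul htb ((bΨ k t z).trans (mul_le_mul_of_nonneg_left he hS.2)) (abs_nonneg _)
          (by positivity)).trans ?_
        rw [← mul_assoc, ← mul_assoc]
        refine le_mul_of_one_le_right (mul_nonneg (mul_nonneg (by positivity) hS.2) (Real.exp_pos _).le) (Real.one_le_exp hl)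
    have hb₀ : ∀ z, |mix c a θ z * Real.log (r θ z)| ≤ ((∑ x, |c x|) * L) * Real.exp (|θ| * A₀ * l1 z) := fun z => by
      rw [abs_mul, mul_right_comm]
      refine mul_le_mul (bmix θ z c) (abs_le.2 ⟨?_, ?_⟩) (abs_nonneg _) (by positivity)
      · exact (Real.le_log_iff_exp_le (hr0 θ z)).2 (hrb θ z).1
      · exact (Real.log_le_iff_le_exp (hr0 θ z)).2 (hrb θ z).2
    refine (hasDerivAt_gauss_integral (F := fun t z => mix c a t z * Real.log (r t z))
      (F' := fun t z => ∑ k, (z k * Φ k t z - t * Ψ k t z))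
      (fun t => (continuous_mix c a t).mul ((cr t).log fun z => (hr0 t z).ne'))
      (fun t => continuous_finsetSum _ fun k _ => ((continuous_apply k).mul (cΦ k t)).sub (continuous_const.mul (cΨ k t)))
      hb₀ hbd hpt).congr_deriv ?_
    have hM0 : 0 ≤ |θ| * A₀ := by positivity
    have iΨ : ∀ k, Integrable (Ψ k θ) (gauss ι) := fun k => integrable_of_bound (cΨ k θ) (bΨ k θ)
    have iD : ∀ k, Integrable (D k θ) (gauss ι) := fun k => integrable_of_bound (cD k θ) (bD k θ)
    have izΦ : ∀ k, Integrable (fun z => z k * Φ k θ z) (gauss ι) := fun k =>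
      integrable_of_bound (C := SΦ k) (M := |θ| * A₀ + 1) ((continuous_apply k).mul (cΦ k θ)) fun z => by
        rw [abs_mul, add_mul (|θ| * A₀) 1 (l1 z), one_mul, Real.exp_add, ← mul_assoc, mul_comm |z k|]
        exact mul_le_mul (bΦ k θ z) (((abs_le_l1 z k).trans (le_add_of_nonneg_right zero_le_one)).trans
          (Real.add_one_le_exp _)) (abs_nonneg _) (mul_nonneg hS.1 (Real.exp_pos _).le)
    rw [integral_finsetSum _ fun k _ => (show Integrable (fun z => z k * Φ k θ z - θ * Ψ k θ z) (gauss ι) from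
        (izΦ k).sub ((iΨ k).const_mul θ)), integral_finsetSum _ fun k _ => iD k,
      Finset.mul_sum]
    refine Finset.sum_congr rfl fun k _ => ?_
    have hb' : ∀ z, |θ * Ψ k θ z + θ * D k θ z| ≤
        (|θ| * SΨ k + |θ| * (4 * A₀ ^ 2 * ∑ x, |c x|)) * Real.exp (|θ| * A₀ * l1 z) := fun z => by
      refine (abs_add_le _ _).trans ?_
      rw [abs_mul, abs_mul, add_mul, mul_assoc |θ| (SΨ k), mul_assoc |θ| (4 * A₀ ^ 2 * ∑ x, |c x|)]
      exact add_le_add (mul_le_mul_of_nonneg_left (bΨ k θ z) (abs_nonneg _))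
        (mul_le_mul_of_nonneg_left (bD k θ z) (abs_nonneg _))
    have key := gauss_ibp k hM0 (φ' := fun z => θ * Ψ k θ z + θ * D k θ z) (C := max (SΦ k) (|θ| * SΨ k + |θ| * (4 * A₀ ^ 2 * ∑ x, |c x|))) (cΦ k θ)
      ((continuous_const.mul (cΨ k θ)).add (continuous_const.mul (cD k θ)))
      (fun z => (bΦ k θ z).trans (mul_le_mul_of_nonneg_right (le_max_left _ _) (Real.exp_pos _).le))
      (fun z => (hb' z).trans (mul_le_mul_of_nonneg_right (le_max_right _ _) (Real.exp_pos _).le)) (hΦd k θ)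
    rw [integral_sub (izΦ k) ((iΨ k).const_mul θ), key, integral_add ((iΨ k).const_mul θ) ((iD k).const_mul θ),
      integral_const_mul, integral_const_mul]
    ring
  -- pointwise transport inequality
  have hpt : ∀ θ, 0 ≤ θ → θ ≤ 1 → ∀ z,
      ∑ k, D k θ z ≤ 2 * A * (mix d a θ z - mix c a θ z * Real.log (r θ z)) := by
    intro θ h0 h1 z
    set u := mix μ a θ z
    set p := post μ a θ z with hp
    have hu0 : 0 < u := hu θ z
    have hpp : ∀ x, 0 < p x := fun x => div_pos (mul_pos (hμ x) (ker_pos a θ z x)) hu0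
    have hp1 : ∑ x, p x = 1 := by
      simp only [hp, post, ← Finset.sum_div]; exact div_self hu0.ne'
    have conv : ∀ F : α → ℝ, ∑ x, p x * F x = mix (fun x => μ x * F x) a θ z / u := fun F => by
      simp only [hp, u, post, mix, Finset.sum_div]
      exact Finset.sum_congr rfl fun x _ => by ring
    set v := fun k => (G k θ z - r θ z * K k θ z) / (A * mix c a θ z) with hv
    have hdual := dual_entropy hpp hf hp1 (fun x => dot v (a x) - ∑ y, p y * dot v (a y))
    have hlogq : Real.log (∑ x, p x * Real.exp (dot v (a x) - ∑ y, p y * dot v (a y))) ≤ A * (∑ k, v k ^ 2) / 2 := by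
      rw [Real.log_le_iff_le_exp (Finset.sum_pos (fun x _ => mul_pos (hpp x) (Real.exp_pos _)) Finset.univ_nonempty)]
      exact hsub θ z h0 h1 v
    have hrp : ∑ x, p x * f x = r θ z := conv f
    have hent : ent p f = (mix d a θ z - mix c a θ z * Real.log (r θ z)) / u := by
      rw [ent, hrp, conv (fun x => f x * Real.log (f x))]
      simp only [hr, d, u]
      ring
    have hlhs : ∑ x, p x * (f x * (dot v (a x) - ∑ y, p y * dot v (a y))) =
        (∑ k, v k * (G k θ z - r θ z * K k θ z)) / u := by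
      have e1 : ∀ F : α → ℝ, ∑ x, p x * (F x * dot v (a x)) = ∑ k, v k * ∑ x, p x * (F x * a x k) := fun F => by
        simp only [dot, Finset.mul_sum]
        rw [Finset.sum_comm]
        exact Finset.sum_congr rfl fun k _ => Finset.sum_congr rfl fun x _ => by ring
      have e2 := e1 fun _ => 1
      simp only [one_mul] at e2
      simp only [mul_sub, Finset.sum_sub_distrib, e1, ← Finset.sum_mul, ← mul_assoc (p _) (f _) (Finset.sum _ _), hrp, e2]
      simp only [conv, Finset.mul_sum, Finset.sum_div, ← Finset.sum_sub_distrib, G, K, c]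
      refine Finset.sum_congr rfl fun k _ => ?_
      simp only [mul_assoc]; ring
    rw [hlhs, hent, hrp] at hdual
    have h5 := hdual.trans (add_le_add le_rfl (mul_le_mul_of_nonneg_left hlogq (hr0 θ z).le))
    rw [div_le_iff₀ hu0] at h5
    have hW := hw θ z
    have e3 : ∑ k, v k * (G k θ z - r θ z * K k θ z) = (∑ k, D k θ z) / A := by
      rw [Finset.sum_div]
      refine Finset.sum_congr rfl fun k _ => ?_
      simp only [hv, hD]; field_simp
    have e4 : r θ z * (A * (∑ k, v k ^ 2) / 2) * u = (∑ k, D k θ z) / A / 2 := by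
      simp only [Finset.sum_div, Finset.mul_sum, Finset.sum_mul]
      refine Finset.sum_congr rfl fun k _ => ?_
      have := (hu θ z).ne'
      simp only [hv, hD, hr, u]; field_simp
    rw [add_mul, div_mul_cancel₀ _ hu0.ne', e3, e4] at h5
    rw [← sub_nonneg] at h5 ⊢
    have h6 := mul_nonneg (by linarith : (0:ℝ) ≤ 2 * A) h5
    have e5 : ∀ X Y : ℝ, 2 * A * (X + Y / A / 2 - Y / A) = 2 * A * X - Y := fun X Y => by field_simp; ring
    rw [e5] at h6
    exact h6
  -- the entropy along the channel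
  have iW : ∀ θ, Integrable (fun z => mix d a θ z) (gauss ι) := fun θ =>
    integrable_of_bound (continuous_mix d a θ) fun z => bmix θ z d
  have iH : ∀ θ, Integrable (fun z => mix c a θ z * Real.log (r θ z)) (gauss ι) := fun θ =>
    integrable_of_bound (C := (∑ x, |c x|) * L) (M := |θ| * A₀)
      ((continuous_mix c a θ).mul ((cr θ).log fun z => (hr0 θ z).ne')) fun z => by
      rw [abs_mul, mul_right_comm]
      refine mul_le_mul (bmix θ z c) (abs_le.2 ⟨?_, ?_⟩) (abs_nonneg _) (by positivity)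
      · exact (Real.le_log_iff_exp_le (hr0 θ z)).2 (hrb θ z).1
      · exact (Real.log_le_iff_le_exp (hr0 θ z)).2 (hrb θ z).2
  set ψ := fun θ => (∑ x, d x) - H θ with hψ
  have hψe : ∀ θ, ψ θ = ∫ z, (mix d a θ z - mix c a θ z * Real.log (r θ z)) ∂gauss ι := fun θ => by
    rw [integral_sub (iW θ) (iH θ), integral_mix]
  have hg : ∀ θ, HasDerivAt (fun t => ψ t * Real.exp (A * t ^ 2))
      ((-(θ * ∫ z, ∑ k, D k θ z ∂gauss ι)) * Real.exp (A * θ ^ 2) +
        ψ θ * (Real.exp (A * θ ^ 2) * (A * (2 * θ)))) θ := fun θ => by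
    have he : HasDerivAt (fun t : ℝ => Real.exp (A * t ^ 2)) (Real.exp (A * θ ^ 2) * (A * (2 * θ))) θ := by
      simpa using ((hasDerivAt_pow 2 θ).const_mul A).exp
    exact ((hHd θ).const_sub _).mul he
  have hmono : MonotoneOn (fun t => ψ t * Real.exp (A * t ^ 2)) (Set.Icc 0 1) := by
    refine monotoneOn_of_hasDerivWithinAt_nonneg (convex_Icc 0 1)
      (fun t _ => (hg t).continuousAt.continuousWithinAt) (fun t _ => (hg t).hasDerivWithinAt) fun t ht => ?_
    rw [interior_Icc] at ht
    have h1 : ∫ z, ∑ k, D k t z ∂gauss ι ≤ 2 * A * ψ t := by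
      rw [hψe, ← integral_const_mul]
      exact integral_mono (integrable_finsetSum _ fun k _ => integrable_of_bound (cD k t) (bD k t))
        (((iW t).sub (iH t)).const_mul _) (hpt t ht.1.le ht.2.le)
    have h2 := mul_le_mul_of_nonneg_left h1 (mul_nonneg ht.1.le (Real.exp_pos (A * t ^ 2)).le)
    linarith
  have hmain := hmono (Set.left_mem_Icc.2 zero_le_one) (Set.right_mem_Icc.2 zero_le_one) zero_le_one
  have hzero : ψ 0 = ent μ f := by
    have hk : ∀ c' : α → ℝ, ∀ z, mix c' a 0 z = ∑ x, c' x := fun c' z => by simp [mix, ker]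
    simp only [hψ, H, hr, hk, hμ1, div_one, integral_const, probReal_univ, one_smul]
    rfl
  have hone : ψ 1 = ∫ z, mix μ a 1 z * ent (post μ a 1 z) f ∂gauss ι := by
    rw [hψe]
    refine integral_congr_ae (Filter.Eventually.of_forall fun z => ?_)
    have hne := (hu 1 z).ne'
    have conv : ∀ F : α → ℝ, ∑ x, post μ a 1 z x * F x = mix (fun x => μ x * F x) a 1 z / mix μ a 1 z := fun F => by
      simp only [post, mix, Finset.sum_div]
      exact Finset.sum_congr rfl fun x _ => by ring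
    simp only [ent, conv, hr, c, d]
    field_simp
  simp only [mul_one, mul_zero, one_pow, Real.exp_zero, ne_eq, OfNat.ofNat_ne_zero, not_false_eq_true, zero_pow,
    hzero, hone] at hmain
  linarith

end Vale.Agent.P150
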