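import Vale.Agent.P150.Algebra
import Vale.Agent.P150.Pair
import Vale.Agent.P150.Stability

/-! Spectral gap of Ising models with small couplings, uniformly in the external field. -/

namespace Vale.Agent.P150.Ising

set_option linter.unusedVariables false

variable {n : ℕ} (J : Fin n → Fin n → ℝ) (b : Fin n → ℝ)

/-- log-weight -/
noncomputable def qE (x : Cfg n) : ℝ :=
  (∑ i, ∑ j, J i j * (spin (x i) * spin (x j))) / 2 + ∑ i, b i * spin (x i)

/-- probability weights -/
noncomputable def wt (x : Cfg n) : ℝ := Real.exp (qE J b x) / ∑ y : Cfg n, Real.exp (qE J b y)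

/-- field at a site -/
noncomputable def fld (i : Fin n) (x : Cfg n) : ℝ := (∑ j, J i j * spin (x j)) + b i

/-- conditional mean of a spin -/
noncomputable def mag (i : Fin n) (x : Cfg n) : ℝ := Real.tanh (fld J b i x)

/-- discrete derivative -/
noncomputable def dd (i : Fin n) (f : Cfg n → ℝ) (x : Cfg n) : ℝ :=
  (f (Function.update x i true) - f (Function.update x i false)) / 2

/-- `f - Q_i f` -/
noncomputable def proj (i : Fin n) (f : Cfg n → ℝ) (x : Cfg n) : ℝ := (spin (x i) - mag J b i x) * dd i f x

/-- Dirichlet form -/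
noncomputable def dir (f : Cfg n → ℝ) : ℝ := ∑ i, ∑ x, wt J b x * ((1 - mag J b i x ^ 2) * dd i f x ^ 2)

/-- `f - Q f` summed over sites -/
noncomputable def gen (f : Cfg n → ℝ) (x : Cfg n) : ℝ := ∑ i, proj J b i f x

/-- expectation -/
noncomputable def avg (f : Cfg n → ℝ) : ℝ := ∑ x, wt J b x * f x

/-- hypotheses on the coupling matrix -/
structure Good (J : Fin n → Fin n → ℝ) (Λ R : ℝ) : Prop where
  symm : ∀ i j, J i j = J j i
  diag : ∀ i, J i i = 0
  op : ∀ v : Fin n → ℝ, |∑ i, ∑ j, J i j * (v i * v j)| ≤ Λ * ∑ i, v i ^ 2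
  row2 : ∀ i, ∑ j, J i j ^ 2 ≤ Λ / 2
  small : ∀ i j, |J i j| ≤ 1 / 4
  row3 : ∀ i, ∑ j, |J i j| ^ 3 ≤ R

lemma tanh_eq (a : ℝ) : Real.cosh a * (1 + Real.tanh a) = Real.exp a ∧ Real.cosh a * (1 - Real.tanh a) = Real.exp (-a) := by
  rw [Real.tanh_eq_sinh_div_cosh]
  have := (Real.cosh_pos a).ne'
  constructor <;> field_simp <;> simp [Real.cosh_add_sinh, Real.cosh_sub_sinh]

lemma exp_spin (a : ℝ) (c : Bool) : Real.exp (a * spin c) = Real.cosh a * (1 + Real.tanh a * spin c) := by
  cases c <;> simp [spin, (tanh_eq a).1, ← sub_eq_add_neg, (tanh_eq a).2]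

lemma tanh_add' (a c : ℝ) :
    Real.tanh (a + c) = (Real.tanh a + Real.tanh c) / (1 + Real.tanh a * Real.tanh c) := by
  simp only [Real.tanh_eq_sinh_div_cosh, Real.sinh_add, Real.cosh_add]
  have := (Real.cosh_pos a).ne'
  have := (Real.cosh_pos c).ne'
  field_simp

lemma tanh_abs_lt (a : ℝ) : |Real.tanh a| < 1 := abs_lt.2 ⟨Real.neg_one_lt_tanh a, Real.tanh_lt_one a⟩

lemma hasDerivAt_tanh' (a : ℝ) : HasDerivAt Real.tanh (1 - Real.tanh a ^ 2) a := by
  have h := (Real.hasDerivAt_sinh a).div (Real.hasDerivAt_cosh a) (Real.cosh_pos a).ne'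
  have e : Real.tanh = fun t => Real.sinh t / Real.cosh t := funext Real.tanh_eq_sinh_div_cosh
  rw [e]
  refine h.congr_deriv ?_
  have := (Real.cosh_pos a).ne'
  field_simp

lemma abs_tanh_le (a : ℝ) : |Real.tanh a| ≤ |a| := by
  have h := convex_univ.norm_image_sub_le_of_norm_hasDerivWithin_le (C := 1)
    (fun x _ => (hasDerivAt_tanh' x).hasDerivWithinAt) (fun x _ => by
      rw [Real.norm_eq_abs, abs_le]
      have := (sq_lt_one_iff_abs_lt_one (Real.tanh x)).2 (tanh_abs_lt x)
      constructor <;> linarith [sq_nonneg (Real.tanh x)]) (Set.mem_univ 0) (Set.mem_univ a)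
  simpa using h

lemma abs_tanh_sub_le (a : ℝ) : |Real.tanh a - a| ≤ |a| ^ 3 := by
  have h := (convex_Icc (-|a|) |a|).norm_image_sub_le_of_norm_hasDerivWithin_le (C := a ^ 2)
    (fun x _ => ((hasDerivAt_tanh' x).sub (hasDerivAt_id x)).hasDerivWithinAt) (fun x hx => by
      rw [show (1 - Real.tanh x ^ 2 - 1) = -(Real.tanh x ^ 2) by ring, norm_neg, Real.norm_eq_abs, abs_pow, ← sq_abs a]
      exact pow_le_pow_left₀ (abs_nonneg _) ((abs_tanh_le x).trans (abs_le.2 hx)) 2)
    (Set.mem_Icc.2 ⟨neg_nonpos.2 (abs_nonneg a), abs_nonneg a⟩) (Set.mem_Icc.2 ⟨neg_abs_le a, le_abs_self a⟩)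
  simp only [Pi.sub_apply, Real.tanh_zero, id_eq, sub_zero, Real.norm_eq_abs] at h
  exact h.trans_eq (by rw [pow_succ |a|, sq_abs])

lemma wt_pos (x : Cfg n) : 0 < wt J b x :=
  div_pos (Real.exp_pos _) (Finset.sum_pos (fun _ _ => Real.exp_pos _) Finset.univ_nonempty)

lemma wt_sum : ∑ x, wt J b x = 1 := by
  unfold wt
  rw [← Finset.sum_div]
  exact div_self (Finset.sum_pos (fun _ _ => Real.exp_pos _) Finset.univ_nonempty).ne'

lemma mag_sq (i : Fin n) (x : Cfg n) : 0 ≤ 1 - mag J b i x ^ 2 ∧ 1 - mag J b i x ^ 2 ≤ 1 := by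
  have := (sq_lt_one_iff_abs_lt_one _).2 (tanh_abs_lt (fld J b i x))
  unfold mag
  constructor <;> linarith [sq_nonneg (Real.tanh (fld J b i x))]

lemma spin_update (j : Fin n) (x : Cfg n) (c : Bool) (k : Fin n) :
    spin (Function.update x j c k) = spin (x k) + (if k = j then spin c - spin (x j) else 0) := by
  by_cases h : k = j
  · subst h; simp
  · simp [h]

lemma fld_update (i j : Fin n) (x : Cfg n) (c : Bool) :
    fld J b i (Function.update x j c) = fld J b i x + J i j * (spin c - spin (x j)) := by
  simp only [fld, spin_update, mul_add, Finset.sum_add_distrib, mul_ite, mul_zero, Finset.sum_ite_eq',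
    Finset.mem_univ, if_true]
  ring

variable {J}

lemma qE_update (hs : ∀ i j, J i j = J j i) (hd : ∀ i, J i i = 0) (i : Fin n) (x : Cfg n) (c : Bool) :
    qE J b (Function.update x i c) = qE J b x + (spin c - spin (x i)) * fld J b i x := by
  simp only [qE, fld, spin_update]
  set d := spin c - spin (x i)
  have e : ∀ k l, J k l * ((spin (x k) + if k = i then d else 0) * (spin (x l) + if l = i then d else 0)) =
      J k l * (spin (x k) * spin (x l)) + (if l = i then d * (J k i * spin (x k)) else 0) +
        (if k = i then d * (J i l * spin (x l)) else 0) := by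
    intro k l
    by_cases hk : k = i <;> by_cases hl : l = i <;> simp only [hk, hl, if_true, if_false, hd] <;> ring
  simp only [e]
  simp only [Finset.sum_add_distrib, Finset.sum_ite_eq', Finset.mem_univ, if_true, mul_add, mul_ite, mul_zero]
  have e2 : ∑ k, ∑ l, (if k = i then d * (J i l * spin (x l)) else 0) = d * ∑ l, J i l * spin (x l) := by
    rw [Finset.sum_eq_single i (fun k _ hk => by simp [hk]) (by simp), Finset.mul_sum]
    simp
  have e3 : ∑ k, d * (J k i * spin (x k)) = d * ∑ l, J i l * spin (x l) := by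
    rw [Finset.mul_sum]; exact Finset.sum_congr rfl fun k _ => by rw [hs k i]
  rw [e2, e3]; ring

lemma fld_update_self (hd : ∀ i, J i i = 0) (i : Fin n) (x : Cfg n) (c : Bool) :
    fld J b i (Function.update x i c) = fld J b i x := by
  rw [fld_update, hd]; ring

lemma sum_half (i : Fin n) (F : Cfg n → ℝ) :
    ∑ x, F x = (∑ x, (F (Function.update x i true) + F (Function.update x i false))) / 2 := by
  have h : ∀ x : Cfg n, F (Function.update x i true) + F (Function.update x i false) = F x + F (flip i x) := by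
    intro x
    unfold flip
    cases hx : x i
    · have e : Function.update x i false = x := by rw [← hx, Function.update_eq_self]
      rw [e, add_comm]; rfl
    · have e : Function.update x i true = x := by rw [← hx, Function.update_eq_self]
      rw [e]; rfl
  simp only [h, Finset.sum_add_distrib, sum_flip]
  ring

lemma wt_update (hs : ∀ i j, J i j = J j i) (hd : ∀ i, J i i = 0) (i : Fin n) (x : Cfg n) (c : Bool) :
    wt J b (Function.update x i c) =
      wt J b x * Real.exp (-(fld J b i x * spin (x i))) * Real.cosh (fld J b i x) * (1 + mag J b i x * spin c) := by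
  rw [mul_assoc _ (Real.cosh _), mag, ← exp_spin, wt, qE_update b hs hd, wt, div_mul_eq_mul_div, div_mul_eq_mul_div,
    ← Real.exp_add, ← Real.exp_add]
  ring_nf

lemma dd_update (i : Fin n) (f : Cfg n → ℝ) (x : Cfg n) (c : Bool) : dd i f (Function.update x i c) = dd i f x := by
  simp [dd]

lemma mag_update (hd : ∀ i, J i i = 0) (i : Fin n) (x : Cfg n) (c : Bool) :
    mag J b i (Function.update x i c) = mag J b i x := by
  rw [mag, fld_update_self b hd, mag]

lemma site_mul (hs : ∀ i j, J i j = J j i) (hd : ∀ i, J i i = 0) (i : Fin n) (f h : Cfg n → ℝ) :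
    ∑ x, wt J b x * (f x * proj J b i h x) = ∑ x, wt J b x * ((1 - mag J b i x ^ 2) * (dd i f x * dd i h x)) := by
  rw [sum_half i (fun x => wt J b x * (f x * proj J b i h x)),
    sum_half i (fun x => wt J b x * ((1 - mag J b i x ^ 2) * (dd i f x * dd i h x)))]
  congr 1
  refine Finset.sum_congr rfl fun x _ => ?_
  simp only [proj, wt_update b hs hd, mag_update b hd, dd_update, Function.update_self]
  simp only [dd, spin, if_true, Bool.false_eq_true, if_false]
  ring

lemma proj_update (hd : ∀ i, J i i = 0) (i : Fin n) (h : Cfg n → ℝ) (x : Cfg n) (c : Bool) :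
    proj J b i h (Function.update x i c) = (spin c - mag J b i x) * dd i h x := by
  rw [proj, mag_update b hd, dd_update, Function.update_self]

lemma site_sq (hs : ∀ i j, J i j = J j i) (hd : ∀ i, J i i = 0) (i : Fin n) (f : Cfg n → ℝ) :
    ∑ x, wt J b x * (proj J b i f x * proj J b i f x) =
      ∑ x, wt J b x * ((1 - mag J b i x ^ 2) * dd i f x ^ 2) := by
  rw [sum_half i (fun x => wt J b x * (proj J b i f x * proj J b i f x)),
    sum_half i (fun x => wt J b x * ((1 - mag J b i x ^ 2) * dd i f x ^ 2))]
  congr 1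
  refine Finset.sum_congr rfl fun x _ => ?_
  simp only [proj_update b hd, wt_update b hs hd, mag_update b hd, dd_update]
  simp only [spin, if_true, Bool.false_eq_true, if_false]
  ring

set_option linter.unusedVariables false in
/-- the two-site inequality summed over configurations -/
lemma pair_sum {Λ R : ℝ} (hJ : Good J Λ R) {i j : Fin n} (hij : i ≠ j) (f : Cfg n → ℝ) :
    0 ≤ ∑ x, wt J b x * (proj J b i f x * proj J b j f x +
      Real.tanh (J i j) * (((1 - mag J b i x ^ 2) * dd i f x) * ((1 - mag J b j x ^ 2) * dd j f x)) +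
      2 * Real.tanh (J i j) ^ 2 * ((mag J b i x * ((1 - mag J b i x ^ 2) * dd i f x)) *
        (mag J b j x * ((1 - mag J b j x ^ 2) * dd j f x))) +
      10000 * |Real.tanh (J i j)| ^ 3 * ((1 - mag J b i x ^ 2) * dd i f x ^ 2 + (1 - mag J b j x ^ 2) * dd j f x ^ 2)) := by
  set F := fun x => wt J b x * (proj J b i f x * proj J b j f x +
      Real.tanh (J i j) * (((1 - mag J b i x ^ 2) * dd i f x) * ((1 - mag J b j x ^ 2) * dd j f x)) +
      2 * Real.tanh (J i j) ^ 2 * ((mag J b i x * ((1 - mag J b i x ^ 2) * dd i f x)) *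
        (mag J b j x * ((1 - mag J b j x ^ 2) * dd j f x))) +
      10000 * |Real.tanh (J i j)| ^ 3 * ((1 - mag J b i x ^ 2) * dd i f x ^ 2 + (1 - mag J b j x ^ 2) * dd j f x ^ 2)) with hF
  have h2 : 0 ≤ ∑ x, ((F (Function.update (Function.update x i true) j true) +
      F (Function.update (Function.update x i true) j false)) +
      (F (Function.update (Function.update x i false) j true) +
      F (Function.update (Function.update x i false) j false))) := by
    refine Finset.sum_nonneg fun x _ => ?_
    set K := J i j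
    set a := fld J b i x - K * spin (x j) with ha
    set a' := fld J b j x - K * spin (x i) with ha'
    set U := fun c => dd i f (Function.update x j c) with hU
    set V := fun d => dd j f (Function.update x i d) with hV
    set W := wt J b x * Real.exp (-(fld J b i x * spin (x i) + a' * spin (x j))) *
      (Real.cosh a * Real.cosh a' * Real.cosh K)
    have hW : 0 ≤ W := by
      have := wt_pos J b x
      have := Real.cosh_pos a; have := Real.cosh_pos a'; have := Real.cosh_pos K
      positivity
    have hfi : ∀ d c, fld J b i (Function.update (Function.update x i d) j c) = a + K * spin c := fun d c => by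
      rw [fld_update, fld_update_self b hJ.diag, Function.update_of_ne hij.symm, ha]; ring
    have hfj : ∀ d c, fld J b j (Function.update (Function.update x i d) j c) = a' + K * spin d := fun d c => by
      rw [fld_update_self b hJ.diag, fld_update, ← hJ.symm i j, ha']; ring
    have hKs : ∀ c, Real.tanh (K * spin c) = Real.tanh K * spin c := fun c => by
      cases c <;> simp [spin, Real.tanh_neg]
    have hdi : ∀ d c, dd i f (Function.update (Function.update x i d) j c) = U c := fun d c => by
      rw [Function.update_comm hij d c x, dd_update]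
    have hdj : ∀ d c, dd j f (Function.update (Function.update x i d) j c) = V d := fun d c => dd_update j f _ c
    have hwt : ∀ d c, wt J b (Function.update (Function.update x i d) j c) =
        W * ((1 + Real.tanh a * spin d) * (1 + Real.tanh a' * spin c) * (1 + Real.tanh K * (spin d * spin c))) := fun d c => by
      have h3 : Real.exp (K * (spin d * spin c)) = Real.cosh K * (1 + Real.tanh K * (spin d * spin c)) := by
        cases d <;> cases c <;> simp [spin, (tanh_eq K).1, ← sub_eq_add_neg, (tanh_eq K).2]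
      rw [show W * ((1 + Real.tanh a * spin d) * (1 + Real.tanh a' * spin c) * (1 + Real.tanh K * (spin d * spin c))) =
        wt J b x * (Real.exp (-(fld J b i x * spin (x i) + a' * spin (x j))) *
          ((Real.cosh a * (1 + Real.tanh a * spin d)) * (Real.cosh a' * (1 + Real.tanh a' * spin c)) *
            (Real.cosh K * (1 + Real.tanh K * (spin d * spin c))))) by simp only [W]; ring,
        ← exp_spin, ← exp_spin, ← h3, ← Real.exp_add, ← Real.exp_add, ← Real.exp_add, wt, wt,
        qE_update b hJ.symm hJ.diag, qE_update b hJ.symm hJ.diag, fld_update, Function.update_of_ne hij.symm,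
        div_mul_eq_mul_div, ← Real.exp_add, ← hJ.symm i j, ha, ha']
      simp only [K]
      ring_nf
    have hT : |Real.tanh K| ≤ 1 / 4 := (abs_tanh_le K).trans (hJ.small i j)
    have hUV : U true - U false = V true - V false := by
      simp only [hU, hV, dd]
      simp only [Function.update_comm hij.symm _ _ x]
      ring
    have := mul_nonneg hW (pair_nonneg (tanh_abs_lt a) (tanh_abs_lt a') hT U V hUV spin ⟨by simp [spin], by simp [spin]⟩)
    refine this.trans_eq ?_
    simp only [hF, proj, mag, hfi, hfj, tanh_add', hKs, hdi, hdj, hwt, Function.update_self,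
      Function.update_of_ne hij, Fintype.sum_bool]
    ring
  show 0 ≤ ∑ x, F x
  rw [sum_half j F, sum_half i (fun x => F (Function.update x j true) + F (Function.update x j false))]
  exact div_nonneg (div_nonneg h2 two_pos.le) two_pos.le

lemma quad_form_le {T : Fin n → Fin n → ℝ} {S : ℝ} (hs : ∀ i j, T i j = T j i)
    (h0 : ∀ i j, 0 ≤ T i j) (hS : ∀ i, ∑ j, T i j ≤ S) (u : Fin n → ℝ) :
    ∑ i, ∑ j, T i j * (|u i| * |u j|) ≤ S * ∑ i, u i ^ 2 := by
  have h : ∀ i j, T i j * (|u i| * |u j|) ≤ (T i j * u i ^ 2 + T j i * u j ^ 2) / 2 := fun i j => by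
    rw [hs j i, ← sq_abs (u i), ← sq_abs (u j), ← mul_add, mul_div_assoc]
    exact mul_le_mul_of_nonneg_left (by linarith [two_mul_le_add_sq |u i| |u j|]) (h0 i j)
  refine (Finset.sum_le_sum fun i _ => Finset.sum_le_sum fun j _ => h i j).trans ?_
  simp only [← Finset.sum_div, Finset.sum_add_distrib]
  rw [Finset.sum_comm (f := fun i j => T j i * u j ^ 2)]
  have h2 : ∑ i, ∑ j, T i j * u i ^ 2 ≤ S * ∑ i, u i ^ 2 := by
    rw [Finset.mul_sum]
    exact Finset.sum_le_sum fun i _ => by
      rw [← Finset.sum_mul]; exact mul_le_mul_of_nonneg_right (hS i) (sq_nonneg _)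
  linarith

/-- Bochner inequality -/
lemma bochner {Λ R : ℝ} (hJ : Good J Λ R) (f : Cfg n → ℝ) :
    (1 - Λ - 20001 * R) * dir J b f ≤ ∑ x, wt J b x * gen J b f x ^ 2 := by
  set T := fun i j => Real.tanh (J i j)
  set p := fun i x => 1 - mag J b i x ^ 2 with hp
  set v := fun i x => p i x * dd i f x with hv
  set e := fun i x => p i x * dd i f x ^ 2 with he
  have hT0 : ∀ i, T i i = 0 := fun i => by simp [T, hJ.diag]
  have hTs : ∀ i j, T i j = T j i := fun i j => by simp only [T, hJ.symm i j]
  have key : ∀ i j, (∑ x, wt J b x * (if i = j then e i x else 0)) ≤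
      ∑ x, wt J b x * (proj J b i f x * proj J b j f x + T i j * (v i x * v j x) +
        2 * T i j ^ 2 * ((mag J b i x * v i x) * (mag J b j x * v j x)) + 10000 * |T i j| ^ 3 * (e i x + e j x)) := by
    intro i j
    by_cases hij : i = j
    · subst hij
      simp [hT0, site_sq b hJ.symm hJ.diag, e, p]
    · simp only [if_neg hij, mul_zero, Finset.sum_const_zero]
      exact pair_sum b hJ hij f
  have h1 := Finset.sum_le_sum (s := (Finset.univ : Finset (Fin n))) fun i _ =>
    Finset.sum_le_sum (s := (Finset.univ : Finset (Fin n))) fun j _ => key i j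
  have e1 : ∑ i, ∑ j, ∑ x, wt J b x * (if i = j then e i x else 0) = dir J b f := by
    refine Finset.sum_congr rfl fun i _ => ?_
    rw [Finset.sum_eq_single i (fun j _ hj => by simp [Ne.symm hj]) (by simp)]
    simp [e, p]
  have hR0 : ∀ i, ∑ j, |T i j| ^ 3 ≤ R := fun i => (Finset.sum_le_sum fun j _ =>
    pow_le_pow_left₀ (abs_nonneg _) (abs_tanh_le (J i j)) 3).trans (hJ.row3 i)
  have pt : ∀ x, ∑ i, ∑ j, (proj J b i f x * proj J b j f x + T i j * (v i x * v j x) +
        2 * T i j ^ 2 * ((mag J b i x * v i x) * (mag J b j x * v j x)) + 10000 * |T i j| ^ 3 * (e i x + e j x)) ≤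
      gen J b f x ^ 2 + (Λ + 20001 * R) * ∑ i, e i x := by
    intro x
    simp only [Finset.sum_add_distrib]
    have a0 : ∑ i, ∑ j, proj J b i f x * proj J b j f x = gen J b f x ^ 2 := by
      rw [sq, gen, Finset.sum_mul_sum]
    have a1 : ∑ i, ∑ j, T i j * (v i x * v j x) ≤ Λ * (∑ i, v i x ^ 2) + R * ∑ i, v i x ^ 2 := by
      have h2 : ∑ i, ∑ j, (T i j - J i j) * (v i x * v j x) ≤ R * ∑ i, v i x ^ 2 := by
        refine le_trans (Finset.sum_le_sum fun i _ => Finset.sum_le_sum fun j _ => ?_)
          (quad_form_le (T := fun i j => |J i j| ^ 3) (fun i j => by rw [hJ.symm i j]) (fun i j => by positivity)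
            hJ.row3 fun i => v i x)
        refine (le_abs_self _).trans ?_
        rw [abs_mul, abs_mul]
        exact mul_le_mul_of_nonneg_right (abs_tanh_sub_le _) (by positivity)
      have h3 := (le_abs_self _).trans (hJ.op fun i => v i x)
      simp only [sub_mul, Finset.sum_sub_distrib] at h2
      linarith
    have a2 : ∑ i, ∑ j, 2 * T i j ^ 2 * ((mag J b i x * v i x) * (mag J b j x * v j x)) ≤
        Λ * ∑ i, (mag J b i x * v i x) ^ 2 := by
      refine le_trans (Finset.sum_le_sum fun i _ => Finset.sum_le_sum fun j _ => ?_)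
        (quad_form_le (T := fun i j => 2 * T i j ^ 2) (fun i j => by rw [hTs i j]) (fun i j => by positivity)
          (fun i => ?_) fun i => mag J b i x * v i x)
      · exact mul_le_mul_of_nonneg_left ((le_abs_self _).trans_eq (abs_mul _ _)) (by positivity)
      · rw [← Finset.mul_sum]
        have : ∑ j, T i j ^ 2 ≤ ∑ j, J i j ^ 2 := Finset.sum_le_sum fun j _ => by
          rw [← sq_abs, ← sq_abs (J i j)]
          exact pow_le_pow_left₀ (abs_nonneg _) (abs_tanh_le _) 2
        linarith [hJ.row2 i]
    have he0 : ∀ i, 0 ≤ e i x := fun i => mul_nonneg (mag_sq J b i x).1 (sq_nonneg _)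
    have a3 : ∑ i, ∑ j, 10000 * |T i j| ^ 3 * (e i x + e j x) ≤ 20000 * R * ∑ i, e i x := by
      simp only [mul_add, Finset.sum_add_distrib]
      rw [Finset.sum_comm (f := fun i j => 10000 * |T i j| ^ 3 * e j x)]
      have h4 : ∀ i, ∑ j, 10000 * |T i j| ^ 3 * e i x ≤ 10000 * R * e i x := fun i => by
        rw [← Finset.sum_mul, ← Finset.mul_sum]
        exact mul_le_mul_of_nonneg_right (mul_le_mul_of_nonneg_left (hR0 i) (by norm_num)) (he0 i)
      have h5 : ∀ i, ∑ j, 10000 * |T j i| ^ 3 * e i x ≤ 10000 * R * e i x := fun i => by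
        simp only [hTs _ i]; exact h4 i
      have := Finset.sum_le_sum (s := (Finset.univ : Finset (Fin n))) fun i _ => h4 i
      have := Finset.sum_le_sum (s := (Finset.univ : Finset (Fin n))) fun i _ => h5 i
      simp only [← Finset.mul_sum (a := 10000 * R)] at *
      linarith
    have hΛR : ∀ i, Λ * v i x ^ 2 + R * v i x ^ 2 + Λ * (mag J b i x * v i x) ^ 2 ≤ (Λ + R) * e i x := fun i => by
      have hΛ : 0 ≤ Λ := by
        have := hJ.row2 i; have : 0 ≤ ∑ j, J i j ^ 2 := Finset.sum_nonneg fun j _ => sq_nonneg _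
        linarith
      have hR : 0 ≤ R := (Finset.sum_nonneg fun j _ => pow_nonneg (abs_nonneg _) 3).trans (hJ.row3 i)
      obtain ⟨hp0, hp1⟩ := mag_sq J b i x
      have n1 := mul_nonneg (mul_nonneg hΛ (mul_nonneg hp0 (sq_nonneg (dd i f x)))) (sq_nonneg (mag J b i x ^ 2))
      have n2 := mul_nonneg (mul_nonneg hR (mul_nonneg hp0 (sq_nonneg (dd i f x)))) (sq_nonneg (mag J b i x))
      simp only [hv, he, hp]
      linarith
    have hsum := Finset.sum_le_sum (s := (Finset.univ : Finset (Fin n))) fun i _ => hΛR i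
    simp only [Finset.sum_add_distrib, ← Finset.mul_sum] at hsum
    linarith
  have h2 : ∑ i, ∑ j, ∑ x, wt J b x * (proj J b i f x * proj J b j f x + T i j * (v i x * v j x) +
        2 * T i j ^ 2 * ((mag J b i x * v i x) * (mag J b j x * v j x)) + 10000 * |T i j| ^ 3 * (e i x + e j x)) ≤
      (∑ x, wt J b x * gen J b f x ^ 2) + (Λ + 20001 * R) * dir J b f := by
    rw [Finset.sum_congr rfl fun i _ => Finset.sum_comm, Finset.sum_comm,
      show dir J b f = ∑ x, ∑ i, wt J b x * ((1 - mag J b i x ^ 2) * dd i f x ^ 2) from Finset.sum_comm,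
      Finset.mul_sum, ← Finset.sum_add_distrib]
    refine Finset.sum_le_sum fun x _ => ?_
    simp only [← Finset.mul_sum]
    refine (mul_le_mul_of_nonneg_left (pt x) (wt_pos J b x).le).trans (le_of_eq ?_)
    simp only [e, p]; ring
  rw [e1] at h1
  linarith [h1.trans h2]

lemma mean_gen (hs : ∀ i j, J i j = J j i) (hd : ∀ i, J i i = 0) (f : Cfg n → ℝ) : avg J b (gen J b f) = 0 := by
  simp only [avg, gen, Finset.mul_sum]
  rw [Finset.sum_comm]
  refine Finset.sum_eq_zero fun i _ => ?_
  have := site_mul b hs hd i (fun _ => 1) f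
  simpa [dd] using this

lemma inner_gen (hs : ∀ i j, J i j = J j i) (hd : ∀ i, J i i = 0) (f h : Cfg n → ℝ) :
    ∑ x, wt J b x * (f x * gen J b h x) =
      ∑ i, ∑ x, wt J b x * ((1 - mag J b i x ^ 2) * (dd i f x * dd i h x)) := by
  simp only [gen, Finset.mul_sum]
  rw [Finset.sum_comm]
  exact Finset.sum_congr rfl fun i _ => site_mul b hs hd i f h

/-- spectral gap, uniform in the field `b` -/
lemma poincare {Λ R : ℝ} (hJ : Good J Λ R) (hκ : 0 < 1 - Λ - 20001 * R) (f : Cfg n → ℝ) :
    (1 - Λ - 20001 * R) * (avg J b (fun x => f x ^ 2) - avg J b f ^ 2) ≤ dir J b f := by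
  set κ := 1 - Λ - 20001 * R
  let Lm : (Cfg n → ℝ) →ₗ[ℝ] (Cfg n → ℝ) :=
    { toFun := fun h x => gen J b h x + avg J b h
      map_add' := fun h h' => by
        funext x; simp only [gen, avg, proj, dd, Pi.add_apply, mul_add, Finset.sum_add_distrib]
        rw [show ∀ A B C D : ℝ, (A + B) + (C + D) = (A + C) + (B + D) from fun A B C D => add_add_add_comm A B C D]
        simp only [← Finset.sum_add_distrib]
        congr 1
        exact Finset.sum_congr rfl fun i _ => by ring
      map_smul' := fun c h => by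
        funext x; simp only [gen, avg, proj, dd, Pi.smul_apply, smul_eq_mul, RingHom.id_apply, mul_add, Finset.mul_sum]
        congr 1 <;> exact Finset.sum_congr rfl fun i _ => by ring }
  have havg : ∀ h, avg J b (fun x => gen J b h x + avg J b h) = avg J b h := fun h => by
    have := mean_gen b hJ.symm hJ.diag h
    simp only [avg] at this ⊢
    simp only [mul_add, Finset.sum_add_distrib, this, ← Finset.sum_mul, wt_sum, one_mul, zero_add]
  have hinj : Function.Injective Lm := by
    rw [← LinearMap.ker_eq_bot, LinearMap.ker_eq_bot']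
    intro h hh
    have h0 : avg J b h = 0 := by
      have e : (fun x => gen J b h x + avg J b h) = 0 := hh
      have := havg h; rw [e] at this; simpa [avg] using this.symm
    have hg : ∀ x, gen J b h x = 0 := fun x => by
      have := congrFun hh x
      simp only [Lm, LinearMap.coe_mk, AddHom.coe_mk, h0, add_zero, Pi.zero_apply] at this
      exact this
    have hz := inner_gen b hJ.symm hJ.diag h h
    simp only [hg, mul_zero, Finset.sum_const_zero] at hz
    have hflip : ∀ i x, dd i h x = 0 := fun i x => by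
      have h1 : ∀ i x, 0 ≤ wt J b x * ((1 - mag J b i x ^ 2) * (dd i h x * dd i h x)) := fun i x =>
        mul_nonneg (wt_pos J b x).le (mul_nonneg (mag_sq J b i x).1 (mul_self_nonneg _))
      have h2 := (Finset.sum_eq_zero_iff_of_nonneg fun i _ => Finset.sum_nonneg fun x _ => h1 i x).1 hz.symm i (Finset.mem_univ i)
      have h3 := (Finset.sum_eq_zero_iff_of_nonneg fun x _ => h1 i x).1 h2 x (Finset.mem_univ x)
      have hp : 0 < 1 - mag J b i x ^ 2 := by
        have := (sq_lt_one_iff_abs_lt_one _).2 (tanh_abs_lt (fld J b i x))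
        simp only [mag]; linarith
      simpa [(wt_pos J b x).ne', hp.ne'] using h3
    have hone : ∀ i x c, h (Function.update x i c) = h x := fun i x c => by
      have := hflip i x
      simp only [dd, div_eq_zero_iff, sub_eq_zero, OfNat.ofNat_ne_zero, or_false] at this
      cases hx : x i <;> cases c
      · rw [← hx, Function.update_eq_self]
      · rw [this, ← hx, Function.update_eq_self]
      · rw [← this, ← hx, Function.update_eq_self]
      · rw [← hx, Function.update_eq_self]
    have hS : ∀ (y : Cfg n) (S : Finset (Fin n)) (x : Cfg n), (∀ i ∉ S, x i = y i) → h x = h y := by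
      intro y S
      induction S using Finset.induction_on with
      | empty => intro x hx; rw [show x = y from funext fun i => hx i (Finset.notMem_empty i)]
      | insert a S ha ih =>
        intro x hx
        rw [← hone a x (y a)]
        refine ih _ fun i hi => ?_
        by_cases hia : i = a
        · subst hia; simp
        · rw [Function.update_of_ne hia]
          exact hx i (by simp [hia, hi])
    funext y
    have hc : ∀ x, h x = h y := fun x => hS y Finset.univ x fun i hi => absurd (Finset.mem_univ i) hi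
    simp only [avg, hc, ← Finset.sum_mul, wt_sum, one_mul] at h0
    exact h0
  obtain ⟨h, hh⟩ := (LinearMap.injective_iff_surjective.1 hinj) (fun x => f x - avg J b f)
  set φ := fun x => f x - avg J b f with hφ
  have hm : avg J b φ = 0 := by
    simp only [hφ, avg, mul_sub, Finset.sum_sub_distrib, ← Finset.sum_mul, wt_sum, one_mul, sub_self]
  have hh0 : avg J b h = 0 := by
    have e : (fun x => gen J b h x + avg J b h) = φ := hh
    have := havg h; rw [e, hm] at this; exact this.symm
  have hgen : ∀ x, gen J b h x = φ x := fun x => by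
    have := congrFun hh x
    simpa [Lm, hh0] using this
  set V := ∑ x, wt J b x * φ x ^ 2
  have hV : avg J b (fun x => f x ^ 2) - avg J b f ^ 2 = V := by
    simp only [V, hφ, sub_sq, avg, mul_add, mul_sub, Finset.sum_add_distrib, Finset.sum_sub_distrib, ← Finset.sum_mul, wt_sum, one_mul]
    simp only [← mul_assoc, mul_comm (wt J b _) 2, ← Finset.sum_mul]
    simp only [mul_assoc, ← Finset.mul_sum]
    ring
  have hdd : ∀ i x, dd i φ x = dd i f x := fun i x => by simp [dd, hφ]
  have hb := bochner b hJ h
  simp only [hgen] at hb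
  have hc : V = ∑ i, ∑ x, wt J b x * ((1 - mag J b i x ^ 2) * (dd i f x * dd i h x)) := by
    have := inner_gen b hJ.symm hJ.diag φ h
    simp only [hgen, hdd] at this
    simpa [V, sq] using this
  have hcs : V ≤ (1 / (2 * κ)) * dir J b f + κ / 2 * dir J b h := by
    rw [hc, dir, dir, Finset.mul_sum, Finset.mul_sum, ← Finset.sum_add_distrib]
    refine Finset.sum_le_sum fun i _ => ?_
    rw [Finset.mul_sum, Finset.mul_sum, ← Finset.sum_add_distrib]
    refine Finset.sum_le_sum fun x _ => ?_
    have h1 := mul_nonneg (mul_nonneg (wt_pos J b x).le (mag_sq J b i x).1)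
      (mul_nonneg (by positivity : (0:ℝ) ≤ 1 / (2 * κ)) (sq_nonneg (dd i f x - κ * dd i h x)))
    have e : 1 / (2 * κ) * (dd i f x - κ * dd i h x) ^ 2 =
        1 / (2 * κ) * dd i f x ^ 2 + κ / 2 * dd i h x ^ 2 - dd i f x * dd i h x := by field_simp; ring
    rw [e] at h1; linarith
  rw [hV]
  have h4 : V / 2 ≤ 1 / (2 * κ) * dir J b f := by
    change κ * dir J b h ≤ V at hb
    linarith
  have h5 := mul_le_mul_of_nonneg_left h4 hκ.le
  have e : κ * (1 / (2 * κ) * dir J b f) = dir J b f / 2 := by field_simp
  rw [e] at h5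
  linarith

lemma Good.scale {Λ R : ℝ} (hJ : Good J Λ R) {s : ℝ} (h0 : 0 ≤ s) (h1 : s ≤ 1) :
    Good (fun i j => s * J i j) Λ R where
  symm i j := by rw [hJ.symm i j]
  diag i := by rw [hJ.diag i, mul_zero]
  op v := by
    simp only [mul_assoc, ← Finset.mul_sum, abs_mul, abs_of_nonneg h0]
    exact (mul_le_of_le_one_left (abs_nonneg _) h1).trans (hJ.op v)
  row2 i := by
    refine le_trans (Finset.sum_le_sum fun j _ => ?_) (hJ.row2 i)
    rw [mul_pow]; exact mul_le_of_le_one_left (sq_nonneg _) (pow_le_one₀ h0 h1)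
  small i j := by
    rw [abs_mul, abs_of_nonneg h0]; exact (mul_le_of_le_one_left (abs_nonneg _) h1).trans (hJ.small i j)
  row3 i := by
    refine le_trans (Finset.sum_le_sum fun j _ => ?_) (hJ.row3 i)
    rw [abs_mul, mul_pow, abs_of_nonneg h0]
    exact mul_le_of_le_one_left (pow_nonneg (abs_nonneg _) 3) (pow_le_one₀ h0 h1)

/-- linear functions are sub-Gaussian, uniformly in the field -/
lemma subgaussian {Λ R : ℝ} (hJ : Good J Λ R) (hκ : 0 < 1 - Λ - 20001 * R) (θ : Fin n → ℝ) :
    ∑ x, wt J b x * Real.exp ((∑ i, θ i * spin (x i)) - ∑ y, wt J b y * ∑ i, θ i * spin (y i)) ≤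
      Real.exp ((∑ i, θ i ^ 2) / (1 - Λ - 20001 * R) / 2) := by
  set C := (∑ i, θ i ^ 2) / (1 - Λ - 20001 * R) with hC
  set y := fun x : Cfg n => ∑ i, θ i * spin (x i) with hy
  have hq : ∀ t x, qE J (fun i => b i + t * θ i) x = qE J b x + t * y x := fun t x => by
    simp only [qE, hy, add_mul, Finset.sum_add_distrib, Finset.mul_sum, mul_assoc]; ring
  set Z := fun t => ∑ x, Real.exp (qE J b x + t * y x)
  set M := fun t => (∑ x, y x * Real.exp (qE J b x + t * y x)) / Z t with hM
  have hZ : ∀ t, 0 < Z t := fun t => Finset.sum_pos (fun _ _ => Real.exp_pos _) Finset.univ_nonempty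
  have hex : ∀ t x, HasDerivAt (fun u => Real.exp (qE J b x + u * y x)) (Real.exp (qE J b x + t * y x) * y x) t :=
    fun t x => by simpa using (((hasDerivAt_id t).mul_const (y x)).const_add (qE J b x)).exp
  have dZ : ∀ t, HasDerivAt Z (∑ x, Real.exp (qE J b x + t * y x) * y x) t := fun t =>
    HasDerivAt.fun_sum fun x _ => hex t x
  have dM : ∀ t, HasDerivAt M ((∑ x, y x * (Real.exp (qE J b x + t * y x) * y x)) / Z t - M t ^ 2) t := fun t => by
    refine (((HasDerivAt.fun_sum fun x _ => (hex t x).const_mul (y x))).div (dZ t) (hZ t).ne').congr_deriv ?_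
    have := (hZ t).ne'
    have ec : ∀ x, Real.exp (qE J b x + t * y x) * y x = y x * Real.exp (qE J b x + t * y x) := fun x => mul_comm _ _
    simp only [hM, ec]
    generalize ∑ x, y x * (y x * Real.exp (qE J b x + t * y x)) = A
    generalize ∑ x, y x * Real.exp (qE J b x + t * y x) = B
    field_simp
  have hvar : ∀ t, (∑ x, y x * (Real.exp (qE J b x + t * y x) * y x)) / Z t - M t ^ 2 ≤ C := fun t => by
    have hp := poincare (fun i => b i + t * θ i) hJ hκ y
    have hdd : ∀ i x, dd i y x = θ i := fun i x => by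
      simp only [dd, hy, ← Finset.sum_sub_distrib, spin_update]
      rw [Finset.sum_eq_single i (fun j _ hj => by simp [hj]) (by simp)]
      simp [spin]
    have hdir : dir J (fun i => b i + t * θ i) y ≤ ∑ i, θ i ^ 2 := by
      refine Finset.sum_le_sum fun i _ => ?_
      refine (Finset.sum_le_sum fun x _ => ?_).trans (le_of_eq (b := θ i ^ 2) (a := ∑ x, wt J (fun i => b i + t * θ i) x * θ i ^ 2) (by rw [← Finset.sum_mul, wt_sum, one_mul]))
      rw [hdd]
      exact mul_le_mul_of_nonneg_left (mul_le_of_le_one_left (sq_nonneg _) (mag_sq _ _ i x).2) (wt_pos _ _ x).le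
    rw [hC, le_div_iff₀ hκ, mul_comm]
    refine le_trans (le_of_eq ?_) (hp.trans hdir)
    have hw : ∀ x, wt J (fun i => b i + t * θ i) x = Real.exp (qE J b x + t * y x) / Z t := fun x => by
      simp only [wt, hq, Z]
    simp only [avg, hw, hM, Finset.sum_div]
    congr 2
    · exact Finset.sum_congr rfl fun x _ => by ring
    congr 1
    exact Finset.sum_congr rfl fun x _ => by ring
  have hanti : Antitone fun t => M t - C * t :=
    antitone_of_hasDerivAt_nonpos (fun t => (dM t).sub (by simpa using (hasDerivAt_id t).const_mul C))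
      fun t => sub_nonpos.2 (hvar t)
  have hd2 : ∀ t, HasDerivAt (fun u => Real.log (Z u) - M 0 * u - C * u ^ 2 / 2) (M t - M 0 - C * t) t := fun t => by
    refine ((((dZ t).log (hZ t).ne').sub ((hasDerivAt_id t).const_mul (M 0))).sub
      (((hasDerivAt_pow 2 t).const_mul C).div_const 2)).congr_deriv ?_
    have ec : ∀ x, Real.exp (qE J b x + t * y x) * y x = y x * Real.exp (qE J b x + t * y x) := fun x => mul_comm _ _
    simp [hM, ec]; ring
  have hanti2 : AntitoneOn (fun u => Real.log (Z u) - M 0 * u - C * u ^ 2 / 2) (Set.Ici 0) := by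
    refine antitoneOn_of_hasDerivWithinAt_nonpos (convex_Ici 0)
      (fun t _ => (hd2 t).continuousAt.continuousWithinAt) (fun t _ => (hd2 t).hasDerivWithinAt) fun t ht => ?_
    rw [interior_Ici] at ht
    have := hanti (le_of_lt (Set.mem_Ioi.1 ht))
    simp only [mul_zero, sub_zero] at this
    linarith
  have hfin := hanti2 Set.self_mem_Ici (Set.mem_Ici.2 zero_le_one) zero_le_one
  simp only [mul_one, one_pow, mul_zero, sub_zero, ne_eq, OfNat.ofNat_ne_zero, not_false_eq_true, zero_pow, zero_div] at hfin
  have hZe : ∀ t, Z t = ∑ x, Real.exp (qE J b x + t * y x) := fun _ => rfl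
  have hm0 : ∑ x, wt J b x * y x = M 0 := by
    simp only [hM, hZe, wt, zero_mul, add_zero, Finset.sum_div]
    exact Finset.sum_congr rfl fun x _ => by ring
  show ∑ x, wt J b x * Real.exp (y x - ∑ z, wt J b z * y z) ≤ Real.exp (C / 2)
  rw [hm0]
  have e : ∑ x, wt J b x * Real.exp (y x - M 0) = Z 1 / Z 0 * Real.exp (-M 0) := by
    simp only [hZe, wt, zero_mul, add_zero, one_mul, Finset.sum_div, Finset.sum_mul]
    refine Finset.sum_congr rfl fun x _ => ?_
    rw [sub_eq_add_neg, Real.exp_add, Real.exp_add]; ring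
  rw [e, ← Real.exp_log (div_pos (hZ 1) (hZ 0)), Real.log_div (hZ 1).ne' (hZ 0).ne', ← Real.exp_add]
  exact Real.exp_le_exp.2 (by linarith)

end Vale.Agent.P150.Ising
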