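import Vale.Agent.P150.RSBound
import Vale.Agent.P150.Ising

/-! Below the annealed free energy for every `β > 1`. -/

open MeasureTheory ProbabilityTheory

namespace Vale.Agent.P150

lemma integrable_exp_abs_gauss (M : ℝ) :
    Integrable (fun t : ℝ => Real.exp (M * |t|)) (gaussianReal 0 1) := by
  refine ((integrable_exp_mul_gaussianReal M).add (integrable_exp_mul_gaussianReal (-M))).mono'
    (by fun_prop) (Filter.Eventually.of_forall fun t => ?_)
  rw [Real.norm_eq_abs, Real.abs_exp]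
  rcases abs_choice t with h | h <;> rw [h] <;> simp only [Pi.add_apply, mul_neg, neg_mul] <;>
    linarith [Real.exp_pos (M * t), Real.exp_pos (-(M * t))]

lemma integrable_of_abs_bound {F : ℝ → ℝ} (hF : Continuous F) {C M : ℝ}
    (hb : ∀ t, |F t| ≤ C * Real.exp (M * |t|)) : Integrable F (gaussianReal 0 1) :=
  ((integrable_exp_abs_gauss M).const_mul C).mono' hF.aestronglyMeasurable (Filter.Eventually.of_forall hb)

lemma abs_pow_le_exp (k : ℕ) (t : ℝ) : |t ^ k| ≤ k.factorial * Real.exp |t| := by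
  have h := Real.pow_div_factorial_le_exp |t| (abs_nonneg t) k
  rw [div_le_iff₀ (by positivity), mul_comm] at h
  rwa [abs_pow]

lemma integrable_pow (k : ℕ) : Integrable (fun t : ℝ => t ^ k) (gaussianReal 0 1) :=
  integrable_of_abs_bound (C := k.factorial) (M := 1) (by fun_prop) fun t => by
    rw [one_mul]; exact abs_pow_le_exp k t

lemma moment_step (k : ℕ) :
    ∫ t, t ^ (k + 2) ∂gaussianReal 0 1 = (k + 1) * ∫ t, t ^ k ∂gaussianReal 0 1 := by
  have hb : ∀ t : ℝ, |t ^ (k + 1)| ≤ ((k + 1).factorial : ℝ) * Real.exp (1 * |t|) := fun t => by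
    rw [one_mul]; exact abs_pow_le_exp _ t
  have hb' : ∀ t : ℝ, |((k:ℝ) + 1) * t ^ k| ≤ ((k + 1).factorial : ℝ) * Real.exp (1 * |t|) := fun t => by
    rw [one_mul, abs_mul, abs_of_nonneg (by positivity : (0:ℝ) ≤ (k:ℝ) + 1), Nat.factorial_succ]
    push_cast
    rw [mul_assoc]
    exact mul_le_mul_of_nonneg_left (abs_pow_le_exp k t) (by positivity)
  have h := stein_one (f := fun t : ℝ => t ^ (k + 1)) (f' := fun t : ℝ => ((k:ℝ) + 1) * t ^ k) (C := (k + 1).factorial) (M := 1)
    (fun t => by simpa using hasDerivAt_pow (k + 1) t) (by fun_prop) hb hb'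
  rw [integral_const_mul] at h
  rw [← h]
  exact integral_congr_ae (Filter.Eventually.of_forall fun t => by show t ^ (k + 2) = t * t ^ (k + 1); ring)

lemma moment_even : ∫ t, t ^ 2 ∂gaussianReal 0 1 = 1 ∧ ∫ t, t ^ 4 ∂gaussianReal 0 1 = 3 ∧
    ∫ t, t ^ 6 ∂gaussianReal 0 1 = 15 := by
  have h2 := moment_step 0
  have h4 := moment_step 2
  have h6 := moment_step 4
  simp only [pow_zero, integral_const, probReal_univ, one_smul, zero_add, Nat.cast_zero, mul_one] at h2
  norm_num at h4 h6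
  rw [h2] at h4
  rw [h4] at h6
  exact ⟨h2, by rw [h4]; norm_num, by rw [h6]; norm_num⟩

lemma log_cosh_le (x : ℝ) : Real.log (Real.cosh x) ≤ x ^ 2 / 2 - x ^ 4 / 12 + x ^ 6 / 45 := by
  wlog hx : 0 ≤ x generalizing x
  · have h := this (-x) (by linarith)
    rwa [Real.cosh_neg, neg_sq, Even.neg_pow (by decide : Even 4), Even.neg_pow (by decide : Even 6)] at h
  have low : ∀ y : ℝ, 0 ≤ y → y - y ^ 3 / 3 ≤ Real.tanh y := by
    intro y hy
    have hd : ∀ z, HasDerivAt (fun z => Real.tanh z - (z - z ^ 3 / 3)) (1 - Real.tanh z ^ 2 - (1 - z ^ 2)) z := fun z => by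
      refine ((Ising.hasDerivAt_tanh' z).sub ((hasDerivAt_id z).sub ((hasDerivAt_pow 3 z).div_const 3))).congr_deriv ?_
      simp
    have hm : Monotone fun z => Real.tanh z - (z - z ^ 3 / 3) := monotone_of_hasDerivAt_nonneg hd fun z => by
      have h := pow_le_pow_left₀ (abs_nonneg _) (Ising.abs_tanh_le z) 2
      rw [sq_abs, sq_abs] at h
      show (0:ℝ) ≤ _
      linarith
    have := hm hy
    simp only [Real.tanh_zero] at this
    linarith
  have up : ∀ y : ℝ, 0 ≤ y → Real.tanh y ≤ y - y ^ 3 / 3 + 2 * y ^ 5 / 15 := by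
    intro y hy
    have hd : ∀ z, HasDerivAt (fun z => z - z ^ 3 / 3 + 2 * z ^ 5 / 15 - Real.tanh z)
        (1 - z ^ 2 + 2 * z ^ 4 / 3 - (1 - Real.tanh z ^ 2)) z := fun z => by
      refine ((((hasDerivAt_id z).sub ((hasDerivAt_pow 3 z).div_const 3)).add
        (((hasDerivAt_pow 5 z).const_mul 2).div_const 15)).sub (Ising.hasDerivAt_tanh' z)).congr_deriv ?_
      simp; ring
    have hm : MonotoneOn (fun z => z - z ^ 3 / 3 + 2 * z ^ 5 / 15 - Real.tanh z) (Set.Ici 0) := by
      refine monotoneOn_of_hasDerivWithinAt_nonneg (convex_Ici 0)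
        (fun z _ => (hd z).continuousAt.continuousWithinAt) (fun z _ => (hd z).hasDerivWithinAt) fun z hz => ?_
      rw [interior_Ici] at hz
      have hz0 : 0 ≤ z := le_of_lt hz
      rcases le_total (z ^ 2) 3 with h | h
      · have h1 : 0 ≤ z - z ^ 3 / 3 := by
          have := mul_nonneg hz0 (by linarith : (0:ℝ) ≤ 1 - z ^ 2 / 3)
          linarith
        have := pow_le_pow_left₀ h1 (low z hz0) 2
        linarith [sq_nonneg (z ^ 3), show (z - z ^ 3 / 3) ^ 2 = z ^ 2 - 2 * z ^ 4 / 3 + (z ^ 3) ^ 2 / 9 by ring]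
      · have := mul_nonneg (sq_nonneg z) (by linarith : (0:ℝ) ≤ 2 * z ^ 2 / 3 - 1)
        linarith [sq_nonneg (Real.tanh z)]
    have := hm Set.self_mem_Ici (Set.mem_Ici.2 hy) hy
    simp only [Real.tanh_zero] at this
    linarith
  have hd : ∀ z, HasDerivAt (fun z => z ^ 2 / 2 - z ^ 4 / 12 + z ^ 6 / 45 - Real.log (Real.cosh z))
      (z - z ^ 3 / 3 + 2 * z ^ 5 / 15 - Real.tanh z) z := fun z => by
    refine (((((hasDerivAt_pow 2 z).div_const 2).sub ((hasDerivAt_pow 4 z).div_const 12)).add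
      ((hasDerivAt_pow 6 z).div_const 45)).sub ((Real.hasDerivAt_cosh z).log (Real.cosh_pos z).ne')).congr_deriv ?_
    rw [Real.tanh_eq_sinh_div_cosh]; simp; ring
  have hm : MonotoneOn (fun z => z ^ 2 / 2 - z ^ 4 / 12 + z ^ 6 / 45 - Real.log (Real.cosh z)) (Set.Ici 0) := by
    refine monotoneOn_of_hasDerivWithinAt_nonneg (convex_Ici 0)
      (fun z _ => (hd z).continuousAt.continuousWithinAt) (fun z _ => (hd z).hasDerivWithinAt) fun z hz => ?_
    rw [interior_Ici] at hz
    linarith [up z (le_of_lt hz)]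
  have := hm Set.self_mem_Ici (Set.mem_Ici.2 hx) hx
  simp only [Real.cosh_zero, Real.log_one] at this
  linarith

lemma log_cosh_bounds (x : ℝ) : 0 ≤ Real.log (Real.cosh x) ∧ Real.log (Real.cosh x) ≤ |x| := by
  refine ⟨Real.log_nonneg (Real.one_le_cosh x), (Real.log_le_iff_le_exp (Real.cosh_pos x)).2 ?_⟩
  rw [Real.cosh_eq]
  have h1 := Real.exp_le_exp.2 (le_abs_self x)
  have h2 := Real.exp_le_exp.2 (neg_le_abs x)
  linarith

lemma exp_le_quad {u : ℝ} (hu : 0 ≤ u) : Real.exp u ≤ 1 + u + u ^ 2 * Real.exp u := by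
  have h : ∀ v : ℝ, Real.exp v - 1 ≤ v * Real.exp v := fun v => by
    have h1 := mul_le_mul_of_nonneg_left (Real.add_one_le_exp (-v)) (Real.exp_pos v).le
    rw [← Real.exp_add, add_neg_cancel, Real.exp_zero] at h1
    linarith
  have := mul_le_mul_of_nonneg_left (h u) hu
  linarith [h u]

/-- the free energy is strictly below the annealed value, uniformly in `n` -/
theorem rs_strict (β : ℝ) (hβ : 1 < β) : ∃ η : ℝ, 0 < η ∧ ∀ n : ℕ, 0 < n →
    ∫ g, Real.log (Zfun (n := n) β g) ∂disorder n ≤ n * (Real.log 2 + β ^ 2 / 4 - η) := by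
  have hβ0 : 0 < β := by linarith
  have hb2 : 1 < β ^ 2 := one_lt_pow₀ hβ two_ne_zero
  set q := (β ^ 2 - 1) / (4 * β ^ 4) with hq
  have hq0 : 0 < q := div_pos (by linarith) (by positivity)
  set gain := q ^ 2 * (β ^ 4 / 4 - β ^ 2 / 4 - β ^ 6 * q / 3) with hgain
  have hgain0 : 0 < gain := by
    have e : β ^ 6 * q = β ^ 2 * (β ^ 2 - 1) / 4 := by rw [hq]; field_simp
    refine mul_pos (pow_pos hq0 2) ?_
    rw [e]
    have := mul_pos (pow_pos hβ0 2) (sub_pos.2 hb2)
    linarith
  set s := β * Real.sqrt q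
  have hs2 : s ^ 2 = β ^ 2 * q := by simp only [s, mul_pow, Real.sq_sqrt hq0.le]
  set L := fun t : ℝ => Real.log (Real.cosh (s * t))
  have hLc : Continuous L := (Real.continuous_cosh.comp (by fun_prop)).log fun t => (Real.cosh_pos _).ne'
  have hLb : ∀ t, 0 ≤ L t ∧ L t ≤ s * |t| := fun t => by
    refine ⟨(log_cosh_bounds _).1, (log_cosh_bounds _).2.trans (le_of_eq ?_)⟩
    rw [abs_mul, abs_of_nonneg (mul_nonneg hβ0.le (Real.sqrt_nonneg q))]
  have iL : Integrable L (gaussianReal 0 1) := integrable_of_abs_bound (C := 1) (M := s) hLc fun t => by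
    rw [one_mul, abs_of_nonneg (hLb t).1]
    exact (hLb t).2.trans ((le_add_of_nonneg_right zero_le_one).trans (Real.add_one_le_exp _))
  set Q := fun t => L t ^ 2 * Real.exp (L t)
  have iQ : Integrable Q (gaussianReal 0 1) := integrable_of_abs_bound (C := 2) (M := 2 * s) (by fun_prop) fun t => by
    obtain ⟨h1, h2⟩ := hLb t
    simp only [Q]
    rw [abs_mul, Real.abs_exp, show (2 * s) * |t| = s * |t| + s * |t| by ring, Real.exp_add, ← mul_assoc]
    refine mul_le_mul ?_ (Real.exp_le_exp.2 h2) (Real.exp_pos _).le (by positivity)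
    rw [abs_pow, abs_of_nonneg h1]
    refine (pow_le_pow_left₀ h1 h2 2).trans ?_
    have := Real.quadratic_le_exp_of_nonneg (h1.trans h2)
    linarith [h1.trans h2]
  set EL := ∫ t, L t ∂gaussianReal 0 1
  set K := ∫ t, Q t ∂gaussianReal 0 1
  have hEL : EL ≤ β ^ 2 * q / 2 - (β ^ 2 * q) ^ 2 / 4 + (β ^ 2 * q) ^ 3 / 3 := by
    obtain ⟨m2, m4, m6⟩ := moment_even
    have i2 := (integrable_pow 2).const_mul (s ^ 2 / 2)
    have i4 := (integrable_pow 4).const_mul (s ^ 4 / 12)
    have i6 := (integrable_pow 6).const_mul (s ^ 6 / 45)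
    have i24 : Integrable (fun t : ℝ => s ^ 2 / 2 * t ^ 2 - s ^ 4 / 12 * t ^ 4) (gaussianReal 0 1) := i2.sub i4
    refine (integral_mono iL (i24.add i6) fun t => (log_cosh_le (s * t)).trans (le_of_eq ?_)).trans (le_of_eq ?_)
    · simp only [Pi.add_apply]; ring
    · show ∫ t, (s ^ 2 / 2 * t ^ 2 - s ^ 4 / 12 * t ^ 4 + s ^ 6 / 45 * t ^ 6) ∂gaussianReal 0 1 = _
      rw [integral_add i24 i6, integral_sub i2 i4, integral_const_mul, integral_const_mul, integral_const_mul, m2, m4, m6,
        show s ^ 4 = (s ^ 2) ^ 2 by ring, show s ^ 6 = (s ^ 2) ^ 3 by ring, hs2]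
      ring
  have hK : 0 ≤ K := integral_nonneg fun t => by positivity
  set r := min 1 (gain / (2 * (K + 1))) with hrdef
  have hr : 0 < r := lt_min one_pos (by positivity)
  have hr1 : r ≤ 1 := min_le_left _ _
  have hrK : r * K ≤ gain / 2 := by
    calc r * K ≤ gain / (2 * (K + 1)) * (K + 1) := mul_le_mul (min_le_right _ _) (by linarith) hK (by positivity)
      _ = gain / 2 := by field_simp
  refine ⟨gain / 2, by linarith, fun n hn => ?_⟩
  set m := (2:ℝ) ^ r * (1 + r * EL + r ^ 2 * K) with hm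
  have hEL0 : 0 ≤ EL := integral_nonneg fun t => (hLb t).1
  have hm0 : 0 < m := by positivity
  have hpt : ∀ t, (2 * Real.cosh (s * t)) ^ r ≤ (2:ℝ) ^ r * (1 + r * L t + r ^ 2 * Q t) := fun t => by
    rw [Real.mul_rpow two_pos.le (Real.cosh_pos _).le, Real.rpow_def_of_pos (Real.cosh_pos (s * t))]
    refine mul_le_mul_of_nonneg_left ?_ (by positivity)
    obtain ⟨h1, -⟩ := hLb t
    show Real.exp (L t * r) ≤ _
    refine (exp_le_quad (mul_nonneg h1 hr.le)).trans ?_
    have h2 : Real.exp (L t * r) ≤ Real.exp (L t) := Real.exp_le_exp.2 (mul_le_of_le_one_right h1 hr1)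
    have := mul_le_mul_of_nonneg_left h2 (sq_nonneg (L t * r))
    simp only [Q]
    linarith
  have ib : Integrable (fun t => (2:ℝ) ^ r * (1 + r * L t + r ^ 2 * Q t)) (gaussianReal 0 1) :=
    (((integrable_const 1).add (iL.const_mul r)).add (iQ.const_mul (r ^ 2))).const_mul _
  have hint : Integrable (fun t : ℝ => (2 * Real.cosh (β * Real.sqrt q * t)) ^ r) (gaussianReal 0 1) :=
    ib.mono' (Continuous.aestronglyMeasurable ((by fun_prop : Continuous fun t : ℝ => 2 * Real.cosh (β * Real.sqrt q * t)).rpow_const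
      fun t => Or.inl (by positivity))) (Filter.Eventually.of_forall fun t => by
        rw [Real.norm_eq_abs, abs_of_nonneg (by positivity)]; exact hpt t)
  have hM : ∫ t, (2 * Real.cosh (β * Real.sqrt q * t)) ^ r ∂gaussianReal 0 1 ≤ m := by
    refine (integral_mono hint ib hpt).trans (le_of_eq ?_)
    have i1 : Integrable (fun t => 1 + r * L t) (gaussianReal 0 1) := (integrable_const 1).add (iL.const_mul r)
    rw [integral_const_mul, integral_add i1 (iQ.const_mul (r ^ 2)),
      integral_add (integrable_const 1) (iL.const_mul r), integral_const_mul, integral_const_mul]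
    simp [m, EL, K]
  refine (rs_bound hn hβ0.le hq0.le hr hr1 hm0 hint hM).trans (mul_le_mul_of_nonneg_left ?_ (Nat.cast_nonneg n))
  have hlm : Real.log m / r ≤ Real.log 2 + EL + r * K := by
    rw [div_le_iff₀ hr, hm, Real.log_mul (by positivity) (by positivity), Real.log_rpow two_pos]
    have := Real.log_le_sub_one_of_pos (show 0 < 1 + r * EL + r ^ 2 * K by positivity)
    linarith
  simp only [hgain] at hrK ⊢
  linarith

end Vale.Agent.P150
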