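import Vale.Agent.P150.Concentration

/-! Superadditivity and the limit of the free energy. -/

open MeasureTheory ProbabilityTheory Filter
open scoped Topology

namespace Vale.Agent.P150

/-- mean free energy -/
noncomputable def freeE (n : ℕ) (β : ℝ) : ℝ := ∫ g, Real.log (Zfun (n := n) β g) ∂disorder n

lemma freeE_zero (β : ℝ) : freeE 0 β = 0 := by
  simp [freeE, Zfun, energy]

lemma freeE_le_annealed (n : ℕ) {β : ℝ} (hβ : 0 ≤ β) : freeE n β ≤ n * (Real.log 2 + β ^ 2 / 4) := by
  rcases Nat.eq_zero_or_pos n with rfl | hn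
  · rw [freeE_zero]; simp
  have hn' : (0:ℝ) < n := by exact_mod_cast hn
  have hpos : ∀ g : Edge n → ℝ, 0 < Zfun β g := fun g => partition_pos β g
  have it : ∀ x : Cfg n, Integrable (fun g => Real.exp (β * energy g x)) (disorder n) := fun x => (mgf_energy hn β x).2
  refine (jensen_log hpos (mul_pos (pow_pos two_pos n) (Real.exp_pos (β ^ 2 * (n - 1) / 4)))
    (integrable_finsetSum _ fun x _ => it x) (le_of_eq ?_) (integrable_logZfun hn hβ)).trans ?_
  · simp only [Zfun]
    rw [integral_finsetSum _ fun x _ => it x]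
    simp [(mgf_energy hn β _).1]
  · rw [Real.log_mul (pow_ne_zero _ two_ne_zero) (Real.exp_pos _).ne', Real.log_exp, Real.log_pow]
    linarith [sq_nonneg β]

lemma mp_integral {Ω Ω' : Type*} [MeasurableSpace Ω] [MeasurableSpace Ω'] [TopologicalSpace Ω'] [OpensMeasurableSpace Ω']
    {μ : Measure Ω} {ν : Measure Ω'} {φ : Ω → Ω'} (h : MeasurePreserving φ μ ν) {f : Ω' → ℝ} (hf : Continuous f) :
    ∫ z, f (φ z) ∂μ = ∫ y, f y ∂ν := by
  rw [← h.map_eq]
  exact (integral_map h.measurable.aemeasurable hf.aestronglyMeasurable).symm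

theorem freeE_superadditive {n m : ℕ} (hn : 0 < n) (hm : 0 < m) {β : ℝ} (hβ : 0 ≤ β) :
    freeE n β + freeE m β ≤ freeE (n + m) β := by
  classical
  have hn' : (0:ℝ) < n := by exact_mod_cast hn
  have hm' : (0:ℝ) < m := by exact_mod_cast hm
  have hnm : 0 < n + m := by omega
  set k := β * Real.sqrt (1 / 2) with hk0
  have hk : k * k = β ^ 2 / 2 := by
    rw [hk0]; linear_combination (β ^ 2) * Real.mul_self_sqrt (show (0:ℝ) ≤ 1 / 2 by norm_num)
  set a := fun p : Cfg n × Cfg m => Sum.elim (Sum.elim (fun e => β * coef p.1 e) fun e => β * coef p.2 e) fun _ : Unit => k with ha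
  set c := fun (p : Cfg n × Cfg m) (e : Edge (n + m)) => β * coef (Fin.append p.1 p.2 : Cfg (n + m)) e with hc
  have hcoef : ∀ {l : ℕ}, 0 < l → ∀ x y : Cfg l, ∑ e, β * coef x e * (β * coef y e) =
      β ^ 2 * (((∑ i, spin (x i) * spin (y i)) ^ 2 / l - 1) / 2) := fun {l} hl x y => by
    have hl' : (0:ℝ) < l := by exact_mod_cast hl
    have h := sum_coef_mul hl x y
    rw [qsq, show (l:ℝ) * ((∑ i, spin (x i) * spin (y i)) / l) ^ 2 = (∑ i, spin (x i) * spin (y i)) ^ 2 / l by field_simp] at h
    rw [← h, mul_div_cancel_left₀ _ two_ne_zero, Finset.mul_sum]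
    exact Finset.sum_congr rfl fun e _ => by ring
  have happ : ∀ p q : Cfg n × Cfg m, ∑ i, spin ((Fin.append p.1 p.2 : Cfg (n + m)) i) * spin ((Fin.append q.1 q.2 : Cfg (n + m)) i) =
      (∑ i, spin (p.1 i) * spin (q.1 i)) + ∑ i, spin (p.2 i) * spin (q.2 i) := fun p q => by
    rw [Fin.sum_univ_add]; simp [Fin.append_left, Fin.append_right]
  have hA : ∀ p q, ∑ d, a p d * a q d = β ^ 2 * (((∑ i, spin (p.1 i) * spin (q.1 i)) ^ 2 / n +
      (∑ i, spin (p.2 i) * spin (q.2 i)) ^ 2 / m - 1) / 2) := fun p q => by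
    simp only [ha, Fintype.sum_sum_type, Sum.elim_inl, Sum.elim_inr, hcoef hn, hcoef hm, Finset.univ_unique, Finset.sum_singleton, hk]
    ring
  have hC : ∀ p q, ∑ d, c p d * c q d = β ^ 2 * ((((∑ i, spin (p.1 i) * spin (q.1 i)) +
      ∑ i, spin (p.2 i) * spin (q.2 i)) ^ 2 / (n + m) - 1) / 2) := fun p q => by
    simp only [hc, hcoef hnm, happ]; push_cast; ring
  have hcomp : ∀ r : ℝ, 0 < r → r ≤ 1 → ∫ z, esum a z ^ r ∂gauss ((Edge n ⊕ Edge m) ⊕ Unit) ≤ ∫ z, esum c z ^ r ∂gauss (Edge (n + m)) :=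
    fun r hr hr1 => slepian a c hr hr1 (fun p => by
      rw [hA, hC]
      simp only [spin_mul_self, Finset.sum_const, Finset.card_univ, Fintype.card_fin, nsmul_eq_mul, mul_one]
      field_simp) fun p q => by
      rw [hA, hC]
      set S := ∑ i, spin (p.1 i) * spin (q.1 i)
      set T := ∑ i, spin (p.2 i) * spin (q.2 i)
      refine mul_le_mul_of_nonneg_left ?_ (sq_nonneg β)
      have e : S ^ 2 / n + T ^ 2 / m - (S + T) ^ 2 / (n + m) = (S * m - T * n) ^ 2 / (n * m * (n + m)) := by
        field_simp; ring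
      have : 0 ≤ (S * m - T * n) ^ 2 / (n * m * (n + m)) := by positivity
      linarith
  have hcs : ∀ z, esum c z = Zfun β z := fun z => by
    rw [esum, Zfun, ← Equiv.sum_comp (Fin.appendEquiv n m)]
    refine Finset.sum_congr rfl fun p _ => ?_
    simp only [hc, dot, energy_coef, Finset.mul_sum]
    congr 1
    exact Finset.sum_congr rfl fun e _ => by simp [Fin.appendEquiv, mul_assoc]
  have has : ∀ z, esum a z = Zfun β (fun e => z (Sum.inl (Sum.inl e))) * Zfun β (fun e => z (Sum.inl (Sum.inr e))) *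
      Real.exp (k * z (Sum.inr ())) := fun z => by
    simp only [esum, Zfun, ha, dot, Fintype.sum_sum_type, Sum.elim_inl, Sum.elim_inr, Finset.univ_unique, Finset.sum_singleton,
      Real.exp_add, Fintype.sum_prod_type, Finset.sum_mul, energy_coef, Finset.mul_sum, mul_assoc]
    rw [Finset.sum_comm]
  -- marginals
  have hl : ∀ (α γ : Type) [Fintype α] [Fintype γ], MeasurePreserving (fun (z : α ⊕ γ → ℝ) e => z (Sum.inl e)) (gauss (α ⊕ γ)) (gauss α) ∧
      MeasurePreserving (fun (z : α ⊕ γ → ℝ) e => z (Sum.inr e)) (gauss (α ⊕ γ)) (gauss γ) := fun α γ _ _ => by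
    have hmp : MeasurePreserving (MeasurableEquiv.sumPiEquivProdPi fun _ : α ⊕ γ => ℝ)
        (gauss (α ⊕ γ)) ((gauss α).prod (gauss γ)) :=
      measurePreserving_sumPiEquivProdPi (X := fun _ : α ⊕ γ => ℝ) fun _ => gaussianReal 0 1
    exact ⟨measurePreserving_fst.comp hmp, measurePreserving_snd.comp hmp⟩
  have m1 := (hl (Edge n) (Edge m)).1.comp (hl (Edge n ⊕ Edge m) Unit).1
  have m2 := (hl (Edge n) (Edge m)).2.comp (hl (Edge n ⊕ Edge m) Unit).1
  have m3 : MeasurePreserving (fun z : (Edge n ⊕ Edge m) ⊕ Unit → ℝ => z (Sum.inr ())) (gauss ((Edge n ⊕ Edge m) ⊕ Unit)) (gaussianReal 0 1) :=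
    (measurePreserving_eval (μ := fun _ : Unit => gaussianReal 0 1) ()).comp (hl (Edge n ⊕ Edge m) Unit).2
  set U := fun z : (Edge n ⊕ Edge m) ⊕ Unit → ℝ => Real.log (esum a z)
  have eU : ∀ z, U z = Real.log (Zfun β fun e => z (Sum.inl (Sum.inl e))) + Real.log (Zfun β fun e => z (Sum.inl (Sum.inr e))) + k * z (Sum.inr ()) := fun z => by
    have h1 : 0 < Zfun β (fun e => z (Sum.inl (Sum.inl e))) := partition_pos β _
    have h2 : 0 < Zfun β (fun e => z (Sum.inl (Sum.inr e))) := partition_pos β _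
    simp only [U, has, Real.log_mul (mul_pos h1 h2).ne' (Real.exp_pos _).ne', Real.log_mul h1.ne' h2.ne', Real.log_exp]
  have i1 := m1.integrable_comp_of_integrable (integrable_logZfun hn hβ)
  have i2 := m2.integrable_comp_of_integrable (integrable_logZfun hm hβ)
  have iid : Integrable (fun t : ℝ => t) (gaussianReal 0 1) := by simpa using integrable_pow 1
  have i3 := (m3.integrable_comp_of_integrable iid).const_mul k
  have iU : Integrable U (gauss ((Edge n ⊕ Edge m) ⊕ Unit)) :=
    ((i1.add i2).add i3).congr (Filter.Eventually.of_forall fun z => (eU z).symm)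
  have eI : ∫ z, U z ∂gauss ((Edge n ⊕ Edge m) ⊕ Unit) = freeE n β + freeE m β := by
    have e1 := mp_integral m1 (continuous_logZfun (n := n) β)
    have e2 := mp_integral m2 (continuous_logZfun (n := m) β)
    have e3 := mp_integral m3 continuous_id
    simp only [Function.comp_apply, id_eq, integral_id_gaussianReal] at e1 e2 e3
    have i12 : Integrable (fun z : (Edge n ⊕ Edge m) ⊕ Unit → ℝ => Real.log (Zfun β fun e => z (Sum.inl (Sum.inl e))) +
        Real.log (Zfun β fun e => z (Sum.inl (Sum.inr e)))) (gauss ((Edge n ⊕ Edge m) ⊕ Unit)) := i1.add i2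
    simp only [Function.comp_def] at i1 i2 i3
    simp only [eU]
    rw [integral_add i12 i3, integral_add i1 i2, integral_const_mul, e1, e2, e3, mul_zero, add_zero]
    rfl
  refine le_of_forall_pos_le_add fun ε hε => ?_
  set r := min 1 (ε / (β ^ 2 * (n + m) + 1))
  have hr : 0 < r := lt_min one_pos (by positivity)
  have hr1 : r ≤ 1 := min_le_left _ _
  have hre : r * (β ^ 2 * ((n + m : ℕ) : ℝ)) ≤ ε := by
    push_cast
    calc r * (β ^ 2 * ((n:ℝ) + m)) ≤ ε / (β ^ 2 * (n + m) + 1) * (β ^ 2 * (n + m) + 1) :=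
          mul_le_mul (min_le_right _ _) (by linarith) (by positivity) (by positivity)
      _ = ε := by field_simp
  have hlow : Real.exp (r * (freeE n β + freeE m β)) ≤ ∫ z, esum a z ^ r ∂gauss ((Edge n ⊕ Edge m) ⊕ Unit) := by
    set M := freeE n β + freeE m β
    have pt : ∀ z, Real.exp (r * M) * (1 + r * (U z - M)) ≤ esum a z ^ r := fun z => by
      rw [Real.rpow_def_of_pos (esum_pos a z)]
      have h := mul_le_mul_of_nonneg_left (Real.add_one_le_exp (r * (U z - M))) (Real.exp_pos (r * M)).le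
      rw [← Real.exp_add, show r * M + r * (U z - M) = U z * r by ring] at h
      linarith
    have i4 : Integrable (fun z => Real.exp (r * M) * (1 + r * (U z - M))) (gauss ((Edge n ⊕ Edge m) ⊕ Unit)) :=
      ((integrable_const 1).add ((iU.sub (integrable_const M)).const_mul r)).const_mul _
    refine le_trans (le_of_eq ?_) (integral_mono i4 (esum_rpow_integrable a hr.le hr1) pt)
    have i5 : Integrable (fun z => r * (U z - M)) (gauss ((Edge n ⊕ Edge m) ⊕ Unit)) := (iU.sub (integrable_const M)).const_mul r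
    rw [integral_const_mul, integral_add (integrable_const _) i5, integral_const_mul, integral_sub iU (integrable_const _), eI]
    simp [M]
  have hup : ∫ z, esum c z ^ r ∂gauss (Edge (n + m)) ≤ Real.exp (r * freeE (n + m) β + r ^ 2 * β ^ 2 * ((n + m : ℕ) : ℝ)) := by
    have e : ∀ z, esum c z ^ r = Real.exp (r * Real.log (Zfun β z)) := fun z => by
      rw [hcs, Real.rpow_def_of_pos (show 0 < Zfun β z from partition_pos β z), mul_comm]
    simp only [e, ← gauss_edge]
    exact (logZ_mgf hnm hβ r).2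
  have h := Real.exp_le_exp.1 (hlow.trans ((hcomp r hr hr1).trans hup))
  have : r * (freeE n β + freeE m β) ≤ r * (freeE (n + m) β + ε) := by
    have := mul_le_mul_of_nonneg_left hre hr.le
    linarith
  exact le_of_mul_le_mul_left this hr

/-- the thermodynamic limit exists -/
theorem freeE_tendsto {β : ℝ} (hβ : 0 ≤ β) : ∃ P, Tendsto (fun n : ℕ => freeE n β / n) atTop (𝓝 P) := by
  set u := fun n : ℕ => -freeE n β
  have hs : Subadditive u := fun m n => by
    rcases Nat.eq_zero_or_pos m with rfl | hm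
    · simp [u, freeE_zero]
    rcases Nat.eq_zero_or_pos n with rfl | hn
    · simp [u, freeE_zero]
    have := freeE_superadditive hm hn hβ
    simp only [u]; linarith
  have hb : BddBelow (Set.range fun n => u n / n) := by
    refine ⟨-(Real.log 2 + β ^ 2 / 4), ?_⟩
    rintro _ ⟨n, rfl⟩
    rcases Nat.eq_zero_or_pos n with rfl | hn
    · simp only [Nat.cast_zero, div_zero, neg_le_iff_add_nonneg]
      have := Real.log_pos (one_lt_two : (1:ℝ) < 2)
      positivity
    · have hn' : (0:ℝ) < n := by exact_mod_cast hn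
      simp only [u]
      rw [le_div_iff₀ hn']
      linarith [freeE_le_annealed n hβ]
  refine ⟨-hs.lim, ((hs.tendsto_lim hb).neg).congr fun n => ?_⟩
  simp [u, neg_div]

end Vale.Agent.P150
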