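import Vale.Agent.P150.Cavity
import Vale.Agent.P150.RSStrict
import Vale.Agent.P150.MeanEnergy
import Vale.Agent.P150.SuperAdd

/-! For every `β > 1` the Gibbs energy is strictly below annealed, so the dynamics is slow whp. -/

open MeasureTheory ProbabilityTheory Filter
open scoped Topology

namespace Vale.Agent.P150

variable {n : ℕ}

lemma overlapSq_nonneg (β : ℝ) (g : Edge n → ℝ) : 0 ≤ overlapSq β g :=
  Finset.sum_nonneg fun x _ => Finset.sum_nonneg fun y _ =>
    mul_nonneg (mul_nonneg (gibbs_pos β g x).le (gibbs_pos β g y).le) (qsq_mem x y).1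

lemma overlapSq_le_one (β : ℝ) (g : Edge n → ℝ) : overlapSq β g ≤ 1 :=
  calc overlapSq β g ≤ ∑ x, ∑ y, gibbs β g x * gibbs β g y * 1 := Finset.sum_le_sum fun x _ =>
        Finset.sum_le_sum fun y _ => mul_le_mul_of_nonneg_left (qsq_mem x y).2 (mul_nonneg (gibbs_pos β g x).le (gibbs_pos β g y).le)
    _ = 1 := by simp only [mul_one, ← Finset.mul_sum, gibbs_sum]

lemma integrable_overlapSq (β : ℝ) {φ : (Edge n → ℝ) → Edge n → ℝ} (hφ : Measurable φ) :
    Integrable (fun g => overlapSq β (φ g)) (disorder n) :=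
  Integrable.of_bound ((measurable_overlapSq β).comp hφ).aestronglyMeasurable 1 (Eventually.of_forall fun g => by
    rw [Real.norm_eq_abs, abs_of_nonneg (overlapSq_nonneg β _)]; exact overlapSq_le_one β _)

lemma freeE_one (β : ℝ) : 0 ≤ freeE 1 β := by
  haveI : IsEmpty (Edge 1) := ⟨fun e => by have := e.2; omega⟩
  refine integral_nonneg fun g => Real.log_nonneg ?_
  simp [Zfun, energy]

/-- one step, with the unscaled overlap -/
lemma increment (hn : 0 < n) {t b : ℝ} (ht : 0 ≤ t) (htb : t ≤ b) :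
    freeE n t + (Real.log 2 + t ^ 2 / 4) -
      Real.exp (b ^ 2 + b ^ 4 / 2) * (Real.exp (4 * b) * ∫ g, overlapSq t g ∂disorder n +
        2 * Real.exp (-((1 - Real.log 2) * n))) ≤ freeE (n + 1) t := by
  have hn' : (0:ℝ) < n := by exact_mod_cast hn
  set a := Real.sqrt n / Real.sqrt ((n:ℝ) + 1) with ha
  have hs : 0 < Real.sqrt ((n:ℝ) + 1) := Real.sqrt_pos.2 (by linarith)
  have ha0 : 0 ≤ a := by positivity
  have ha1 : a ≤ 1 := (div_le_one hs).2 (Real.sqrt_le_sqrt (by linarith))
  have has : 1 - a ≤ 1 / ((n:ℝ) + 1) := by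
    have e : a ^ 2 = 1 - 1 / ((n:ℝ) + 1) := by
      rw [ha, div_pow, Real.sq_sqrt hn'.le, Real.sq_sqrt (by linarith)]; field_simp; ring
    linarith [pow_le_of_le_one ha0 ha1 (two_ne_zero (α := ℕ))]
  set U := {g : Edge n → ℝ | ¬ Bounded 1 g}
  have mU : MeasurableSet U := (measurable_bounded 1).compl
  have pt : ∀ g, overlapSq t (fun e => a * g e) ≤ Real.exp (4 * b) * overlapSq t g + U.indicator (fun _ => (1:ℝ)) g := fun g => by
    by_cases hg : g ∈ U
    · rw [Set.indicator_of_mem hg]
      linarith [overlapSq_le_one t (fun e => a * g e), mul_nonneg (Real.exp_pos (4 * b)).le (overlapSq_nonneg t g)]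
    · rw [Set.indicator_of_notMem hg, add_zero]
      refine (scaled_overlap ht ha1 has zero_le_one g (not_not.1 hg)).trans ?_
      refine mul_le_mul_of_nonneg_right (Real.exp_le_exp.2 ?_) (overlapSq_nonneg t g)
      have : 1 / ((n:ℝ) + 1) * (1 * n) ≤ 1 := by
        rw [one_mul, div_mul_eq_mul_div, one_mul, div_le_one (by linarith)]; linarith
      linarith [mul_le_mul_of_nonneg_left this ht]
  have iq := integrable_overlapSq t (n := n) measurable_id
  have iU : Integrable (U.indicator fun _ => (1:ℝ)) (disorder n) := (integrable_const _).indicator mU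
  have h1 : ∫ g, overlapSq t (fun e => a * g e) ∂disorder n ≤
      Real.exp (4 * b) * ∫ g, overlapSq t g ∂disorder n + 2 * Real.exp (-((1 - Real.log 2) * n)) := by
    refine (integral_mono (integrable_overlapSq t (by fun_prop)) ((iq.const_mul (Real.exp (4 * b))).add iU) pt).trans ?_
    rw [integral_add' (iq.const_mul _) iU, integral_const_mul, integral_indicator_const _ mU, smul_eq_mul, mul_one]
    have := prob_unbounded hn zero_le_one
    rw [one_pow] at this
    simp only [id_eq, U]; linarith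
  have hK : Real.exp (t ^ 2 + t ^ 4 / 2) ≤ Real.exp (b ^ 2 + b ^ 4 / 2) := by
    refine Real.exp_le_exp.2 ?_
    linarith [pow_le_pow_left₀ ht htb 2, pow_le_pow_left₀ ht htb 4]
  have h2 := mul_le_mul hK h1 (integral_nonneg fun g => overlapSq_nonneg t _) (Real.exp_pos _).le
  have := cavity_step hn ht
  simp only [freeE, ha] at *
  linarith

/-- the free energy grows strictly slower than annealed in `β` -/
theorem slope (β : ℝ) (hβ : 1 < β) : ∃ r h : ℝ, 0 < r ∧ r < β / 2 ∧ 0 < h ∧
    ∀ᶠ n : ℕ in atTop, freeE n (β + h) - freeE n β ≤ r * h * n := by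
  have hβ0 : 0 < β := by linarith
  obtain ⟨η, hη, hrs⟩ := rs_strict β hβ
  set b := β + 1
  set K := Real.exp (b ^ 2 + b ^ 4 / 2) with hK
  set E := Real.exp (4 * b) with hE
  set θ := min (η / 2 / (4 * (K * E))) (1 / 2) with hθd
  have hθ : 0 < θ := lt_min (by positivity) (by norm_num)
  set h := min (min 1 (β * θ)) (Real.sqrt (2 * η)) with hhd
  have hh : 0 < h := lt_min (lt_min one_pos (by positivity)) (Real.sqrt_pos.2 (by linarith))
  have hh1 : h ≤ 1 := (min_le_left _ _).trans (min_le_left _ _)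
  have hhθ : h ≤ β * θ := (min_le_left _ _).trans (min_le_right _ _)
  have hhη : h ^ 2 ≤ 2 * η := by
    have := pow_le_pow_left₀ hh.le (min_le_right (min 1 (β * θ)) (Real.sqrt (2 * η))) 2
    rwa [Real.sq_sqrt (by linarith)] at this
  set t := β + h with ht
  have ht0 : 0 ≤ t := by linarith
  have htb : t ≤ b := by linarith
  set q := fun n : ℕ => ∫ g, overlapSq (n := n) t g ∂disorder n
  -- secant below tangent
  have hsec : ∀ m : ℕ, freeE m t - freeE m β ≤ h * (t * m / 2 * (1 - q m)) := by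
    intro m
    rcases Nat.eq_zero_or_pos m with rfl | hm
    · simp [freeE_zero]
    obtain ⟨iM, -, eM⟩ := mean_identity hm ht0
    have pt : ∀ g : Edge m → ℝ, Real.log (Zfun t g) - Real.log (Zfun β g) ≤ h * meanE t g := fun g => by
      have := meanE_le t (-h) g
      rw [show t + -h = β by ring] at this
      linarith
    have i1 := integrable_logZfun hm ht0
    have i2 := integrable_logZfun hm hβ0.le
    have := integral_mono (i1.sub i2) (iM.const_mul h) pt
    rw [integral_sub' i1 i2, integral_const_mul, eM] at this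
    exact this
  have hη' : ∀ m : ℕ, 0 < m → freeE m t ≤ m * (Real.log 2 + t ^ 2 / 4 - η / 2) := fun m hm => by
    have h1 := hsec m
    have hq : 0 ≤ q m := integral_nonneg fun g => overlapSq_nonneg t g
    have h2 : t * (m:ℝ) / 2 * (1 - q m) ≤ t * m / 2 := mul_le_of_le_one_right (by positivity) (by linarith)
    have h3 := mul_le_mul_of_nonneg_left h2 hh.le
    have h4 := mul_le_mul_of_nonneg_left hhη (Nat.cast_nonneg (α := ℝ) m)
    have h5 : freeE m β ≤ m * (Real.log 2 + β ^ 2 / 4 - η) := hrs m hm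
    rw [ht] at h1 h3 ⊢
    linarith
  set κ := 1 - Real.log 2
  have hκ : 0 < κ := by
    have := Real.log_lt_sub_one_of_pos (two_pos (α := ℝ)) (by norm_num); simp only [κ]; linarith
  have hρ1 : Real.exp (-κ) < 1 := Real.exp_lt_one_iff.2 (by linarith)
  have hgeo : ∀ N : ℕ, ∑ m ∈ Finset.range N, Real.exp (-(κ * m)) ≤ 1 / (1 - Real.exp (-κ)) := fun N => by
    have e : ∀ m : ℕ, Real.exp (-(κ * m)) = Real.exp (-κ) ^ m := fun m => by rw [← Real.exp_nat_mul]; ring_nf
    simp only [e, one_div]
    rw [← tsum_geometric_of_lt_one (Real.exp_pos _).le hρ1]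
    exact (summable_geometric_of_lt_one (Real.exp_pos _).le hρ1).sum_le_tsum _ fun m _ => by positivity
  have hacc : ∀ N : ℕ, (N:ℝ) * (Real.log 2 + t ^ 2 / 4) - K * E * ∑ m ∈ Finset.range N, q m -
      2 * K * ∑ m ∈ Finset.range N, Real.exp (-(κ * m)) ≤ freeE N t := by
    intro N
    induction N with
    | zero => simp [freeE_zero]
    | succ N ih =>
      rw [Finset.sum_range_succ, Finset.sum_range_succ]
      push_cast
      rcases Nat.eq_zero_or_pos N with rfl | hN
      · simp only [Finset.range_zero, Finset.sum_empty, Nat.cast_zero, zero_add, mul_zero, neg_zero, Real.exp_zero, one_mul, mul_one]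
        have h1 := freeE_one t
        have h2 : 0 ≤ K * E * q 0 := mul_nonneg (by positivity) (integral_nonneg fun g => overlapSq_nonneg t g)
        have h3 : b ^ 2 + 1 ≤ K :=
          (by linarith [show 0 ≤ b ^ 4 / 2 by positivity] : b ^ 2 + 1 ≤ b ^ 2 + b ^ 4 / 2 + 1).trans (Real.add_one_le_exp _)
        linarith [pow_le_pow_left₀ ht0 htb 2, Real.log_le_sub_one_of_pos (two_pos (α := ℝ)), sq_nonneg t]
      · have := increment hN ht0 htb
        simp only [q, hK, hE, κ] at ih ⊢
        linarith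
  set B := 2 * (1 / (1 - Real.exp (-κ))) / E with hB
  have hq2 : ∀ᶠ N : ℕ in atTop, 2 * θ * N ≤ ∑ m ∈ Finset.range N, q m := by
    filter_upwards [eventually_ge_atTop 1, eventually_ge_atTop ⌈B / (2 * θ)⌉₊] with N hN hNB
    have h1 := (hacc N).trans (hη' N hN)
    have h2 := hgeo N
    have h3 : θ * (4 * (K * E)) ≤ η / 2 := by
      rw [← le_div_iff₀ (by positivity)]; exact min_le_left _ _
    have h4 := mul_le_mul_of_nonneg_right h3 (Nat.cast_nonneg (α := ℝ) N)
    have h5 : B / (2 * θ) ≤ N := (Nat.le_ceil _).trans (by exact_mod_cast hNB)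
    rw [div_le_iff₀ (by positivity)] at h5
    have h6 := mul_le_mul_of_nonneg_left h5 (show 0 ≤ K * E by positivity)
    have h7 : K * E * B = 2 * K * (1 / (1 - Real.exp (-κ))) := by
      rw [show K * E * B = K * (E * B) from mul_assoc _ _ _, hB, mul_div_cancel₀ _ (Real.exp_pos (4 * b)).ne']; ring
    have h8 := mul_le_mul_of_nonneg_left h2 (show 0 ≤ 2 * K by positivity)
    refine le_of_mul_le_mul_left ?_ (show 0 < K * E by positivity)
    linarith
  obtain ⟨Pt, hPt⟩ := freeE_tendsto ht0
  obtain ⟨Pb, hPb⟩ := freeE_tendsto hβ0.le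
  have hd := hPt.sub hPb
  have hD : Pt - Pb ≤ h * (β / 2 * (1 - θ)) := by
    refine le_of_tendsto hd.cesaro ?_
    filter_upwards [hq2, eventually_ge_atTop 1] with N hN hN1
    have hN' : (0:ℝ) < N := by exact_mod_cast hN1
    rw [inv_mul_le_iff₀ hN']
    have hterm : ∀ m : ℕ, freeE m t / m - freeE m β / m ≤ h * (t / 2) * (1 - q m) := fun m => by
      rcases Nat.eq_zero_or_pos m with rfl | hm
      · simp [q, overlapSq, qsq]; positivity
      · rw [← sub_div, div_le_iff₀ (by exact_mod_cast hm)]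
        linarith [hsec m]
    refine (Finset.sum_le_sum fun m _ => hterm m).trans ?_
    rw [← Finset.mul_sum, Finset.sum_sub_distrib, Finset.sum_const, Finset.card_range, nsmul_eq_mul, mul_one]
    have h1 : t * (1 - 2 * θ) ≤ β * (1 - θ) := by
      have : θ ≤ 1 / 2 := min_le_right _ _
      have h2 := mul_le_mul_of_nonneg_right (show t ≤ β + β * θ by linarith) (show 0 ≤ 1 - 2 * θ by linarith)
      linarith [mul_nonneg hβ0.le (sq_nonneg θ)]
    have h3 := mul_le_mul_of_nonneg_left hN (show 0 ≤ h * (t / 2) by positivity)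
    have h4 := mul_le_mul_of_nonneg_left h1 (show 0 ≤ h * N / 2 by positivity)
    linarith
  refine ⟨β / 2 * (1 - θ / 2), h, mul_pos (by linarith) (by linarith [min_le_right (η / 2 / (4 * (K * E))) (1 / 2)]), by linarith [mul_pos hβ0 hθ], hh, ?_⟩
  have hlt : Pt - Pb < h * (β / 2 * (1 - θ / 2)) := hD.trans_lt (by linarith [mul_pos (mul_pos hh hβ0) hθ])
  filter_upwards [hd.eventually_lt_const hlt, eventually_ge_atTop 1] with m hm hm1
  rw [← sub_div, div_lt_iff₀ (by exact_mod_cast hm1)] at hm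
  linarith

/-- the Gibbs energy stays below `r n < β n / 2` -/
theorem energy_low (β : ℝ) (hβ : 1 < β) : ∃ r c : ℝ, 0 < r ∧ r < β / 2 ∧ 0 < c ∧ ∀ᶠ n : ℕ in atTop,
    (disorder n).real {g | r * n < meanE β g} ≤ 2 * Real.exp (-(c * n)) := by
  obtain ⟨r, h, hr, hrβ, hh, hev⟩ := slope β hβ
  have hβ0 : 0 < β := by linarith
  set ε := h * (β / 2 - r) / 4 with hεd
  have hε : 0 < ε := by rw [hεd]; have : 0 < β / 2 - r := by linarith
                        positivity
  refine ⟨(r + β / 2) / 2, ε ^ 2 / (4 * (β + h) ^ 2), by linarith, by linarith, by positivity, ?_⟩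
  filter_upwards [hev, eventually_ge_atTop 1] with n hn hn1
  set A := {g : Edge n → ℝ | ε * n ≤ (1:ℝ) * (Real.log (Zfun (β + h) g) - ∫ w, Real.log (Zfun (β + h) w) ∂disorder n)}
  set B := {g : Edge n → ℝ | ε * n ≤ (-1:ℝ) * (Real.log (Zfun β g) - ∫ w, Real.log (Zfun β w) ∂disorder n)}
  have hsub : {g : Edge n → ℝ | (r + β / 2) / 2 * n < meanE β g} ⊆ A ∪ B := by
    intro g hg
    by_contra hAB
    simp only [A, B, Set.mem_union, Set.mem_ofPred_eq, not_or, not_le] at hAB
    have h1 := meanE_le β h g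
    have h2 := mul_lt_mul_of_pos_left (show (r + β / 2) / 2 * n < meanE β g from hg) hh
    simp only [freeE] at hn
    rw [hεd] at hAB
    linarith [hAB.1, hAB.2]
  have p1 : (disorder n).real A ≤ Real.exp (-(ε ^ 2 / (4 * (β + h) ^ 2) * n)) :=
    logZ_tail hn1 (by linarith) (Or.inl rfl) hε
  have p2 : (disorder n).real B ≤ Real.exp (-(ε ^ 2 / (4 * (β + h) ^ 2) * n)) := by
    refine (logZ_tail hn1 hβ0 (Or.inr rfl) hε).trans (Real.exp_le_exp.2 ?_)
    have : ε ^ 2 / (4 * (β + h) ^ 2) ≤ ε ^ 2 / (4 * β ^ 2) := by gcongr; linarith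
    linarith [mul_le_mul_of_nonneg_right this (Nat.cast_nonneg (α := ℝ) n)]
  refine (measureReal_mono hsub).trans ((measureReal_union_le _ _).trans ?_)
  linarith

end Vale.Agent.P150
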