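import Vale.Agent.P150.Defs

namespace Vale.Agent.P150

variable {n : ℕ}

/-- `x` with spin `i` flipped -/
def flip (i : Fin n) (x : Cfg n) : Cfg n := Function.update x i (!(x i))

/-- the global spin flip -/
def negCfg (x : Cfg n) : Cfg n := fun i => !(x i)

lemma spin_mul_self (b : Bool) : spin b * spin b = 1 := by cases b <;> simp [spin]

lemma spin_not (b : Bool) : spin (!b) = -spin b := by cases b <;> simp [spin]

/-- upper-triangular extension -/
def upper (g : Edge n → ℝ) (a b : Fin n) : ℝ := if h : a < b then g ⟨(a, b), h⟩ else 0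

lemma upper_self (g : Edge n → ℝ) (a : Fin n) : upper g a a = 0 := by simp [upper]

lemma coupling_eq (g : Edge n → ℝ) (i j : Fin n) : coupling g i j = upper g i j + upper g j i := by
  unfold coupling upper
  rcases lt_trichotomy i j with h | h | h
  · simp [h, h.not_gt]
  · simp [h]
  · simp [h, h.not_gt]

lemma sum_edge_eq (g : Edge n → ℝ) (F : Fin n → Fin n → ℝ) :
    ∑ e : Edge n, g e * F e.1.1 e.1.2 = ∑ a, ∑ b, upper g a b * F a b := by
  rw [← Fintype.sum_prod_type']
  rw [← Finset.sum_filter_add_sum_filter_not Finset.univ (fun p : Fin n × Fin n => p.1 < p.2)]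
  have h2 : ∑ p ∈ Finset.univ.filter (fun p : Fin n × Fin n => ¬ p.1 < p.2), upper g p.1 p.2 * F p.1 p.2 = 0 :=
    Finset.sum_eq_zero fun p hp => by simp [upper, (Finset.mem_filter.1 hp).2]
  rw [h2, add_zero, Finset.sum_subtype (p := fun p : Fin n × Fin n => p.1 < p.2) _ (fun p => by simp)]
  exact Finset.sum_congr rfl fun e _ => by simp [upper, e.2]

lemma energy_double (g : Edge n → ℝ) (x : Cfg n) :
    energy g x = (1 / Real.sqrt n) * ∑ a, ∑ b, upper g a b * (spin (x a) * spin (x b)) := by
  rw [energy, ← sum_edge_eq g fun a b => spin (x a) * spin (x b)]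
  congr 1
  exact Finset.sum_congr rfl fun e _ => by ring

lemma localField_update (β : ℝ) (g : Edge n → ℝ) (i : Fin n) (x : Cfg n) (b : Bool) :
    localField β g i (Function.update x i b) = localField β g i x := by
  unfold localField
  congr 1
  exact Finset.sum_congr rfl fun j hj => by rw [Function.update_of_ne (Finset.ne_of_mem_erase hj)]

lemma energy_update (β : ℝ) (g : Edge n → ℝ) (i : Fin n) (x : Cfg n) (b : Bool) :
    β * energy g (Function.update x i b) =
      β * energy g x + (spin b - spin (x i)) * localField β g i x := by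
  have key : ∀ v : Fin n → ℝ, ∀ σ : ℝ, (∀ a, a ≠ i → v a = spin (x a)) → v i = σ →
      ∑ a, ∑ c, upper g a c * (v a * v c) =
        (∑ a ∈ Finset.univ.erase i, ∑ c ∈ Finset.univ.erase i, upper g a c * (spin (x a) * spin (x c))) +
        σ * ∑ j ∈ Finset.univ.erase i, coupling g i j * spin (x j) := by
    intro v σ hv hi
    rw [← Finset.add_sum_erase _ _ (Finset.mem_univ i)]
    have h1 : ∀ a ∈ Finset.univ.erase i, ∑ c, upper g a c * (v a * v c) =
        σ * (upper g a i * spin (x a)) +
          ∑ c ∈ Finset.univ.erase i, upper g a c * (spin (x a) * spin (x c)) := by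
      intro a ha
      rw [← Finset.add_sum_erase _ _ (Finset.mem_univ i), hi, hv a (Finset.ne_of_mem_erase ha)]
      congr 1
      · ring
      · exact Finset.sum_congr rfl fun c hc => by rw [hv c (Finset.ne_of_mem_erase hc)]
    have h2 : ∑ c, upper g i c * (v i * v c) =
        σ * ∑ c ∈ Finset.univ.erase i, upper g i c * spin (x c) := by
      rw [← Finset.add_sum_erase _ _ (Finset.mem_univ i), upper_self, zero_mul, zero_add, Finset.mul_sum, hi]
      exact Finset.sum_congr rfl fun c hc => by rw [hv c (Finset.ne_of_mem_erase hc)]; ring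
    rw [h2, Finset.sum_congr rfl h1, Finset.sum_add_distrib, ← Finset.mul_sum]
    simp only [coupling_eq, add_mul, Finset.sum_add_distrib]
    ring
  rw [energy_double, energy_double,
    key (fun a => spin (Function.update x i b a)) (spin b)
      (fun a ha => by simp only [Function.update_of_ne ha]) (by simp only [Function.update_self]),
    key (fun a => spin (x a)) (spin (x i)) (fun a _ => rfl) rfl, localField]
  ring

lemma partition_pos (β : ℝ) (g : Edge n → ℝ) : 0 < ∑ y : Cfg n, Real.exp (β * energy g y) :=
  Finset.sum_pos (fun _ _ => Real.exp_pos _) Finset.univ_nonempty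

lemma gibbs_pos (β : ℝ) (g : Edge n → ℝ) (x : Cfg n) : 0 < gibbs β g x :=
  div_pos (Real.exp_pos _) (partition_pos β g)

lemma gibbs_sum (β : ℝ) (g : Edge n → ℝ) : ∑ x, gibbs β g x = 1 := by
  unfold gibbs
  rw [← Finset.sum_div, div_self (partition_pos β g).ne']

lemma flip_flip (i : Fin n) (x : Cfg n) : flip i (flip i x) = x := by
  unfold flip; funext j
  by_cases h : j = i
  · subst h; simp
  · simp [Function.update_of_ne h]

lemma localField_flip (β : ℝ) (g : Edge n → ℝ) (i : Fin n) (x : Cfg n) :
    localField β g i (flip i x) = localField β g i x := localField_update β g i x _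

lemma spin_flip (i : Fin n) (x : Cfg n) : spin (flip i x i) = -spin (x i) := by
  simp [flip, spin_not]

/-- detailed balance -/
lemma gibbs_flip (β : ℝ) (g : Edge n → ℝ) (i : Fin n) (x : Cfg n) :
    gibbs β g (flip i x) * Real.exp (spin (x i) * localField β g i x) =
      gibbs β g x * Real.exp (-(spin (x i) * localField β g i x)) := by
  unfold gibbs
  rw [div_mul_eq_mul_div, div_mul_eq_mul_div, ← Real.exp_add, ← Real.exp_add, flip, energy_update, spin_not]
  ring_nf

lemma sum_flip (i : Fin n) (F : Cfg n → ℝ) : ∑ x, F (flip i x) = ∑ x, F x :=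
  Equiv.sum_comp (Function.Involutive.toPerm (flip i) (flip_flip i)) F

lemma heatBath_eq (β : ℝ) (g : Edge n → ℝ) (i : Fin n) (f : Cfg n → ℝ) (x : Cfg n) :
    heatBath β g i f x =
      (Real.exp (spin (x i) * localField β g i x) * f x +
        Real.exp (-(spin (x i) * localField β g i x)) * f (flip i x)) / (2 * Real.cosh (localField β g i x)) := by
  unfold heatBath flip
  cases h : x i
  · have e : Function.update x i false = x := by rw [← h, Function.update_eq_self]
    simp [spin, e]; ring
  · have e : Function.update x i true = x := by rw [← h, Function.update_eq_self]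
    simp [spin, e]

/-- pairing identity for `Q_i` -/
lemma sum_mul_heatBath (β : ℝ) (g : Edge n → ℝ) (i : Fin n) (f h : Cfg n → ℝ) :
    2 * ∑ x, gibbs β g x * (f x * heatBath β g i h x) =
      ∑ x, gibbs β g x * Real.exp (-(spin (x i) * localField β g i x)) / (2 * Real.cosh (localField β g i x)) *
        ((Real.exp (spin (x i) * localField β g i x) * f x +
            Real.exp (-(spin (x i) * localField β g i x)) * f (flip i x)) *
          (Real.exp (spin (x i) * localField β g i x) * h x +
            Real.exp (-(spin (x i) * localField β g i x)) * h (flip i x))) := by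
  rw [two_mul]
  conv_lhs => arg 1; rw [← sum_flip i]
  rw [← Finset.sum_add_distrib]
  refine Finset.sum_congr rfl fun x _ => ?_
  rw [heatBath_eq, heatBath_eq, flip_flip, localField_flip, spin_flip, neg_mul, neg_neg]
  have hb := gibbs_flip β g i x
  set s := spin (x i) * localField β g i x
  set c := 2 * Real.cosh (localField β g i x)
  have hs : Real.exp s * Real.exp (-s) = 1 := by rw [← Real.exp_add]; simp
  have hμ : gibbs β g (flip i x) = gibbs β g x * Real.exp (-s) * Real.exp (-s) := by
    calc gibbs β g (flip i x) = gibbs β g (flip i x) * Real.exp s * Real.exp (-s) := by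
          rw [mul_assoc, hs, mul_one]
      _ = _ := by rw [hb]
  rw [hμ]
  simp only [div_eq_mul_inv]
  linear_combination (-(gibbs β g x * c⁻¹ * f x *
    (Real.exp s * h x + Real.exp (-s) * h (flip i x)))) * hs

lemma heatBath_selfAdjoint (β : ℝ) (g : Edge n → ℝ) (i : Fin n) (f h : Cfg n → ℝ) :
    ∑ x, gibbs β g x * (f x * heatBath β g i h x) = ∑ x, gibbs β g x * (h x * heatBath β g i f x) := by
  have h1 := sum_mul_heatBath β g i f h
  have h2 := sum_mul_heatBath β g i h f
  have h3 : 2 * ∑ x, gibbs β g x * (f x * heatBath β g i h x) =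
      2 * ∑ x, gibbs β g x * (h x * heatBath β g i f x) := by
    rw [h1, h2]; exact Finset.sum_congr rfl fun x _ => by ring
  linarith

lemma generator_apply (β : ℝ) (g : Edge n → ℝ) (f : Cfg n → ℝ) (x : Cfg n) :
    generator β g f x = ∑ i, (heatBath β g i f x - f x) := rfl

lemma generator_selfAdjoint (β : ℝ) (g : Edge n → ℝ) (f h : Cfg n → ℝ) :
    ∑ x, gibbs β g x * (f x * generator β g h x) = ∑ x, gibbs β g x * (h x * generator β g f x) := by
  simp only [generator_apply, Finset.mul_sum, mul_sub, Finset.sum_sub_distrib]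
  congr 1
  · rw [Finset.sum_comm, Finset.sum_comm (γ := Cfg n)]
    exact Finset.sum_congr rfl fun i _ => heatBath_selfAdjoint β g i f h
  · exact Finset.sum_congr rfl fun x _ => Finset.sum_congr rfl fun i _ => by ring

lemma generator_const (β : ℝ) (g : Edge n → ℝ) (c : ℝ) : generator β g (fun _ => c) = 0 := by
  funext x
  rw [generator_apply, Pi.zero_apply]
  refine Finset.sum_eq_zero fun i _ => ?_
  have hc : (2 : ℝ) * Real.cosh (localField β g i x) ≠ 0 := by positivity
  rw [heatBath, ← add_mul, sub_eq_zero, div_eq_iff hc, Real.cosh_eq]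
  ring

lemma dirichlet_site (β : ℝ) (g : Edge n → ℝ) (i : Fin n) (f : Cfg n → ℝ) :
    2 * ∑ x, gibbs β g x * (f x * (f x - heatBath β g i f x)) ≤
      ∑ x, gibbs β g x * (f x - f (flip i x)) ^ 2 := by
  rw [two_mul]
  conv_lhs => arg 1; rw [← sum_flip i]
  rw [← Finset.sum_add_distrib]
  refine Finset.sum_le_sum fun x _ => ?_
  rw [heatBath_eq, heatBath_eq, flip_flip, localField_flip, spin_flip, neg_mul, neg_neg]
  have hb := gibbs_flip β g i x
  set s := spin (x i) * localField β g i x with hsdef
  have hs : Real.exp s * Real.exp (-s) = 1 := by rw [← Real.exp_add]; simp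
  have hμ : gibbs β g (flip i x) = gibbs β g x * Real.exp (-s) * Real.exp (-s) := by
    calc gibbs β g (flip i x) = gibbs β g (flip i x) * Real.exp s * Real.exp (-s) := by
          rw [mul_assoc, hs, mul_one]
      _ = _ := by rw [hb]
  have hc : 2 * Real.cosh (localField β g i x) = Real.exp s + Real.exp (-s) := by
    have : Real.cosh (localField β g i x) = Real.cosh s := by
      rw [hsdef]; cases x i <;> simp [spin]
    rw [this, Real.cosh_eq]; ring
  have hpos : 0 < Real.exp s + Real.exp (-s) := by positivity
  rw [hμ, hc]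
  set μ := gibbs β g x
  have key : μ * Real.exp (-s) * Real.exp (-s) * (f (flip i x) * (f (flip i x) -
      (Real.exp (-s) * f (flip i x) + Real.exp s * f x) / (Real.exp s + Real.exp (-s)))) +
      μ * (f x * (f x - (Real.exp s * f x + Real.exp (-s) * f (flip i x)) / (Real.exp s + Real.exp (-s)))) =
      μ * (Real.exp (-s) / (Real.exp s + Real.exp (-s))) * (f x - f (flip i x)) ^ 2 := by
    field_simp
    linear_combination (μ * Real.exp (-s) * (f (flip i x) ^ 2 - f x * f (flip i x))) * hs
  rw [key, mul_assoc]
  refine mul_le_mul_of_nonneg_left (mul_le_of_le_one_left (sq_nonneg _) ?_) (gibbs_pos β g x).le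
  exact (div_le_one hpos).2 (by linarith [Real.exp_pos s])

lemma dirichlet_eq (β : ℝ) (g : Edge n → ℝ) (f : Cfg n → ℝ) :
    dirichlet β g f = ∑ i, ∑ x, gibbs β g x * (f x * (f x - heatBath β g i f x)) := by
  rw [dirichlet, ← Finset.sum_neg_distrib, Finset.sum_comm]
  refine Finset.sum_congr rfl fun x _ => ?_
  simp only [generator_apply, Finset.mul_sum, ← Finset.sum_neg_distrib]
  exact Finset.sum_congr rfl fun i _ => by ring

/-- squared overlap of two configurations -/
noncomputable def qsq (x y : Cfg n) : ℝ := ((∑ i, spin (x i) * spin (y i)) / n) ^ 2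

/-- `⟨q₁₂²⟩` -/
noncomputable def overlapSq (β : ℝ) (g : Edge n → ℝ) : ℝ :=
  ∑ x, ∑ y, gibbs β g x * gibbs β g y * qsq x y

/-- `x ↦ q(x,y)` -/
noncomputable def overlapFun (y x : Cfg n) : ℝ := (∑ i, spin (x i) * spin (y i)) / n

lemma dirichlet_overlapFun (β : ℝ) (g : Edge n → ℝ) (y : Cfg n) :
    dirichlet β g (overlapFun y) ≤ 2 / n := by
  rw [dirichlet_eq]
  have key : ∀ i, 2 * ∑ x, gibbs β g x * (overlapFun y x * (overlapFun y x - heatBath β g i (overlapFun y) x))
      ≤ 4 / (n : ℝ) ^ 2 := by
    intro i
    refine (dirichlet_site β g i _).trans (le_of_eq ?_)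
    have e : ∀ x, (overlapFun y x - overlapFun y (flip i x)) ^ 2 = 4 / (n : ℝ) ^ 2 := by
      intro x
      unfold overlapFun
      rw [← sub_div, ← Finset.sum_sub_distrib, Finset.sum_eq_single i]
      · rw [spin_flip, div_pow]
        congr 1
        have h1 := spin_mul_self (x i)
        have h2 := spin_mul_self (y i)
        linear_combination (4 * spin (x i) * spin (x i)) * h2 + 4 * h1
      · intro j _ hj; simp [flip, Function.update_of_ne hj]
      · simp
    simp only [e, ← Finset.sum_mul, gibbs_sum, one_mul]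
  have hsum := Finset.sum_le_sum (fun i (_ : i ∈ (Finset.univ : Finset (Fin n))) => key i)
  rw [← Finset.mul_sum, Finset.sum_const, Finset.card_univ, Fintype.card_fin, nsmul_eq_mul] at hsum
  have e : (n : ℝ) * (4 / (n : ℝ) ^ 2) = 2 * (2 / n) := by
    rcases Nat.eq_zero_or_pos n with h | h
    · simp [h]
    · field_simp; norm_num
  linarith

lemma negCfg_negCfg (x : Cfg n) : negCfg (negCfg x) = x := by funext i; simp [negCfg]

lemma gibbs_negCfg (β : ℝ) (g : Edge n → ℝ) (x : Cfg n) : gibbs β g (negCfg x) = gibbs β g x := by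
  simp [gibbs, energy, negCfg, spin_not]

lemma mean_overlapFun (β : ℝ) (g : Edge n → ℝ) (y : Cfg n) : ∑ x, gibbs β g x * overlapFun y x = 0 := by
  have h := Equiv.sum_comp (Function.Involutive.toPerm negCfg negCfg_negCfg)
    (fun x => gibbs β g x * overlapFun y x)
  have e : ∀ x, gibbs β g (negCfg x) * overlapFun y (negCfg x) = -(gibbs β g x * overlapFun y x) := by
    intro x
    rw [gibbs_negCfg]
    simp only [overlapFun, negCfg, spin_not, neg_mul, Finset.sum_neg_distrib, neg_div, mul_neg]
  have h' : ∑ x, gibbs β g (negCfg x) * overlapFun y (negCfg x) = ∑ x, gibbs β g x * overlapFun y x := h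
  simp only [e, Finset.sum_neg_distrib] at h'
  linarith

lemma gibbsVariance_overlapFun (β : ℝ) (g : Edge n → ℝ) (y : Cfg n) :
    gibbsVariance β g (overlapFun y) = ∑ x, gibbs β g x * qsq x y := by
  rw [gibbsVariance, mean_overlapFun]
  simp [qsq, overlapFun]

lemma overlapSq_le_of_gap (β : ℝ) (g : Edge n → ℝ) {δ : ℝ} (h : GapAtLeast β g δ) :
    δ * overlapSq β g ≤ 2 / n := by
  have h1 : ∀ y, δ * (∑ x, gibbs β g x * qsq x y) ≤ 2 / n := fun y => by
    have := h (overlapFun y)
    rw [gibbsVariance_overlapFun] at this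
    exact this.trans (dirichlet_overlapFun β g y)
  calc δ * overlapSq β g = ∑ y, gibbs β g y * (δ * ∑ x, gibbs β g x * qsq x y) := by
        rw [overlapSq, Finset.sum_comm, Finset.mul_sum]
        refine Finset.sum_congr rfl fun y _ => ?_
        simp only [Finset.mul_sum]
        exact Finset.sum_congr rfl fun x _ => by ring
    _ ≤ ∑ y, gibbs β g y * (2 / n) :=
        Finset.sum_le_sum fun y _ => mul_le_mul_of_nonneg_left (h1 y) (gibbs_pos β g y).le
    _ = 2 / n := by rw [← Finset.sum_mul, gibbs_sum, one_mul]

end Vale.Agent.P150
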