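import Vale.Agent.P150.RSBound

/-! One-spin cavity: the free-energy increment is annealed up to the mean squared overlap. -/

open MeasureTheory ProbabilityTheory

namespace Vale.Agent.P150

variable {n : ℕ}

/-- edges of `n+1` vertices are edges of `n` vertices or edges to the new vertex -/
def edgeMap (n : ℕ) : Edge n ⊕ Fin n → Edge (n + 1) :=
  Sum.elim (fun e => ⟨(e.1.1.castSucc, e.1.2.castSucc), Fin.castSucc_lt_castSucc_iff.2 e.2⟩)
    (fun i => ⟨(i.castSucc, Fin.last n), Fin.castSucc_lt_last i⟩)

lemma edgeMap_bijective (n : ℕ) : Function.Bijective (edgeMap n) := by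
  constructor
  · rintro (e | i) (e' | i') h <;> simp only [edgeMap, Sum.elim_inl, Sum.elim_inr, Subtype.mk.injEq, Prod.mk.injEq] at h
    · exact congrArg Sum.inl (Subtype.ext (Prod.ext (Fin.castSucc_injective _ h.1) (Fin.castSucc_injective _ h.2)))
    · exact absurd h.2 (Fin.castSucc_lt_last e.1.2).ne
    · exact absurd h.2 (Fin.castSucc_lt_last e'.1.2).ne'
    · exact congrArg Sum.inr (Fin.castSucc_injective _ h.1)
  · rintro ⟨⟨a, b⟩, hab⟩
    obtain ⟨a', rfl⟩ := Fin.exists_castSucc_eq.2 (hab.trans_le (Fin.le_last b)).ne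
    rcases Fin.eq_castSucc_or_eq_last b with ⟨b', rfl⟩ | rfl
    · exact ⟨Sum.inl ⟨(a', b'), Fin.castSucc_lt_castSucc_iff.1 hab⟩, rfl⟩
    · exact ⟨Sum.inr a', rfl⟩

/-- the equivalence of edge sets -/
noncomputable def edgeEquiv (n : ℕ) : Edge n ⊕ Fin n ≃ Edge (n + 1) := Equiv.ofBijective _ (edgeMap_bijective n)

/-- couplings on `n+1` sites from couplings on `n` sites and the new row -/
noncomputable def join (p : (Edge n → ℝ) × (Fin n → ℝ)) : Edge (n + 1) → ℝ :=
  fun e => Sum.elim p.1 p.2 ((edgeEquiv n).symm e)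

lemma join_mp (n : ℕ) : MeasurePreserving (join (n := n)) ((disorder n).prod (gauss (Fin n))) (disorder (n + 1)) := by
  have hm : Measurable (join (n := n)) := by
    refine measurable_pi_lambda _ fun e => ?_
    simp only [join]
    cases (edgeEquiv n).symm e with
    | inl a => exact (measurable_pi_apply a).comp measurable_fst
    | inr a => exact (measurable_pi_apply a).comp measurable_snd
  refine ⟨hm, (Measure.pi_eq fun s hs => ?_).symm⟩
  rw [Measure.map_apply hm (MeasurableSet.univ_pi hs)]
  have e : join (n := n) ⁻¹' Set.univ.pi s =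
      (Set.univ.pi fun a => s (edgeEquiv n (Sum.inl a))) ×ˢ (Set.univ.pi fun i => s (edgeEquiv n (Sum.inr i))) := by
    ext p
    simp only [Set.mem_preimage, Set.mem_univ_pi, Set.mem_prod, join]
    constructor
    · intro h
      exact ⟨fun a => by simpa using h (edgeEquiv n (Sum.inl a)), fun i => by simpa using h (edgeEquiv n (Sum.inr i))⟩
    · rintro ⟨h1, h2⟩ d
      obtain ⟨x, rfl⟩ := (edgeEquiv n).surjective d
      rw [Equiv.symm_apply_apply]
      cases x with
      | inl a => exact h1 a
      | inr i => exact h2 i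
  rw [e, Measure.prod_prod, disorder, gauss, Measure.pi_pi, Measure.pi_pi,
    ← Equiv.prod_comp (edgeEquiv n) (fun d => gaussianReal 0 1 (s d)), Fintype.prod_sum_type]

lemma energy_join (hn : 0 < n) (p : (Edge n → ℝ) × (Fin n → ℝ)) (x : Cfg n) (ε : Bool) :
    energy (join p) (Fin.snoc x ε : Cfg (n + 1)) =
      Real.sqrt n / Real.sqrt (n + 1) * energy p.1 x + 1 / Real.sqrt (n + 1) * (spin ε * dot p.2 fun i => spin (x i)) := by
  have hn' : 0 < Real.sqrt (n:ℝ) := Real.sqrt_pos.2 (by exact_mod_cast hn)
  rw [energy, ← Equiv.sum_comp (edgeEquiv n), Fintype.sum_sum_type]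
  have h1 : ∀ a : Edge n, (edgeEquiv n (Sum.inl a)).1 = (a.1.1.castSucc, a.1.2.castSucc) := fun a => rfl
  have h2 : ∀ i : Fin n, (edgeEquiv n (Sum.inr i)).1 = (i.castSucc, Fin.last n) := fun i => rfl
  simp only [join, Equiv.symm_apply_apply, Sum.elim_inl, Sum.elim_inr, h1, h2, Fin.snoc_castSucc, Fin.snoc_last,
    Nat.cast_add, Nat.cast_one, energy]
  have e : ∑ i, p.2 i * spin (x i) * spin ε = spin ε * dot p.2 fun i => spin (x i) := by
    simp only [dot, Finset.mul_sum]
    exact Finset.sum_congr rfl fun i _ => by ring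
  rw [e]
  field_simp

lemma spin_sq_sum (x : Cfg n) (c : ℝ) : ∑ i, (c * spin (x i)) ^ 2 = c ^ 2 * n := by
  simp only [mul_pow, sq (spin _), spin_mul_self, mul_one, Finset.sum_const, Finset.card_univ, Fintype.card_fin, nsmul_eq_mul]
  ring

lemma mgf_cosh (v : Fin n → ℝ) :
    Integrable (fun h => Real.cosh (dot v h)) (gauss (Fin n)) ∧
      ∫ h, Real.cosh (dot v h) ∂gauss (Fin n) = Real.exp ((∑ i, v i ^ 2) / 2) := by
  have hi : ∀ w : Fin n → ℝ, Integrable (fun h => Real.exp (dot w h)) (gauss (Fin n)) := fun w =>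
    integrable_of_bound (C := 1) (M := ∑ i, |w i|) (by unfold dot; fun_prop) fun h => by
      rw [Real.abs_exp, one_mul]
      exact Real.exp_le_exp.2 ((le_abs_self _).trans (abs_dot_le (fun i => Finset.single_le_sum (f := fun i => |w i|) (fun _ _ => abs_nonneg _) (Finset.mem_univ i)) h))
  have hneg : ∀ h, -dot v h = dot (fun i => -v i) h := fun h => by simp [dot]
  simp only [Real.cosh_eq, hneg]
  refine ⟨((hi v).add (hi _)).div_const 2, ?_⟩
  rw [integral_div, integral_add (hi v) (hi _), mgf_dot, mgf_dot]
  simp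

/-- the cavity step -/
theorem cavity_step (hn : 0 < n) {β : ℝ} (hβ : 0 ≤ β) :
    (∫ g, Real.log (Zfun (n := n) β g) ∂disorder n) + (Real.log 2 + β ^ 2 / 4) -
        Real.exp (β ^ 2 + β ^ 4 / 2) * ∫ g, overlapSq β (fun e => Real.sqrt n / Real.sqrt (n + 1) * g e) ∂disorder n ≤
      ∫ g, Real.log (Zfun (n := n + 1) β g) ∂disorder (n + 1) := by
  have hn' : (0:ℝ) < n := by exact_mod_cast hn
  set a := Real.sqrt n / Real.sqrt ((n:ℝ) + 1) with ha
  set b := 1 / Real.sqrt ((n:ℝ) + 1) with hb
  have hs1 : 0 < Real.sqrt ((n:ℝ) + 1) := Real.sqrt_pos.2 (by linarith)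
  have hb2 : b ^ 2 = 1 / (n + 1) := by rw [hb, div_pow, Real.sq_sqrt (by linarith)]; ring
  have hab : a ^ 2 + b ^ 2 = 1 := by
    rw [ha, hb2, div_pow, Real.sq_sqrt hn'.le, Real.sq_sqrt (by linarith)]; field_simp
  set c := β * b with hc
  have hc0 : 0 ≤ c := by rw [hc, hb]; positivity
  have hcn : c ^ 2 * n ≤ β ^ 2 := by
    rw [hc, mul_pow, hb2, mul_assoc]
    refine mul_le_of_le_one_right (sq_nonneg _) ?_
    rw [div_mul_eq_mul_div, one_mul, div_le_one (by linarith)]; linarith
  set D := disorder n
  set sg := fun g : Edge n → ℝ => (fun e => a * g e : Edge n → ℝ)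
  set μ := fun (g : Edge n → ℝ) x => gibbs β (sg g) x
  set Lz := fun g : Edge n → ℝ => Real.log (Zfun β (sg g))
  have iLz : Integrable Lz D := by
    simp only [D, gauss_edge]
    refine integrable_of_bound (C := n + β) (M := 1) ((continuous_logZfun β).comp (by fun_prop)) fun g => ?_
    have hsl : l1 (sg g) ≤ l1 g := Finset.sum_le_sum fun e _ => by
      rw [abs_mul]
      refine mul_le_of_le_one_left (abs_nonneg _) (abs_le.2 ⟨by linarith [show 0 ≤ a by rw [ha]; positivity], ?_⟩)
      rw [ha, div_le_one hs1]; exact Real.sqrt_le_sqrt (by linarith)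
    refine (abs_log_Zfun_le hn hβ (sg g)).trans ?_
    rw [one_mul, add_mul]
    refine add_le_add (le_mul_of_one_le_right hn'.le (Real.one_le_exp (l1_nonneg g))) ?_
    exact mul_le_mul_of_nonneg_left (hsl.trans ((le_add_of_nonneg_right zero_le_one).trans (Real.add_one_le_exp _))) hβ
  -- lower bound on the enlarged system
  set X := fun g h => ∑ x, μ g x * (2 * Real.cosh (dot (fun i => c * spin (x i)) h))
  have hX2 : ∀ g h, 2 ≤ X g h := fun g h => by
    calc (2:ℝ) = ∑ x, μ g x * 2 := by simp only [μ, ← Finset.sum_mul, gibbs_sum, one_mul]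
      _ ≤ _ := Finset.sum_le_sum fun x _ => mul_le_mul_of_nonneg_left (by linarith [Real.one_le_cosh (dot (fun i => c * spin (x i)) h)]) (gibbs_pos β _ x).le
  have hXup : ∀ g h, X g h ≤ 2 * Real.exp (c * l1 h) := fun g h => by
    calc X g h ≤ ∑ x, μ g x * (2 * Real.exp (c * l1 h)) := Finset.sum_le_sum fun x _ => by
          refine mul_le_mul_of_nonneg_left (mul_le_mul_of_nonneg_left ?_ two_pos.le) (gibbs_pos β _ x).le
          have h1 : |dot (fun i => c * spin (x i)) h| ≤ c * l1 h := abs_dot_le (fun i => by
            rw [abs_mul, abs_of_nonneg hc0]; cases x i <;> simp [spin]) h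
          rw [Real.cosh_eq]
          have h2 := Real.exp_le_exp.2 ((le_abs_self _).trans h1)
          have h3 := Real.exp_le_exp.2 ((neg_le_abs _).trans h1)
          linarith
      _ = _ := by simp only [μ, ← Finset.sum_mul, gibbs_sum, one_mul]
  have hfix : ∀ g, Real.log 2 + c ^ 2 * n / 2 - Real.exp (β ^ 2 + β ^ 4 / 2) * overlapSq β (sg g) ≤
      ∫ h, Real.log (X g h) ∂gauss (Fin n) := by
    intro g
    set m := 2 * Real.exp (c ^ 2 * n / 2)
    have hm2 : 2 ≤ m := le_mul_of_one_le_right two_pos.le (Real.one_le_exp (by positivity))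
    have it : ∀ x, Integrable (fun h => μ g x * (2 * Real.cosh (dot (fun i => c * spin (x i)) h))) (gauss (Fin n)) :=
      fun x => (((mgf_cosh _).1.const_mul 2)).const_mul _
    have iX : Integrable (X g) (gauss (Fin n)) := integrable_finsetSum _ fun x _ => it x
    have eX : ∫ h, X g h ∂gauss (Fin n) = m := by
      simp only [X]
      rw [integral_finsetSum _ fun x _ => it x]
      simp only [integral_const_mul, (mgf_cosh _).2, spin_sq_sum, μ, ← Finset.sum_mul, gibbs_sum, one_mul, m]
    have hsq : ∀ h, X g h ^ 2 = ∑ x, ∑ y, μ g x * μ g y *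
        (2 * (Real.cosh (dot (fun i => c * spin (x i) + c * spin (y i)) h) + Real.cosh (dot (fun i => c * spin (x i) - c * spin (y i)) h))) := by
      intro h
      simp only [X, sq, Finset.sum_mul_sum]
      refine Finset.sum_congr rfl fun x _ => Finset.sum_congr rfl fun y _ => ?_
      have ea : dot (fun i => c * spin (x i) + c * spin (y i)) h = dot (fun i => c * spin (x i)) h + dot (fun i => c * spin (y i)) h := by
        simp only [dot, add_mul, Finset.sum_add_distrib]
      have es : dot (fun i => c * spin (x i) - c * spin (y i)) h = dot (fun i => c * spin (x i)) h - dot (fun i => c * spin (y i)) h := by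
        simp only [dot, sub_mul, Finset.sum_sub_distrib]
      rw [ea, es, Real.cosh_add, Real.cosh_sub]; ring
    have ip : ∀ x y, Integrable (fun h => μ g x * μ g y *
        (2 * (Real.cosh (dot (fun i => c * spin (x i) + c * spin (y i)) h) + Real.cosh (dot (fun i => c * spin (x i) - c * spin (y i)) h))))
        (gauss (Fin n)) := fun x y => ((((mgf_cosh _).1).add (mgf_cosh _).1).const_mul 2).const_mul _
    have iX2 : Integrable (fun h => X g h ^ 2) (gauss (Fin n)) := by
      simp only [hsq]; exact integrable_finsetSum _ fun x _ => integrable_finsetSum _ fun y _ => ip x y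
    have eX2 : ∫ h, X g h ^ 2 ∂gauss (Fin n) ≤ m ^ 2 + 4 * Real.exp (β ^ 2 + β ^ 4 / 2) * overlapSq β (sg g) := by
      simp only [hsq]
      rw [integral_finsetSum _ fun x _ => integrable_finsetSum _ fun y _ => ip x y]
      have e : m ^ 2 + 4 * Real.exp (β ^ 2 + β ^ 4 / 2) * overlapSq β (sg g) =
          ∑ x, ∑ y, μ g x * μ g y * (m ^ 2 + 4 * Real.exp (β ^ 2 + β ^ 4 / 2) * qsq x y) := by
        simp only [overlapSq, mul_add, Finset.sum_add_distrib, ← Finset.sum_mul, ← Finset.mul_sum, μ, gibbs_sum, one_mul]
        rw [Finset.mul_sum]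
        congr 1
        refine Finset.sum_congr rfl fun x _ => ?_
        rw [Finset.mul_sum]
        exact Finset.sum_congr rfl fun y _ => by ring
      rw [e]
      refine Finset.sum_le_sum fun x _ => ?_
      rw [integral_finsetSum _ fun y _ => ip x y]
      refine Finset.sum_le_sum fun y _ => ?_
      rw [integral_const_mul, integral_const_mul, integral_add (mgf_cosh _).1 (mgf_cosh _).1, (mgf_cosh _).2, (mgf_cosh _).2]
      refine mul_le_mul_of_nonneg_left ?_ (mul_nonneg (gibbs_pos β _ x).le (gibbs_pos β _ y).le)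
      set R := (∑ i, spin (x i) * spin (y i)) / (n:ℝ)
      have hsum : ∀ σ : ℝ, σ * σ = 1 → ∑ i, (c * spin (x i) + σ * (c * spin (y i))) ^ 2 = 2 * (c ^ 2 * n) + σ * (2 * (c ^ 2 * n) * R) := by
        intro σ hσ
        have e0 : ∑ i, (c * spin (x i) + σ * (c * spin (y i))) ^ 2 =
            ∑ i, ((c * spin (x i)) ^ 2 + (c * spin (y i)) ^ 2 + σ * (2 * c ^ 2 * (spin (x i) * spin (y i)))) :=
          Finset.sum_congr rfl fun i _ => by linear_combination (c * spin (y i)) ^ 2 * hσ
        rw [e0]
        simp only [Finset.sum_add_distrib, spin_sq_sum, ← Finset.mul_sum, R]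
        field_simp; ring
      have e1 := hsum 1 (one_mul 1)
      have e2 := hsum (-1) (by norm_num)
      simp only [one_mul, neg_one_mul, ← sub_eq_add_neg] at e1 e2
      rw [e1, e2]
      set A := c ^ 2 * (n:ℝ)
      have hA : 0 ≤ A := by positivity
      have h1 : Real.exp ((2 * A + 2 * A * R) / 2) + Real.exp ((2 * A - 2 * A * R) / 2) =
          2 * (Real.exp A * Real.cosh (A * R)) := by
        rw [show (2 * A + 2 * A * R) / 2 = A + A * R by ring, show (2 * A - 2 * A * R) / 2 = A + -(A * R) by ring,
          Real.exp_add, Real.exp_add, Real.cosh_eq]; ring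
      rw [h1]
      have h2 : Real.cosh (A * R) ≤ 1 + Real.exp (A ^ 2 / 2) * qsq x y := by
        refine (Real.cosh_le_exp_half_sq _).trans ((le_of_eq ?_).trans (exp_secant (qsq_mem x y).1 (qsq_mem x y).2))
        simp only [qsq, R]; ring_nf
      have h3 : Real.exp A * Real.exp (A ^ 2 / 2) ≤ Real.exp (β ^ 2 + β ^ 4 / 2) := by
        rw [← Real.exp_add]
        refine Real.exp_le_exp.2 (add_le_add hcn ?_)
        have := pow_le_pow_left₀ hA hcn 2
        linarith [show (β ^ 2) ^ 2 = β ^ 4 by ring]
      have h4 := mul_le_mul_of_nonneg_left h2 (Real.exp_pos A).le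
      have h5 := mul_le_mul_of_nonneg_right h3 (qsq_mem x y).1
      have hm : m ^ 2 = 4 * Real.exp A := by
        simp only [m, mul_pow, ← Real.exp_nat_mul, A]; norm_num; ring_nf
      rw [hm]
      linarith
    have pt : ∀ h, Real.log m + (X g h - m) / m - (X g h - m) ^ 2 / 4 ≤ Real.log (X g h) := fun h => by
      have hm0 : 0 < m := by linarith
      have hX0 : 0 < X g h := by linarith [hX2 g h]
      have h1 := Real.log_le_sub_one_of_pos (div_pos hm0 hX0)
      rw [Real.log_div hm0.ne' hX0.ne'] at h1
      have e : m / X g h - 1 = -((X g h - m) / m) + (X g h - m) ^ 2 / (m * X g h) := by field_simp; ring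
      have h4 : (4:ℝ) ≤ m * X g h := by
        have := mul_le_mul hm2 (hX2 g h) two_pos.le (by linarith)
        linarith
      have h5 : (X g h - m) ^ 2 / (m * X g h) ≤ (X g h - m) ^ 2 / 4 := div_le_div_of_nonneg_left (sq_nonneg _) (by norm_num) h4
      linarith
    have i1 : Integrable (fun h => Real.log m + (X g h - m) / m) (gauss (Fin n)) :=
      (integrable_const _).add ((iX.sub (integrable_const m)).div_const m)
    have i2 : Integrable (fun h => (X g h - m) ^ 2 / 4) (gauss (Fin n)) := by
      simp only [sub_sq]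
      exact ((iX2.sub ((iX.const_mul 2).mul_const m)).add (integrable_const _)).div_const 4
    have il : Integrable (fun h => Real.log (X g h)) (gauss (Fin n)) :=
      integrable_of_bound (C := 1 + c) (M := 1) (Continuous.log (by simp only [X, dot]; fun_prop) fun h => by linarith [hX2 g h]) fun h => by
        have h0 : 0 ≤ Real.log (X g h) := Real.log_nonneg (by linarith [hX2 g h])
        rw [abs_of_nonneg h0, one_mul, add_mul, one_mul]
        refine (Real.log_le_log (by linarith [hX2 g h]) (hXup g h)).trans ?_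
        rw [Real.log_mul two_ne_zero (Real.exp_pos _).ne', Real.log_exp]
        exact add_le_add ((by linarith [Real.log_le_sub_one_of_pos (two_pos (α := ℝ))] : Real.log 2 ≤ 1).trans (Real.one_le_exp (l1_nonneg h)))
          (mul_le_mul_of_nonneg_left ((le_add_of_nonneg_right zero_le_one).trans (Real.add_one_le_exp _)) hc0)
    refine le_trans ?_ (integral_mono (i1.sub i2) il pt)
    have i0 : Integrable (fun h => (X g h - m) / m) (gauss (Fin n)) := (iX.sub (integrable_const m)).div_const m
    rw [integral_sub' i1 i2, integral_add (integrable_const _) i0,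
      integral_div, integral_sub iX (integrable_const m), integral_div]
    have e3 : ∫ h, (X g h - m) ^ 2 ∂gauss (Fin n) = (∫ h, X g h ^ 2 ∂gauss (Fin n)) - m ^ 2 := by
      simp only [sub_sq]
      have i3 : Integrable (fun h => X g h ^ 2 - 2 * X g h * m) (gauss (Fin n)) := iX2.sub ((iX.const_mul 2).mul_const m)
      rw [integral_add i3 (integrable_const _), integral_sub iX2 ((iX.const_mul 2).mul_const m),
        integral_mul_const, integral_const_mul, eX]
      simp; ring
    simp only [e3, integral_const, probReal_univ, one_smul, eX, sub_self, zero_div, add_zero]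
    rw [show Real.log m = Real.log 2 + c ^ 2 * n / 2 by
      simp only [m]; rw [Real.log_mul two_ne_zero (Real.exp_pos _).ne', Real.log_exp]]
    linarith
  have hbig : ∀ g h, Real.log (Zfun β (join (g, h))) = Lz g + Real.log (X g h) := fun g h => by
    have hZ : Zfun β (join (g, h)) = Zfun β (sg g) * X g h := by
      have e : X g h = ∑ x, μ g x * Real.exp (Real.log (2 * Real.cosh (dot (fun i => c * spin (x i)) h))) :=
        Finset.sum_congr rfl fun x _ => by rw [Real.exp_log (mul_pos two_pos (Real.cosh_pos _))]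
      rw [e, ← Zfun_tilt, Zfun, ← Equiv.sum_comp (Fin.snocEquiv fun _ : Fin (n + 1) => Bool), Fintype.sum_prod_type,
        Finset.sum_comm]
      refine Finset.sum_congr rfl fun x _ => ?_
      have he : ∀ ε, β * energy (join (g, h)) (Fin.snoc x ε : Cfg (n + 1)) =
          β * energy (sg g) x + spin ε * dot (fun i => c * spin (x i)) h := fun ε => by
        rw [energy_join hn, energy_scale]
        simp only [dot, hc, Finset.mul_sum, ha, hb, mul_add]
        rw [← mul_assoc β]
        exact congrArg₂ (· + ·) (by ring) (Finset.sum_congr rfl fun i _ => by ring)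
      simp only [Fintype.sum_bool, Fin.snocEquiv_apply, Real.exp_log (mul_pos two_pos (Real.cosh_pos _))]
      show Real.exp (β * energy (join (g, h)) (Fin.snoc x true)) + Real.exp (β * energy (join (g, h)) (Fin.snoc x false)) = _
      rw [he, he]
      simp only [spin, if_true, Bool.false_eq_true, if_false, one_mul, neg_one_mul, Real.exp_add, Real.cosh_eq]
      ring
    have hp : 0 < Zfun β (sg g) := partition_pos β _
    rw [hZ, Real.log_mul hp.ne' (by linarith [hX2 g h])]
  -- the original system as a perturbation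
  have hsmall : ∀ g, ∫ w, Real.log (∑ x, μ g x * Real.exp (c * energy w x)) ∂D ≤ c ^ 2 * ((n:ℝ) - 1) / 4 := by
    intro g
    have hpos : ∀ w, 0 < ∑ x, μ g x * Real.exp (c * energy w x) := fun w =>
      Finset.sum_pos (fun x _ => mul_pos (gibbs_pos β _ x) (Real.exp_pos _)) Finset.univ_nonempty
    have it : ∀ x, Integrable (fun w => μ g x * Real.exp (c * energy w x)) D := fun x => (mgf_energy hn c x).2.const_mul _
    have hI : Integrable (fun w => Real.log (∑ x, μ g x * Real.exp (c * energy w x))) D := by
      simp only [D, gauss_edge]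
      refine integrable_of_bound (C := c) (M := 1) (Continuous.log (continuous_finsetSum _ fun x _ =>
        continuous_const.mul ((continuous_energy' x).const_mul c).rexp) fun w => (hpos w).ne') fun w => ?_
      rw [one_mul]
      refine le_trans ?_ (mul_le_mul_of_nonneg_left ((le_add_of_nonneg_right zero_le_one).trans (Real.add_one_le_exp (l1 w))) hc0)
      have hb : ∀ x, |c * energy w x| ≤ c * l1 w := fun x => by
        rw [abs_mul, abs_of_nonneg hc0]; exact mul_le_mul_of_nonneg_left (abs_energy_le_l1 hn w x) hc0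
      have hone : ∀ v : ℝ, ∑ x, μ g x * v = v := fun v => by simp only [μ, ← Finset.sum_mul, gibbs_sum, one_mul]
      rw [abs_le]
      constructor
      · refine (Real.le_log_iff_exp_le (hpos w)).2 ((hone _).symm.trans_le ?_)
        exact Finset.sum_le_sum fun x _ => mul_le_mul_of_nonneg_left (Real.exp_le_exp.2 (abs_le.1 (hb x)).1) (gibbs_pos β _ x).le
      · refine (Real.log_le_iff_le_exp (hpos w)).2 (le_of_le_of_eq ?_ (hone _))
        exact Finset.sum_le_sum fun x _ => mul_le_mul_of_nonneg_left (Real.exp_le_exp.2 (abs_le.1 (hb x)).2) (gibbs_pos β _ x).le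
    refine (jensen_log hpos (Real.exp_pos (c ^ 2 * ((n:ℝ) - 1) / 4)) (integrable_finsetSum _ fun x _ => it x) (le_of_eq ?_) hI).trans_eq (Real.log_exp _)
    rw [integral_finsetSum _ fun x _ => it x]
    simp only [D, integral_const_mul, fun x => (mgf_energy hn c x).1, μ, ← Finset.sum_mul, gibbs_sum, one_mul]
  set P := fun z : (Edge n → ℝ) × (Edge n → ℝ) => (fun e => a * z.1 e + b * z.2 e : Edge n → ℝ)
  have hP : MeasurePreserving P (D.prod D) D := measurePreserving_fst.comp (rotation a b hab)
  have hsplit : ∀ g w, Real.log (Zfun β (P (g, w))) = Lz g + Real.log (∑ x, μ g x * Real.exp (c * energy w x)) := fun g w => by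
    have e : Zfun β (P (g, w)) = Zfun β (sg g) * ∑ x, μ g x * Real.exp (c * energy w x) := by
      rw [← Zfun_tilt]
      refine Finset.sum_congr rfl fun x _ => ?_
      rw [← Real.exp_add, energy_lin, energy_scale, hc]; ring_nf
    have hp : 0 < Zfun β (sg g) := partition_pos β _
    rw [e, Real.log_mul hp.ne' (Finset.sum_pos (fun x _ => mul_pos (gibbs_pos β _ x) (Real.exp_pos _)) Finset.univ_nonempty).ne']
  have iF := hP.integrable_comp_of_integrable (integrable_logZfun hn hβ)
  have eF : ∫ g, Real.log (Zfun β g) ∂D = ∫ g, ∫ w, Real.log (Zfun β (P (g, w))) ∂D ∂D := by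
    conv_lhs => rw [← hP.map_eq]
    rw [integral_map hP.measurable.aemeasurable (continuous_logZfun β).aestronglyMeasurable]
    exact integral_prod _ iF
  have iG := (join_mp n).integrable_comp_of_integrable (integrable_logZfun (Nat.succ_pos n) hβ)
  have eG : ∫ g, Real.log (Zfun β g) ∂disorder (n + 1) = ∫ g, ∫ h, Real.log (Zfun β (join (g, h))) ∂gauss (Fin n) ∂D := by
    conv_lhs => rw [← (join_mp n).map_eq]
    rw [integral_map (join_mp n).measurable.aemeasurable (continuous_logZfun β).aestronglyMeasurable]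
    exact integral_prod _ iG
  have iO : Integrable (fun g => overlapSq β (sg g)) D := by
    refine Integrable.of_bound ((measurable_overlapSq β).comp (by fun_prop)).aestronglyMeasurable 1 (Filter.Eventually.of_forall fun g => ?_)
    unfold overlapSq
    rw [Real.norm_eq_abs, abs_of_nonneg (Finset.sum_nonneg fun x _ => Finset.sum_nonneg fun y _ =>
      mul_nonneg (mul_nonneg (gibbs_pos β _ x).le (gibbs_pos β _ y).le) (qsq_mem x y).1)]
    calc _ ≤ ∑ x, ∑ y, gibbs β (sg g) x * gibbs β (sg g) y * 1 := Finset.sum_le_sum fun x _ =>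
          Finset.sum_le_sum fun y _ => mul_le_mul_of_nonneg_left (qsq_mem x y).2 (mul_nonneg (gibbs_pos β _ x).le (gibbs_pos β _ y).le)
      _ = 1 := by simp only [mul_one, ← Finset.mul_sum, gibbs_sum]
  have hup : ∫ g, Real.log (Zfun β g) ∂D ≤ (∫ g, Lz g ∂D) + c ^ 2 * ((n:ℝ) - 1) / 4 := by
    rw [eF]
    refine (integral_mono_ae iF.integral_prod_left (iLz.add (integrable_const (c ^ 2 * ((n:ℝ) - 1) / 4))) (iF.prod_right_ae.mono fun g hg => ?_)).trans (le_of_eq ?_)
    · simp only [Function.comp_apply, hsplit] at hg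
      have hg' : Integrable (fun w => Real.log (∑ x, μ g x * Real.exp (c * energy w x))) D := by
        have := hg.sub (integrable_const (Lz g))
        simpa [Pi.sub_def] using this
      show ∫ w, Real.log (Zfun β (P (g, w))) ∂D ≤ Lz g + c ^ 2 * ((n:ℝ) - 1) / 4
      simp only [hsplit]
      rw [integral_add (integrable_const _) hg']
      simp only [integral_const, probReal_univ, one_smul]
      linarith [hsmall g]
    · rw [integral_add' iLz (integrable_const _)]; simp
  have hlow : (∫ g, Lz g ∂D) + (Real.log 2 + c ^ 2 * n / 2) - Real.exp (β ^ 2 + β ^ 4 / 2) * ∫ g, overlapSq β (sg g) ∂D ≤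
      ∫ g, Real.log (Zfun β g) ∂disorder (n + 1) := by
    rw [eG]
    have iB : Integrable (fun g => Lz g + (Real.log 2 + c ^ 2 * n / 2)) D := iLz.add (integrable_const _)
    refine le_trans (le_of_eq ?_) (integral_mono_ae (iB.sub (iO.const_mul (Real.exp (β ^ 2 + β ^ 4 / 2)))) iG.integral_prod_left
      (iG.prod_right_ae.mono fun g hg => ?_))
    · rw [integral_sub' iB (iO.const_mul _), integral_add iLz (integrable_const _), integral_const_mul]
      simp
    · simp only [Function.comp_apply, hbig] at hg
      have hg' : Integrable (fun h => Real.log (X g h)) (gauss (Fin n)) := by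
        have := hg.sub (integrable_const (Lz g))
        simpa [Pi.sub_def] using this
      show Lz g + (Real.log 2 + c ^ 2 * n / 2) - Real.exp (β ^ 2 + β ^ 4 / 2) * overlapSq β (sg g) ≤
        ∫ h, Real.log (Zfun β (join (g, h))) ∂gauss (Fin n)
      simp only [hbig]
      rw [integral_add (integrable_const _) hg']
      simp only [integral_const, probReal_univ, one_smul]
      linarith [hfix g]
  have hid : c ^ 2 * (n:ℝ) / 2 - c ^ 2 * ((n:ℝ) - 1) / 4 = β ^ 2 / 4 := by
    rw [hc, mul_pow, hb2]; field_simp; ring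
  simp only [D, sg, ha] at hup hlow ⊢
  linarith

end Vale.Agent.P150
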