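import Vale.Agent.P150.RSStrict

/-! Gaussian concentration for coordinatewise Lipschitz functions and for the free energy. -/

open MeasureTheory ProbabilityTheory

namespace Vale.Agent.P150

section General

variable {ι : Type*} [Fintype ι]

/-- coordinatewise Lipschitz -/
def CoordLip (L : ι → ℝ) (f : (ι → ℝ) → ℝ) : Prop := ∀ z w, |f z - f w| ≤ ∑ k, L k * |z k - w k|

lemma CoordLip.abs_le {L : ι → ℝ} {f : (ι → ℝ) → ℝ} (h : CoordLip L f) (z : ι → ℝ) :
    |f z| ≤ |f 0| + (∑ k, |L k|) * l1 z := by
  have h1 := h z 0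
  have h2 : ∑ k, L k * |z k - (0 : ι → ℝ) k| ≤ (∑ k, |L k|) * l1 z := by
    rw [Finset.sum_mul]
    refine Finset.sum_le_sum fun k _ => ?_
    simp only [Pi.zero_apply, sub_zero]
    exact mul_le_mul (le_abs_self _) (abs_le_l1 z k) (abs_nonneg _) (abs_nonneg _)
  linarith [abs_sub_abs_le_abs_sub (f z) (f 0)]

lemma CoordLip.integrable {L : ι → ℝ} {f : (ι → ℝ) → ℝ} (h : CoordLip L f) (hf : Continuous f) :
    Integrable f (gauss ι) ∧ Integrable (fun z => Real.exp (f z)) (gauss ι) := by
  constructor
  · refine integrable_of_bound (C := |f 0| + ∑ k, |L k|) (M := 1) hf fun z => (h.abs_le z).trans ?_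
    rw [one_mul, add_mul]
    exact add_le_add (le_mul_of_one_le_right (abs_nonneg _) (Real.one_le_exp (l1_nonneg z)))
      (mul_le_mul_of_nonneg_left ((le_add_of_nonneg_right zero_le_one).trans (Real.add_one_le_exp _))
        (Finset.sum_nonneg fun _ _ => abs_nonneg _))
  · refine integrable_of_bound (C := Real.exp |f 0|) (M := ∑ k, |L k|) hf.rexp fun z => ?_
    rw [Real.abs_exp, ← Real.exp_add]
    exact Real.exp_le_exp.2 ((le_abs_self _).trans (h.abs_le z))

end General

lemma exp_diff_one {L : ℝ} {F : ℝ → ℝ} (hF : Continuous F) (h : ∀ t s, |F t - F s| ≤ L * |t - s|) :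
    Integrable F (gaussianReal 0 1) ∧ Integrable (fun t => Real.exp (F t)) (gaussianReal 0 1) ∧
      ∫ t, Real.exp (F t) ∂gaussianReal 0 1 ≤ Real.exp (∫ t, F t ∂gaussianReal 0 1 + L ^ 2) := by
  have hb : ∀ t, |F t| ≤ |F 0| + L * |t| := fun t => by
    have := h t 0
    rw [sub_zero] at this
    linarith [abs_sub_abs_le_abs_sub (F t) (F 0)]
  have hL : 0 ≤ L := by
    have := h 1 0
    rw [sub_zero, abs_one, mul_one] at this
    exact (abs_nonneg _).trans this
  have iE : ∀ σ : ℝ, |σ| = 1 → Integrable (fun t => Real.exp (σ * F t)) (gaussianReal 0 1) := fun σ hσ => by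
    refine integrable_of_abs_bound (C := Real.exp |F 0|) (M := L) (by fun_prop) fun t => ?_
    rw [Real.abs_exp, ← Real.exp_add]
    refine Real.exp_le_exp.2 ((le_abs_self _).trans ?_)
    rw [abs_mul, hσ, one_mul]; exact hb t
  have i1 : Integrable (fun t => Real.exp (F t)) (gaussianReal 0 1) := by simpa using iE 1 abs_one
  have i2 : Integrable (fun t => Real.exp (-F t)) (gaussianReal 0 1) := by simpa using iE (-1) (by norm_num)
  have iF : Integrable F (gaussianReal 0 1) := integrable_of_abs_bound (C := |F 0| + L) (M := 1) hF fun t => by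
    rw [one_mul, add_mul]
    exact (hb t).trans (add_le_add (le_mul_of_one_le_right (abs_nonneg _) (Real.one_le_exp (abs_nonneg t)))
      (mul_le_mul_of_nonneg_left ((le_add_of_nonneg_right zero_le_one).trans (Real.add_one_le_exp _)) hL))
  refine ⟨iF, i1, ?_⟩
  set M := ∫ t, F t ∂gaussianReal 0 1
  have hJ : Real.exp (-M) ≤ ∫ t, Real.exp (-F t) ∂gaussianReal 0 1 := by
    have pt : ∀ t, Real.exp (-M) * (1 + M - F t) ≤ Real.exp (-F t) := fun t => by
      have := mul_le_mul_of_nonneg_left (Real.add_one_le_exp (M - F t)) (Real.exp_pos (-M)).le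
      rw [← Real.exp_add, show -M + (M - F t) = -F t by ring] at this
      linarith
    have := integral_mono (((integrable_const (1 + M)).sub iF).const_mul _) i2 pt
    simp only [Pi.sub_apply] at this
    rw [integral_const_mul, integral_sub (integrable_const _) iF] at this
    simpa [M] using this
  have iP : ∀ (u v : ℝ → ℝ), Integrable u (gaussianReal 0 1) → Integrable v (gaussianReal 0 1) →
      Integrable (fun p : ℝ × ℝ => u p.1 * v p.2) ((gaussianReal 0 1).prod (gaussianReal 0 1)) := fun u v hu hv =>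
    hu.mul_prod hv
  have hexp : ∀ c : ℝ, Integrable (fun t : ℝ => Real.exp (c * t)) (gaussianReal 0 1) ∧
      ∫ t, Real.exp (c * t) ∂gaussianReal 0 1 = Real.exp (c ^ 2 / 2) := fun c => by
    refine ⟨integrable_exp_mul_gaussianReal c, ?_⟩
    have := congrFun (mgf_id_gaussianReal (μ := 0) (v := 1)) c
    simpa [mgf, id] using this
  have key : (∫ t, Real.exp (F t) ∂gaussianReal 0 1) * ∫ t, Real.exp (-F t) ∂gaussianReal 0 1 ≤ Real.exp (L ^ 2) := by
    set P := (∫ t, Real.exp (F t) ∂gaussianReal 0 1) * ∫ t, Real.exp (-F t) ∂gaussianReal 0 1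
    have e1 := integral_prod_mul (μ := gaussianReal 0 1) (ν := gaussianReal 0 1) (fun t => Real.exp (F t)) fun t => Real.exp (-F t)
    have e2 := integral_prod_mul (μ := gaussianReal 0 1) (ν := gaussianReal 0 1) (fun t => Real.exp (-F t)) fun t => Real.exp (F t)
    have e3 := integral_prod_mul (μ := gaussianReal 0 1) (ν := gaussianReal 0 1) (fun t => Real.exp (L * t)) fun t => Real.exp (-L * t)
    have e4 := integral_prod_mul (μ := gaussianReal 0 1) (ν := gaussianReal 0 1) (fun t => Real.exp (-L * t)) fun t => Real.exp (L * t)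
    rw [(hexp L).2, (hexp (-L)).2, ← Real.exp_add, show L ^ 2 / 2 + (-L) ^ 2 / 2 = L ^ 2 by ring] at e3
    rw [(hexp L).2, (hexp (-L)).2, ← Real.exp_add, show (-L) ^ 2 / 2 + L ^ 2 / 2 = L ^ 2 by ring] at e4
    have hm := integral_mono ((iP _ _ i1 i2).add (iP _ _ i2 i1)) ((iP _ _ (hexp L).1 (hexp (-L)).1).add (iP _ _ (hexp (-L)).1 (hexp L).1))
      fun p => by
        simp only [Pi.add_apply, ← Real.exp_add]
        have h2 : |F p.1 - F p.2| ≤ |L * (p.1 - p.2)| := by rw [abs_mul, abs_of_nonneg hL]; exact h _ _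
        have h3 := Real.cosh_le_cosh.2 h2
        rw [Real.cosh_eq, Real.cosh_eq] at h3
        rw [show F p.1 + -F p.2 = F p.1 - F p.2 by ring, show -F p.1 + F p.2 = -(F p.1 - F p.2) by ring,
          show L * p.1 + -L * p.2 = L * (p.1 - p.2) by ring, show -L * p.1 + L * p.2 = -(L * (p.1 - p.2)) by ring]
        linarith
    rw [integral_add' (iP _ _ i1 i2) (iP _ _ i2 i1), integral_add' (iP _ _ (hexp L).1 (hexp (-L)).1) (iP _ _ (hexp (-L)).1 (hexp L).1),
      e1, e2, e3, e4, mul_comm (∫ t, Real.exp (-F t) ∂gaussianReal 0 1)] at hm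
    linarith
  have h5 := (mul_le_mul_of_nonneg_left hJ (integral_nonneg fun t => (Real.exp_pos (F t)).le)).trans key
  rw [Real.exp_neg, ← div_eq_mul_inv, div_le_iff₀ (Real.exp_pos M)] at h5
  rw [Real.exp_add, mul_comm]; exact h5

lemma conc_fin : ∀ (m : ℕ) (L : Fin m → ℝ) (f : (Fin m → ℝ) → ℝ), Continuous f → CoordLip L f →
    ∫ z, Real.exp (f z) ∂gauss (Fin m) ≤ Real.exp (∫ z, f z ∂gauss (Fin m) + ∑ k, L k ^ 2) := by
  intro m
  induction m with
  | zero =>
    intro L f hf hl
    have e : ∀ z : Fin 0 → ℝ, z = 0 := fun z => Subsingleton.elim _ _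
    have e1 : ∀ g : (Fin 0 → ℝ) → ℝ, ∫ z, g z ∂gauss (Fin 0) = g 0 := fun g => by
      rw [integral_congr_ae (g := fun _ => g 0) (Filter.Eventually.of_forall fun z => by rw [e z])]; simp
    simp [e1]
  | succ m ih =>
    intro L f hf hl
    set E := MeasurableEquiv.piFinSuccAbove (fun _ : Fin (m + 1) => ℝ) 0
    have hmp : MeasurePreserving E (gauss (Fin (m + 1))) ((gaussianReal 0 1).prod (gauss (Fin m))) :=
      measurePreserving_piFinSuccAbove (fun _ => gaussianReal 0 1) 0
    set f' := fun t w => f (Fin.cons t w : Fin (m + 1) → ℝ)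
    have hE : ∀ z, f' (E z).1 (E z).2 = f z := fun z => by
      simp only [f', E, MeasurableEquiv.piFinSuccAbove_apply]
      congr 1; funext k; cases k using Fin.cases <;> simp [Fin.tail]
    have hL' : ∀ t, CoordLip (fun k => L k.succ) (f' t) := fun t z w => by
      have := hl (Fin.cons t z) (Fin.cons t w)
      rw [Fin.sum_univ_succ] at this
      simpa [f'] using this
    have hc' : ∀ t, Continuous (f' t) := fun t => hf.comp (by fun_prop)
    have iF : Integrable (fun p : ℝ × (Fin m → ℝ) => f' p.1 p.2) ((gaussianReal 0 1).prod (gauss (Fin m))) := by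
      rw [← hmp.integrable_comp_emb E.measurableEmbedding]
      exact (hl.integrable hf).1.congr (Filter.Eventually.of_forall fun z => (hE z).symm)
    have iE : Integrable (fun p : ℝ × (Fin m → ℝ) => Real.exp (f' p.1 p.2)) ((gaussianReal 0 1).prod (gauss (Fin m))) := by
      rw [← hmp.integrable_comp_emb E.measurableEmbedding]
      exact (hl.integrable hf).2.congr (Filter.Eventually.of_forall fun z => congrArg Real.exp (hE z).symm)
    have eF : ∫ z, f z ∂gauss (Fin (m + 1)) = ∫ t, ∫ w, f' t w ∂gauss (Fin m) ∂gaussianReal 0 1 := by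
      rw [← integral_congr_ae (Filter.Eventually.of_forall hE), hmp.integral_comp' (g := fun p => f' p.1 p.2)]
      exact integral_prod _ iF
    have eE : ∫ z, Real.exp (f z) ∂gauss (Fin (m + 1)) = ∫ t, ∫ w, Real.exp (f' t w) ∂gauss (Fin m) ∂gaussianReal 0 1 := by
      rw [← integral_congr_ae (Filter.Eventually.of_forall fun z => congrArg Real.exp (hE z)),
        hmp.integral_comp' (g := fun p => Real.exp (f' p.1 p.2))]
      exact integral_prod _ iE
    set F := fun t => ∫ w, f' t w ∂gauss (Fin m)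
    have hFl : ∀ t s, |F t - F s| ≤ L 0 * |t - s| := fun t s => by
      simp only [F]
      rw [← integral_sub ((hL' t).integrable (hc' t)).1 ((hL' s).integrable (hc' s)).1]
      refine (abs_integral_le_integral_abs).trans ?_
      refine (integral_mono_of_nonneg (g := fun _ => L 0 * |t - s|) (Filter.Eventually.of_forall fun w => abs_nonneg _) (integrable_const _)
        (Filter.Eventually.of_forall fun w => ?_)).trans_eq (by simp)
      have := hl (Fin.cons t w) (Fin.cons s w)
      rw [Fin.sum_univ_succ] at this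
      simpa [f'] using this
    have hFc : Continuous F := by
      refine LipschitzWith.continuous (K := (L 0).toNNReal) (LipschitzWith.of_dist_le_mul fun t s => ?_)
      rw [Real.dist_eq, Real.dist_eq]
      exact (hFl t s).trans (mul_le_mul_of_nonneg_right (Real.le_coe_toNNReal _) (abs_nonneg _))
    obtain ⟨-, iEF, hone⟩ := exp_diff_one hFc hFl
    set S := ∑ k : Fin m, L k.succ ^ 2
    rw [eF, eE, Fin.sum_univ_succ]
    refine (integral_mono iE.integral_prod_left (iEF.const_mul (Real.exp S)) fun t => ?_).trans ?_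
    · refine (ih _ (f' t) (hc' t) (hL' t)).trans (le_of_eq ?_)
      rw [Real.exp_add, mul_comm]
    · rw [integral_const_mul]
      refine (mul_le_mul_of_nonneg_left hone (Real.exp_pos S).le).trans (le_of_eq ?_)
      rw [← Real.exp_add]; congr 1; simp only [F]; ring

/-- exponential concentration -/
theorem gauss_conc {ι : Type*} [Fintype ι] {L : ι → ℝ} {f : (ι → ℝ) → ℝ} (hf : Continuous f) (hl : CoordLip L f) :
    ∫ z, Real.exp (f z) ∂gauss ι ≤ Real.exp (∫ z, f z ∂gauss ι + ∑ k, L k ^ 2) := by
  set e := (Fintype.equivFin ι).symm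
  set E := MeasurableEquiv.piCongrLeft (fun _ : ι => ℝ) e
  have hmp : MeasurePreserving E (gauss (Fin (Fintype.card ι))) (gauss ι) :=
    measurePreserving_piCongrLeft (fun _ => gaussianReal 0 1) e
  have hE : ∀ z i, E z (e i) = z i := fun z i => MeasurableEquiv.piCongrLeft_apply_apply _ _ _
  have hl' : CoordLip (fun i => L (e i)) fun z => f (E z) := fun z w => by
    refine (hl (E z) (E w)).trans (le_of_eq ?_)
    rw [← Equiv.sum_comp e]
    simp only [hE]
  have hc : Continuous fun z => f (E z) := by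
    refine hf.comp (continuous_pi fun k => ?_)
    obtain ⟨i, rfl⟩ := e.surjective k
    simp only [hE]; fun_prop
  have := conc_fin _ _ _ hc hl'
  rwa [hmp.integral_comp' (g := fun z => Real.exp (f z)), hmp.integral_comp' (g := f), Equiv.sum_comp e fun k => L k ^ 2] at this

variable {n : ℕ}

lemma energy_lip (g w : Edge n → ℝ) (x : Cfg n) :
    |energy g x - energy w x| ≤ ∑ e, 1 / Real.sqrt n * |g e - w e| := by
  rw [energy_coef, energy_coef, ← Finset.sum_sub_distrib]
  refine (Finset.abs_sum_le_sum_abs _ _).trans (Finset.sum_le_sum fun e _ => le_of_eq ?_)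
  rw [← mul_sub, abs_mul, coef, abs_div, abs_mul, abs_of_nonneg (Real.sqrt_nonneg (n:ℝ))]
  have hs : ∀ b, |spin b| = 1 := fun b => by cases b <;> simp [spin]
  rw [hs, hs, one_mul]

lemma logZ_lip {β : ℝ} (hβ : 0 ≤ β) (s : ℝ) :
    CoordLip (fun _ : Edge n => |s| * (β / Real.sqrt n)) fun g => s * Real.log (Zfun β g) := by
  intro g w
  have key : ∀ g w : Edge n → ℝ, Real.log (Zfun β g) - Real.log (Zfun β w) ≤ β / Real.sqrt n * ∑ e, |g e - w e| := by
    intro g w
    rw [Finset.mul_sum]
    set d := ∑ e, β / Real.sqrt n * |g e - w e| with hd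
    have : Zfun β g ≤ Real.exp d * Zfun β w := by
      rw [Zfun, Zfun, Finset.mul_sum]
      refine Finset.sum_le_sum fun x _ => ?_
      rw [← Real.exp_add]
      refine Real.exp_le_exp.2 ?_
      have h := mul_le_mul_of_nonneg_left ((le_abs_self _).trans (energy_lip g w x)) hβ
      rw [Finset.mul_sum] at h
      have e : d = ∑ e, β * (1 / Real.sqrt n * |g e - w e|) := Finset.sum_congr rfl fun e _ => by ring
      rw [e]; linarith
    have h := Real.log_le_log (show 0 < Zfun β g from partition_pos β g) this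
    rw [Real.log_mul (Real.exp_pos _).ne' (show Zfun β w ≠ 0 from (partition_pos β w).ne'), Real.log_exp] at h
    linarith
  show |s * Real.log (Zfun β g) - s * Real.log (Zfun β w)| ≤ _
  rw [← mul_sub, abs_mul]
  simp only [mul_assoc, ← Finset.mul_sum]
  refine mul_le_mul_of_nonneg_left (abs_le.2 ⟨?_, key g w⟩) (abs_nonneg _)
  have := key w g
  simp only [fun e => abs_sub_comm (w e) (g e)] at this
  linarith

lemma sum_lip_sq (hn : 0 < n) (β s : ℝ) :
    ∑ _e : Edge n, (|s| * (β / Real.sqrt n)) ^ 2 ≤ s ^ 2 * β ^ 2 * n := by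
  have hn' : (0:ℝ) < n := by exact_mod_cast hn
  have hc : Fintype.card (Edge n) ≤ n * n := by
    simpa using Fintype.card_subtype_le fun p : Fin n × Fin n => p.1 < p.2
  have hc' : (Fintype.card (Edge n) : ℝ) ≤ n * n := by exact_mod_cast hc
  rw [Finset.sum_const, Finset.card_univ, nsmul_eq_mul, mul_pow, sq_abs, div_pow, Real.sq_sqrt hn'.le]
  refine (mul_le_mul_of_nonneg_right hc' (by positivity)).trans (le_of_eq ?_)
  field_simp

/-- moment generating function of the free energy -/
lemma logZ_mgf (hn : 0 < n) {β : ℝ} (hβ : 0 ≤ β) (s : ℝ) :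
    Integrable (fun g => Real.exp (s * Real.log (Zfun (n := n) β g))) (disorder n) ∧
    ∫ g, Real.exp (s * Real.log (Zfun β g)) ∂disorder n ≤
      Real.exp (s * ∫ g, Real.log (Zfun β g) ∂disorder n + s ^ 2 * β ^ 2 * n) := by
  have hc : Continuous fun g : Edge n → ℝ => s * Real.log (Zfun β g) := (continuous_logZfun β).const_mul s
  simp only [gauss_edge]
  refine ⟨((logZ_lip hβ s).integrable hc).2, ?_⟩
  refine (gauss_conc hc (logZ_lip hβ s)).trans (Real.exp_le_exp.2 ?_)
  rw [integral_const_mul]
  linarith [sum_lip_sq hn β s]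

/-- concentration of the free energy on either side -/
lemma logZ_tail (hn : 0 < n) {β σ ε : ℝ} (hβ : 0 < β) (hσ : σ = 1 ∨ σ = -1) (hε : 0 < ε) :
    (disorder n).real {g | ε * n ≤ σ * (Real.log (Zfun β g) - ∫ w, Real.log (Zfun β w) ∂disorder n)} ≤
      Real.exp (-(ε ^ 2 / (4 * β ^ 2) * n)) := by
  set t := ε / (2 * β ^ 2) with ht
  have ht0 : 0 < t := by positivity
  set F := ∫ w, Real.log (Zfun β w) ∂disorder n
  obtain ⟨hi, hm⟩ := logZ_mgf hn hβ.le (σ * t)
  have hσ2 : σ ^ 2 = 1 := by rcases hσ with h | h <;> rw [h] <;> norm_num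
  set A := {g : Edge n → ℝ | ε * n ≤ σ * (Real.log (Zfun β g) - F)}
  have hA : MeasurableSet A := measurableSet_le measurable_const
    (((continuous_logZfun β).measurable.sub_const F).const_mul σ)
  have h1 : Real.exp (t * (ε * n) + σ * t * F) * (disorder n).real A ≤
      ∫ g, Real.exp (σ * t * Real.log (Zfun β g)) ∂disorder n := by
    rw [mul_comm, ← smul_eq_mul, ← integral_indicator_const _ hA]
    refine integral_mono ((integrable_const _).indicator hA) hi fun g => ?_
    by_cases hg : g ∈ A
    · rw [Set.indicator_of_mem hg]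
      refine Real.exp_le_exp.2 ?_
      have := mul_le_mul_of_nonneg_left (show ε * n ≤ σ * (Real.log (Zfun β g) - F) from hg) ht0.le
      linarith
    · rw [Set.indicator_of_notMem hg]; positivity
  have h2 := h1.trans hm
  rw [mul_comm, ← le_div_iff₀ (Real.exp_pos _), ← Real.exp_sub] at h2
  refine h2.trans (Real.exp_le_exp.2 (le_of_eq ?_))
  rw [mul_pow, hσ2, ht]
  field_simp
  ring

end Vale.Agent.P150
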