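import Vale.Agent.P150.MeanEnergy
import Vale.Agent.P150.SuperAdd

/-! The mean squared overlap tends to zero up to and including the critical temperature. -/

open MeasureTheory ProbabilityTheory

namespace Vale.Agent.P150

variable {n : ℕ}

lemma Zfun_first (hn : 0 < n) (β : ℝ) :
    Integrable (fun g => Zfun (n := n) β g) (disorder n) ∧
      ∫ g, Zfun (n := n) β g ∂disorder n = Real.exp (n * Real.log 2 + β ^ 2 * ((n:ℝ) - 1) / 4) := by
  have it : ∀ x : Cfg n, Integrable (fun g => Real.exp (β * energy g x)) (disorder n) := fun x => (mgf_energy hn β x).2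
  refine ⟨integrable_finsetSum _ fun x _ => it x, ?_⟩
  simp only [Zfun]
  rw [integral_finsetSum _ fun x _ => it x]
  simp [(mgf_energy hn β _).1, Real.exp_add, Real.exp_nat_mul, Real.exp_log]

lemma sum_exp_overlap {β : ℝ} (hβ : 0 ≤ β) (hβ1 : β < 1) (hn : 0 < n) (x : Cfg n) :
    ∑ y : Cfg n, Real.exp (β ^ 2 * ((n:ℝ) * qsq x y) / 2) ≤ (2:ℝ) ^ n * (Real.sqrt (1 - β ^ 2))⁻¹ := by
  have hn' : (0:ℝ) < n := by exact_mod_cast hn
  have hb : β ^ 2 / 2 < 1 / 2 := by linarith [pow_lt_one₀ hβ hβ1 (two_ne_zero (α := ℕ))]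
  have e : ∀ y, Real.exp (β ^ 2 * ((n:ℝ) * qsq x y) / 2) =
      ∫ t, Real.exp (∑ i, (β / Real.sqrt n * t * spin (x i)) * spin (y i)) ∂gaussianReal 0 1 := fun y => by
    have h1 : ∀ t, ∑ i, (β / Real.sqrt n * t * spin (x i)) * spin (y i) =
        (β / Real.sqrt n * ∑ i, spin (x i) * spin (y i)) * t := fun t => by
      rw [Finset.mul_sum, Finset.sum_mul]; exact Finset.sum_congr rfl fun i _ => by ring
    simp only [h1]
    have h2 := congrFun (mgf_id_gaussianReal (μ := 0) (v := 1)) (β / Real.sqrt n * ∑ i, spin (x i) * spin (y i))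
    simp [mgf, id] at h2
    rw [h2]
    congr 1
    rw [qsq, mul_pow, div_pow β, Real.sq_sqrt hn'.le]
    field_simp
  have hi : ∀ y : Cfg n, Integrable (fun t : ℝ => Real.exp (∑ i, (β / Real.sqrt n * t * spin (x i)) * spin (y i))) (gaussianReal 0 1) := fun y => by
    refine (integrable_exp_mul_gaussianReal (β / Real.sqrt n * ∑ i, spin (x i) * spin (y i))).congr (Filter.Eventually.of_forall fun t => ?_)
    simp only [Finset.mul_sum, Finset.sum_mul]
    congr 1
    exact Finset.sum_congr rfl fun i _ => by ring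
  simp only [e]
  rw [← integral_finsetSum _ fun y _ => hi y]
  simp only [sum_exp_spin]
  obtain ⟨iq, eq⟩ := integral_exp_mul_sq hb
  refine (integral_mono_of_nonneg (Filter.Eventually.of_forall fun t => Finset.prod_nonneg fun i _ => by positivity)
    (iq.const_mul ((2:ℝ) ^ n)) (Filter.Eventually.of_forall fun t => ?_)).trans (le_of_eq ?_)
  · refine (Finset.prod_le_prod (g := fun _ => 2 * Real.exp (β ^ 2 / n * t ^ 2 / 2)) (fun i _ => by positivity) fun i _ => ?_).trans (le_of_eq ?_)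
    · refine mul_le_mul_of_nonneg_left ((Real.cosh_le_exp_half_sq _).trans (le_of_eq ?_)) two_pos.le
      congr 1
      rw [mul_pow, mul_pow, div_pow, Real.sq_sqrt hn'.le, sq (spin _), spin_mul_self, mul_one]
    · rw [Finset.prod_const, Finset.card_univ, Fintype.card_fin, mul_pow, ← Real.exp_nat_mul]
      congr 2
      field_simp
  · rw [integral_const_mul, eq]; congr 3; ring

lemma Zfun_second {β : ℝ} (hβ : 0 ≤ β) (hβ1 : β < 1) (hn : 0 < n) :
    Integrable (fun g => Zfun (n := n) β g ^ 2) (disorder n) ∧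
      ∫ g, Zfun (n := n) β g ^ 2 ∂disorder n ≤
        Real.exp (2 * (n * Real.log 2 + β ^ 2 * ((n:ℝ) - 1) / 4) + 1 / (1 - β ^ 2)) := by
  have hsq : ∀ g : Edge n → ℝ, Zfun β g ^ 2 = ∑ x : Cfg n, ∑ y, Real.exp (∑ d, (β * (coef x d + coef y d)) * g d) := fun g => by
    rw [Zfun, sq, Finset.sum_mul_sum]
    refine Finset.sum_congr rfl fun x _ => Finset.sum_congr rfl fun y _ => ?_
    rw [← Real.exp_add, energy_coef, energy_coef, Finset.mul_sum, Finset.mul_sum, ← Finset.sum_add_distrib]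
    congr 1
    exact Finset.sum_congr rfl fun d _ => by ring
  have ip : ∀ x y : Cfg n, Integrable (fun g => Real.exp (∑ d, (β * (coef x d + coef y d)) * g d)) (disorder n) :=
    fun x y => integrable_linear _
  have hb : 0 < 1 - β ^ 2 := by linarith [pow_lt_one₀ hβ hβ1 (two_ne_zero (α := ℕ))]
  simp only [hsq]
  refine ⟨integrable_finsetSum _ fun x _ => integrable_finsetSum _ fun y _ => ip x y, ?_⟩
  rw [integral_finsetSum _ fun x _ => integrable_finsetSum _ fun y _ => ip x y]
  have pt : ∀ x : Cfg n, ∫ g, ∑ y, Real.exp (∑ d, (β * (coef x d + coef y d)) * g d) ∂disorder n ≤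
      Real.exp (β ^ 2 * ((n:ℝ) - 1) / 2) * ((2:ℝ) ^ n * Real.exp (1 / (1 - β ^ 2))) := fun x => by
    rw [integral_finsetSum _ fun y _ => ip x y]
    have h1 : ∀ y, ∫ g, Real.exp (∑ d, (β * (coef x d + coef y d)) * g d) ∂disorder n ≤
        Real.exp (β ^ 2 * ((n:ℝ) - 1) / 2) * Real.exp (β ^ 2 * ((n:ℝ) * qsq x y) / 2) := fun y => by
      rw [mgf_linear, ← Real.exp_add]
      refine Real.exp_le_exp.2 ?_
      have hx := sum_coef_mul hn x x
      have hy := sum_coef_mul hn y y
      rw [qsq_self hn] at hx hy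
      have e3 : ∑ d, (β * (coef x d + coef y d)) ^ 2 = β ^ 2 * (∑ d, coef x d * coef x d +
          ∑ d, coef y d * coef y d + 2 * ∑ d, coef x d * coef y d) := by
        simp only [Finset.mul_sum, ← Finset.sum_add_distrib]
        exact Finset.sum_congr rfl fun d _ => by ring
      rw [e3, sum_coef_mul hn x y]
      linarith [congrArg (β ^ 2 * ·) hx, congrArg (β ^ 2 * ·) hy, sq_nonneg β]
    refine (Finset.sum_le_sum fun y _ => h1 y).trans ?_
    rw [← Finset.mul_sum]
    refine mul_le_mul_of_nonneg_left ((sum_exp_overlap hβ hβ1 hn x).trans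
      (mul_le_mul_of_nonneg_left ?_ (by positivity))) (Real.exp_pos _).le
    have h2 : (Real.sqrt (1 - β ^ 2))⁻¹ ≤ 1 / (1 - β ^ 2) := by
      rw [one_div]
      refine inv_anti₀ hb ?_
      calc 1 - β ^ 2 = Real.sqrt (1 - β ^ 2) * Real.sqrt (1 - β ^ 2) := (Real.mul_self_sqrt hb.le).symm
        _ ≤ 1 * Real.sqrt (1 - β ^ 2) := mul_le_mul_of_nonneg_right (Real.sqrt_le_one.2 (by linarith [sq_nonneg β])) (Real.sqrt_nonneg _)
        _ = _ := one_mul _
    exact h2.trans (by linarith [Real.add_one_le_exp (1 / (1 - β ^ 2))])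
  refine (Finset.sum_le_sum fun x _ => pt x).trans (le_of_eq ?_)
  rw [Finset.sum_const, Finset.card_univ, Fintype.card_fun, Fintype.card_bool, Fintype.card_fin, nsmul_eq_mul]
  rw [show 2 * ((n:ℝ) * Real.log 2 + β ^ 2 * ((n:ℝ) - 1) / 4) + 1 / (1 - β ^ 2) =
    (n:ℝ) * Real.log 2 + (β ^ 2 * ((n:ℝ) - 1) / 2 + ((n:ℝ) * Real.log 2 + 1 / (1 - β ^ 2))) by ring,
    Real.exp_add, Real.exp_add (β ^ 2 * ((n:ℝ) - 1) / 2), Real.exp_add ((n:ℝ) * Real.log 2), Real.exp_nat_mul, Real.exp_log two_pos]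
  push_cast; ring

/-- annealed lower bound below the critical temperature -/
lemma freeE_ge {β : ℝ} (hβ : 0 ≤ β) (hβ1 : β < 1) (hn : 0 < n) :
    n * (Real.log 2 + β ^ 2 / 4) - (Real.sqrt n * (1 + 1 / (1 - β ^ 2)) + 1) ≤ freeE n β := by
  have hn' : (1:ℝ) ≤ n := by exact_mod_cast hn
  have hb : 0 < 1 - β ^ 2 := by linarith [pow_lt_one₀ hβ hβ1 (two_ne_zero (α := ℕ))]
  set s := 1 / Real.sqrt n with hs
  have hsn : 0 < Real.sqrt n := Real.sqrt_pos.2 (by linarith)
  have hs0 : 0 < s := by positivity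
  have hs1 : s ≤ 1 := (div_le_one hsn).2 (Real.one_le_sqrt.2 hn')
  set L := n * Real.log 2 + β ^ 2 * ((n:ℝ) - 1) / 4 with hL
  set a := s * freeE n β + s ^ 2 * β ^ 2 * n
  set b := 2 * L + 1 / (1 - β ^ 2)
  set θ := (1 - s) / (2 - s) with hθ
  have hθ0 : 0 ≤ θ := div_nonneg (by linarith) (by linarith)
  have hθ1 : 0 ≤ 1 - θ := by
    have : θ ≤ 1 := (div_le_one (by linarith)).2 (by linarith)
    linarith
  set T := (1 - θ) * a + θ * b with hT
  obtain ⟨iZ, eZ⟩ := Zfun_first hn β
  obtain ⟨iZ2, eZ2⟩ := Zfun_second hβ hβ1 hn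
  obtain ⟨iS, eS⟩ := logZ_mgf hn hβ s
  have pt : ∀ g : Edge n → ℝ, Zfun β g ≤ (1 - θ) * (Real.exp (T - a) * Real.exp (s * Real.log (Zfun β g))) +
      θ * (Real.exp (T - b) * Zfun β g ^ 2) := fun g => by
    set l := Real.log (Zfun β g)
    have hl : Zfun β g = Real.exp l := (Real.exp_log (partition_pos β g : 0 < Zfun β g)).symm
    have hc := convexOn_exp.2 (Set.mem_univ (s * l + (T - a))) (Set.mem_univ (2 * l + (T - b))) hθ1 hθ0 (by ring)
    simp only [smul_eq_mul] at hc
    have e : (1 - θ) * (s * l + (T - a)) + θ * (2 * l + (T - b)) = l := by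
      have : (1 - θ) * s + θ * 2 = 1 := by
        rw [hθ]; have : (2:ℝ) - s ≠ 0 := by linarith
        field_simp; ring
      rw [hT]; linear_combination l * this
    rw [e, Real.exp_add, Real.exp_add] at hc
    have e2 : Zfun β g ^ 2 = Real.exp (2 * l) := by rw [hl, ← Real.exp_nat_mul]; norm_num
    rw [e2, hl]
    linarith
  have hint := integral_mono iZ (((iS.const_mul _).const_mul _).add ((iZ2.const_mul _).const_mul _)) pt
  simp only [Pi.add_apply] at hint
  rw [eZ, integral_add ((iS.const_mul _).const_mul _) ((iZ2.const_mul _).const_mul _), integral_const_mul, integral_const_mul,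
    integral_const_mul, integral_const_mul] at hint
  have h1 := mul_le_mul_of_nonneg_left (mul_le_mul_of_nonneg_left eS (Real.exp_pos (T - a)).le) hθ1
  have h2 := mul_le_mul_of_nonneg_left (mul_le_mul_of_nonneg_left eZ2 (Real.exp_pos (T - b)).le) hθ0
  rw [← Real.exp_add, show T - a + (s * ∫ g, Real.log (Zfun β g) ∂disorder n + s ^ 2 * β ^ 2 * n) = T by
    simp only [a, freeE]; ring] at h1
  rw [← Real.exp_add, show T - b + (2 * L + 1 / (1 - β ^ 2)) = T by simp only [b]; ring] at h2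
  have h3 : L ≤ T := Real.exp_le_exp.1 (hint.trans (by linarith))
  have h4 : s * L ≤ a + (1 - s) * (1 / (1 - β ^ 2)) := by
    have h5 := mul_le_mul_of_nonneg_left h3 (show 0 ≤ 2 - s by linarith)
    have e : (2 - s) * T = a + (1 - s) * b := by
      rw [hT, hθ]; have : (2:ℝ) - s ≠ 0 := by linarith
      field_simp; ring
    rw [e] at h5
    simp only [b] at h5
    linarith
  have h6 := mul_le_mul_of_nonneg_left h4 hsn.le
  have e1 : ∀ X : ℝ, Real.sqrt n * (s * X) = X := fun X => by rw [hs]; field_simp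
  have e2 : Real.sqrt n * a = freeE n β + β ^ 2 * Real.sqrt n := by
    have hm : Real.sqrt n * Real.sqrt n = n := Real.mul_self_sqrt (by linarith)
    simp only [a, hs]
    field_simp
    linear_combination -(β ^ 2) * hm
  rw [e1, mul_add, e2] at h6
  have h7 : Real.sqrt n * ((1 - s) * (1 / (1 - β ^ 2))) ≤ Real.sqrt n * (1 / (1 - β ^ 2)) :=
    mul_le_mul_of_nonneg_left (mul_le_of_le_one_left (by positivity) (by linarith)) hsn.le
  have h8 : β ^ 2 * Real.sqrt n ≤ 1 * Real.sqrt n := mul_le_mul_of_nonneg_right (by linarith) hsn.le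
  rw [hL] at h6
  linarith [sq_nonneg β]

/-- decay of the mean squared overlap -/
theorem overlap_decay {b h : ℝ} (hb : 0 < b) (hb1 : b ≤ 1) (hh : 0 < h) (hh2 : h ≤ b / 2) (hn : 0 < n) :
    ∫ g, overlapSq (n := n) b g ∂disorder n ≤ 2 * h / b + 6 / (Real.sqrt n * h ^ 2 * b) := by
  have hn' : (1:ℝ) ≤ n := by exact_mod_cast hn
  set β := b * (1 - h) with hβ
  have hbh := mul_pos hb hh
  have hβ0 : 0 ≤ β - h := by
    rw [hβ]; linarith [mul_le_of_le_one_left hh.le hb1]
  have hββ : β ≤ 1 - h := by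
    rw [hβ]; exact mul_le_of_le_one_left (by linarith) hb1
  have hβb : β ≤ b := by rw [hβ]; linarith
  obtain ⟨iMb, -, eMb⟩ := mean_identity hn hb.le
  obtain ⟨iMβ, -, eMβ⟩ := mean_identity (n := n) hn (show 0 ≤ β by linarith)
  have pmono : ∀ g : Edge n → ℝ, meanE β g ≤ meanE b g := fun g => by
    have h1 := meanE_le β (b - β) g
    have h2 := meanE_le b (β - b) g
    rw [add_sub_cancel] at h1 h2
    refine le_of_mul_le_mul_left ?_ (show 0 < b - β by rw [hβ]; linarith)
    linarith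
  have i1 := integrable_logZfun hn (show 0 ≤ β - h from hβ0)
  have i2 := integrable_logZfun (n := n) hn (show 0 ≤ β by linarith)
  have psec : ∀ g : Edge n → ℝ, Real.log (Zfun β g) - Real.log (Zfun (β - h) g) ≤ h * meanE b g := fun g => by
    have h1 := meanE_le β (-h) g
    rw [← sub_eq_add_neg] at h1
    have := mul_le_mul_of_nonneg_left (pmono g) hh.le
    linarith
  have hint := integral_mono (i2.sub i1) (iMb.const_mul h) psec
  rw [integral_sub' i2 i1, integral_const_mul, eMb] at hint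
  have lo := freeE_ge (n := n) (show 0 ≤ β by linarith) (show β < 1 by linarith) hn
  have up := freeE_le_annealed n (show 0 ≤ β - h from hβ0)
  simp only [freeE] at lo up
  have hc : 1 / (1 - β ^ 2) ≤ 1 / h := by
    refine one_div_le_one_div_of_le hh ?_
    have : β ^ 2 ≤ β * 1 := by rw [sq]; exact mul_le_mul_of_nonneg_left (by linarith) (by linarith)
    linarith
  have hs1 : 1 ≤ Real.sqrt n := Real.one_le_sqrt.2 hn'
  have h1h : 1 ≤ 1 / h := (one_le_div hh).2 (by linarith)
  have hD : Real.sqrt n * (1 + 1 / (1 - β ^ 2)) + 1 ≤ 3 * (Real.sqrt n * (1 / h)) := by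
    have a1 := mul_le_mul_of_nonneg_left hc (Real.sqrt_nonneg (n:ℝ))
    have a2 := mul_le_mul_of_nonneg_left h1h (Real.sqrt_nonneg (n:ℝ))
    linarith
  set q := ∫ g, overlapSq (n := n) b g ∂disorder n
  have h5 : h * (b * n / 2) * q ≤ h * (b * n / 2) * (2 * h / b + 6 / (Real.sqrt n * h ^ 2 * b)) := by
    have hm : Real.sqrt n * Real.sqrt n = n := Real.mul_self_sqrt (by linarith)
    have e : h * (b * n / 2) * (2 * h / b + 6 / (Real.sqrt n * h ^ 2 * b)) = n * h ^ 2 + 3 * (Real.sqrt n * (1 / h)) := by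
      field_simp
      linear_combination (-6) * hm
    rw [e]
    have : (n:ℝ) * (h * (b * h)) ≤ n * (h * h) := mul_le_mul_of_nonneg_left (mul_le_mul_of_nonneg_left (mul_le_of_le_one_left hh.le hb1) hh.le) (by linarith)
    rw [hβ] at *
    linarith [mul_nonneg (Nat.cast_nonneg (α := ℝ) n) (sq_nonneg h)]
  exact le_of_mul_le_mul_left h5 (by positivity)

end Vale.Agent.P150
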