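import Vale.Agent.P150.FormLaw
import Vale.Agent.P150.OverlapHigh

/-! Resolvent test functions: the gap is at most `(1 - β)²`, and polynomially small at `β = 1`. -/

open MeasureTheory ProbabilityTheory Filter Matrix
open scoped Topology ComplexConjugate

namespace Vale.Agent.P150

open Ising

variable {n : ℕ}

/-- a linear observable -/
noncomputable def linObs (c : Fin n → ℝ) (x : Cfg n) : ℝ := ∑ i, c i * spin (x i)

lemma dirichlet_linObs (β : ℝ) (g : Edge n → ℝ) (c : Fin n → ℝ) :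
    dirichlet β g (linObs c) ≤ ∑ i, c i ^ 2 := by
  have hs : ∀ a b, cpl β g a b = cpl β g b a := fun a b => by simp only [cpl, coupling_symm g a b]
  have hz : ∀ a, cpl β g a a = 0 := fun a => by simp [cpl, coupling_self]
  have h2 := inner_gen (0 : Fin n → ℝ) hs hz (linObs c) (linObs c)
  simp only [dirichlet, generator_gen, mul_neg, Finset.sum_neg_distrib, neg_neg, ← wt_cpl, h2]
  have hdd : ∀ i x, dd i (linObs c) x = c i := fun i x => by
    simp only [dd, linObs, ← Finset.sum_sub_distrib]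
    rw [Finset.sum_eq_single i (fun j _ hj => by simp [Function.update_of_ne hj]) (by simp)]
    simp [spin]
  refine Finset.sum_le_sum fun i _ => ?_
  simp only [hdd]
  calc ∑ x, wt (cpl β g) 0 x * ((1 - mag (cpl β g) 0 i x ^ 2) * (c i * c i)) ≤ ∑ x, wt (cpl β g) 0 x * (c i ^ 2) :=
        Finset.sum_le_sum fun x _ => mul_le_mul_of_nonneg_left (by
          rw [← sq]; exact mul_le_of_le_one_left (sq_nonneg _) (mag_sq _ _ i x).2) (wt_pos _ _ x).le
    _ = c i ^ 2 := by rw [← Finset.sum_mul, wt_sum, one_mul]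

lemma mean_linObs (β : ℝ) (g : Edge n → ℝ) (c : Fin n → ℝ) : ∑ x, gibbs β g x * linObs c x = 0 := by
  have h : ∑ x, gibbs β g (negCfg x) * linObs c (negCfg x) = ∑ x, gibbs β g x * linObs c x :=
    Equiv.sum_comp (Function.Involutive.toPerm negCfg negCfg_negCfg) (fun x => gibbs β g x * linObs c x)
  simp only [gibbs_negCfg, linObs, negCfg, spin_not, mul_neg, Finset.sum_neg_distrib] at h
  simp only [linObs]; linarith

/-- `L ⟨f²⟩ ≤ t ⟨f,-Lf⟩` on centred functions: satisfied by a gap, and by mixing -/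
def Rayleigh (β : ℝ) (g : Edge n → ℝ) (L t : ℝ) : Prop :=
  ∀ c : Fin n → ℝ, L * ∑ x, gibbs β g x * linObs c x ^ 2 ≤ t * dirichlet β g (linObs c)

lemma rayleigh_of_gap {β δ : ℝ} {g : Edge n → ℝ} (h : GapAtLeast β g δ) : Rayleigh β g δ 1 := fun c => by
  have := h (linObs c)
  rw [gibbsVariance, mean_linObs] at this
  linarith

lemma rayleigh_of_mixed {β t : ℝ} {g : Edge n → ℝ} (ht : 0 ≤ t) (h : MixedAt β g t) :
    Rayleigh β g (Real.log 2) t := fun c => by
  by_cases hf : linObs (n := n) c = 0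
  · simp [hf, dirichlet]
  have hpos := ip_self_pos β g hf
  have e : ip β g (linObs c) (linObs c) = ∑ x, gibbs β g x * linObs c x ^ 2 :=
    Finset.sum_congr rfl fun x _ => by rw [sq]
  have h1 := mixed_lower β g ht h hf (by simpa [ip] using mean_linObs β g c)
  rw [← mul_div_assoc, le_div_iff₀ hpos, e] at h1
  exact h1

/-- Gibbs average of the resolvent form -/
noncomputable def gform (β : ℝ) (z : ℂ) (g : Edge n → ℝ) : ℂ := ∑ x, (gibbs β g x : ℂ) * rform z g x

lemma rayleigh_resolvent {β L t : ℝ} {z : ℂ} (hn : 0 < n) (hz : 0 < z.im) (g : Edge n → ℝ) (ht : 0 ≤ t)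
    (h : Rayleigh β g L t) : L * (-(gform β z g).im) ≤ t * (-(rtr z g).im) ∧ 0 ≤ -(rtr z g).im := by
  have hn' : (0:ℝ) < n := by exact_mod_cast hn
  set η := z.im
  have hk : ∀ k, L * ∑ x, gibbs β g x * Complex.normSq (kx z g x k) ≤ t * ∑ i, Complex.normSq (res z g k i) := fun k => by
    have h1 := (h fun i => (res z g k i).re).trans (mul_le_mul_of_nonneg_left (dirichlet_linObs β g _) ht)
    have h2 := (h fun i => (res z g k i).im).trans (mul_le_mul_of_nonneg_left (dirichlet_linObs β g _) ht)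
    have e : ∀ x, Complex.normSq (kx z g x k) = linObs (fun i => (res z g k i).re) x ^ 2 + linObs (fun i => (res z g k i).im) x ^ 2 := fun x => by
      simp only [Complex.normSq_apply, kx, Matrix.mulVec, dotProduct, Complex.re_sum, Complex.im_sum, linObs, cspin,
        Complex.re_mul_ofReal, Complex.im_mul_ofReal, sq]
    have e2 : ∑ i, Complex.normSq (res z g k i) = (∑ i, (res z g k i).re ^ 2) + ∑ i, (res z g k i).im ^ 2 := by
      rw [← Finset.sum_add_distrib]; exact Finset.sum_congr rfl fun i _ => by rw [Complex.normSq_apply]; ring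
    simp only [e, e2, mul_add, Finset.sum_add_distrib]
    exact add_le_add h1 h2
  have hsum := Finset.sum_le_sum (s := (Finset.univ : Finset (Fin n))) fun k _ => hk k
  rw [← Finset.mul_sum, ← Finset.mul_sum, Finset.sum_comm] at hsum
  simp only [← Finset.mul_sum] at hsum
  have eT : ∑ k, ∑ i, Complex.normSq (res z g k i) = (n:ℝ) / η * -(rtr z g).im := by
    have hk : ∀ k, η * ∑ i, Complex.normSq (res z g i k) = -(res z g k k).im := fun k => by
      have h := im_res_form hz g (Pi.single k 1)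
      simp only [Matrix.mulVec_single_one] at h
      simp only [Pi.single_apply, mul_ite, mul_one, mul_zero, Finset.sum_ite_eq', Finset.mem_univ, if_true] at h
      simpa using h.symm
    rw [Finset.sum_comm]
    have := Finset.sum_congr (s₁ := (Finset.univ : Finset (Fin n))) rfl fun k _ => hk k
    rw [← Finset.mul_sum, Finset.sum_neg_distrib] at this
    rw [rtr, Complex.div_natCast_im, Complex.im_sum, ← neg_div, ← this]
    field_simp
  have eG : ∑ x, gibbs β g x * ∑ k, Complex.normSq (kx z g x k) = (n:ℝ) / η * -(gform β z g).im := by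
    have hx : ∀ x, ∑ k, Complex.normSq (kx z g x k) = (n:ℝ) / η * -(rform z g x).im := fun x => by
      have h := im_res_form hz g (cspin x)
      have e : ∑ i, conj ((res z g *ᵥ cspin x) i) * cspin x i = conj (∑ i, cspin x i * kx z g x i) := by
        rw [map_sum]
        exact Finset.sum_congr rfl fun i _ => by rw [map_mul, show conj (cspin x i) = cspin x i from Complex.conj_ofReal _]; exact mul_comm _ _
      rw [e, Complex.conj_im] at h
      rw [rform, Complex.div_natCast_im, ← neg_div, h]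
      show _ = (n:ℝ) / η * (η * _ / n)
      field_simp
      rfl
    simp only [hx, gform, Complex.im_sum, Complex.im_ofReal_mul, ← Finset.sum_neg_distrib, Finset.mul_sum]
    exact Finset.sum_congr rfl fun x _ => by ring
  refine ⟨?_, ?_⟩
  · rw [eT, eG, mul_left_comm L, mul_left_comm t] at hsum
    exact le_of_mul_le_mul_left hsum (by positivity)
  · have : 0 ≤ (n:ℝ) / η * -(rtr z g).im := eT ▸ Finset.sum_nonneg fun k _ => Finset.sum_nonneg fun i _ => Complex.normSq_nonneg _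
    exact nonneg_of_mul_nonneg_right this (by positivity)

/-- deterministic consequence of the two self-consistent equations -/
lemma rayleigh_algebra {β L t s κ : ℝ} (hβ0 : 0 ≤ β) (hβ1 : β ≤ 1) (hs : 0 < s) (hs4 : s ≤ 1 / 4) (hL : 0 ≤ L) (ht : 0 ≤ t)
    {τ G e : ℂ} (hτ : 0 ≤ -τ.im)
    (hW : ‖(2 + (s ^ 2 : ℝ) * Complex.I) * τ - 1 - τ ^ 2‖ ≤ s ^ 2 / 10)
    (he : ‖e‖ ≤ κ * s / 8) (hG : (2 + (s ^ 2 : ℝ) * Complex.I - τ - (β:ℂ)) * G = 1 + e)
    (h : L * (-G.im) ≤ t * (-τ.im)) : L * (1 - κ) ≤ t * (1 - β + 3 * s) ^ 2 := by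
  set W := (2 + (s ^ 2 : ℝ) * Complex.I) * τ - 1 - τ ^ 2
  set u : ℂ := 1 - τ with hu
  have hu2 : u ^ 2 = (s ^ 2 : ℝ) * Complex.I * (1 - u) - W := by simp only [W, hu]; ring
  set r := ‖u‖
  have hr2 : r ^ 2 ≤ s ^ 2 * (1 + r) + s ^ 2 / 10 := by
    have := congrArg norm hu2
    rw [norm_pow] at this
    rw [this]
    refine (norm_sub_le _ _).trans (add_le_add ?_ hW)
    rw [norm_mul, norm_mul, Complex.norm_real, Complex.norm_I, mul_one, Real.norm_eq_abs, abs_of_nonneg (sq_nonneg s)]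
    exact mul_le_mul_of_nonneg_left ((norm_sub_le _ _).trans (by rw [norm_one])) (sq_nonneg s)
  have hr : r ≤ 1.2 * s := by
    by_contra hlt
    push Not at hlt
    have hs2 : s ^ 2 ≤ s * (1 / 4) := by rw [sq]; exact mul_le_mul_of_nonneg_left hs4 hs.le
    have h1 := mul_le_mul hlt.le (show 1.2 * s - s / 4 ≤ r - s ^ 2 by linarith) (by linarith) (by linarith)
    have := mul_pos hs hs
    linarith
  have him : u.im = -τ.im := by simp [hu]
  have hre : |u.re| ≤ r := Complex.abs_re_le_norm u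
  have hi2 : 0.6 * s ^ 2 ≤ 2 * (u.re * u.im) := by
    have h1 := congrArg Complex.im hu2
    simp only [sq, Complex.mul_im, Complex.sub_im, Complex.sub_re, Complex.mul_re, Complex.I_re, Complex.I_im, Complex.ofReal_re,
      Complex.ofReal_im, Complex.one_re, Complex.one_im] at h1
    have h2 := (abs_le.1 ((Complex.abs_im_le_norm W).trans hW)).2
    have h3 : s * s * u.re ≤ s * s * 0.3 := mul_le_mul_of_nonneg_left (by linarith [(abs_le.1 hre).2]) (mul_self_nonneg s)
    rw [sq] at h2 ⊢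
    linarith
  have huim : s / 4 ≤ u.im := by
    have h1 : u.re * u.im ≤ 1.2 * s * u.im := mul_le_mul_of_nonneg_right ((abs_le.1 hre).2.trans hr) (him ▸ hτ)
    refine le_of_mul_le_mul_left ?_ hs
    linarith [mul_pos hs hs]
  set a : ℂ := 2 + (s ^ 2 : ℝ) * Complex.I - τ - (β:ℂ) with ha
  have haim : a.im = s ^ 2 + u.im := by simp [ha, hu, ← sub_eq_add_neg, sq]
  set R := 1 - β + 3 * s
  have haR : ‖a‖ ≤ R := by
    have e0 : a = ((1 - β : ℝ) : ℂ) + (u + (s ^ 2 : ℝ) * Complex.I) := by simp only [ha, hu]; push_cast; ring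
    rw [e0]
    refine (norm_add_le _ _).trans ?_
    rw [Complex.norm_real, Real.norm_eq_abs, abs_of_nonneg (by linarith)]
    have h1 := norm_add_le u ((s ^ 2 : ℝ) * Complex.I)
    rw [norm_mul (↑(s ^ 2) : ℂ), Complex.norm_I, mul_one, Complex.norm_real, Real.norm_eq_abs, abs_of_nonneg (sq_nonneg s)] at h1
    have hs2 : s ^ 2 ≤ s * 1 := by rw [sq]; exact mul_le_mul_of_nonneg_left (by linarith) hs.le
    simp only [R]; linarith
  have ha0 : ‖a‖ ≤ 2 := haR.trans (by simp only [R]; linarith)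
  have e1 : -G.im * ‖a‖ ^ 2 = a.im - (e * conj a).im := by
    have : G * (‖a‖ ^ 2 : ℝ) = (1 + e) * conj a := by
      rw [← hG, Complex.ofReal_pow, ← Complex.mul_conj']; ring
    have := congrArg Complex.im this
    rw [Complex.im_mul_ofReal, add_mul, one_mul, Complex.add_im, Complex.conj_im] at this
    linarith
  have e2 : (e * conj a).im ≤ κ * a.im := by
    refine (le_abs_self _).trans ((Complex.abs_im_le_norm _).trans ?_)
    rw [norm_mul, Complex.norm_conj]
    have hκ0 : 0 ≤ κ * s := by linarith [(norm_nonneg e).trans he]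
    refine (mul_le_mul he ha0 (norm_nonneg _) (by linarith)).trans ?_
    have hκ : 0 ≤ κ := nonneg_of_mul_nonneg_left hκ0 hs
    have := mul_le_mul_of_nonneg_left (show s / 4 ≤ a.im by linarith [sq_nonneg s]) hκ
    linarith
  have h1 := mul_le_mul_of_nonneg_right h (sq_nonneg ‖a‖)
  have h2 : t * -τ.im * ‖a‖ ^ 2 ≤ t * a.im * R ^ 2 :=
    mul_le_mul (mul_le_mul_of_nonneg_left (by linarith [sq_nonneg s]) ht) (pow_le_pow_left₀ (norm_nonneg _) haR 2) (sq_nonneg _)
      (mul_nonneg ht (by linarith [sq_nonneg s]))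
  have h3 : L * (1 - κ) * a.im ≤ L * (-G.im * ‖a‖ ^ 2) := by
    rw [e1, mul_assoc]; exact mul_le_mul_of_nonneg_left (by linarith) hL
  refine le_of_mul_le_mul_right ?_ (show 0 < a.im by linarith [sq_nonneg s])
  linarith

/-- Markov's inequality for a nonnegative integrable function -/
lemma markov_le {Ω : Type*} [MeasurableSpace Ω] {μ : Measure Ω} [IsFiniteMeasure μ] {f : Ω → ℝ} (hf : ∀ x, 0 ≤ f x)
    (hi : Integrable f μ) {c B : ℝ} (hc : 0 < c) (hB : ∫ x, f x ∂μ ≤ B) : μ.real {x | c ≤ f x} ≤ B / c := by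
  rw [le_div_iff₀ hc, mul_comm]
  exact (mul_meas_ge_le_integral_of_nonneg (Filter.Eventually.of_forall hf) hi c).trans hB

/-- the disorders with a too large Rayleigh quotient -/
def badSet (β s κ : ℝ) : Set (Edge n → ℝ) :=
  {g | ∃ L t : ℝ, 0 ≤ L ∧ 0 ≤ t ∧ Rayleigh β g L t ∧ t * (1 - β + 3 * s) ^ 2 < L * (1 - κ)}

theorem badSet_small (hn : 0 < n) {β s κ : ℝ} (hβ : 0 < β) (hβ1 : β ≤ 1) (hs : 0 < s) (hs4 : s ≤ 1 / 4)
    (hκ : 0 < κ) (hnb : ((n:ℝ) ^ (-(1/6) : ℝ)) ≤ β / 2) :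
    (disorder n).real (badSet (n := n) β s κ) ≤ 4200 / (n * (s ^ 2) ^ 6) +
      64 / (κ ^ 2 * s ^ 2) * (37 / (n * (s ^ 2) ^ 5) + 4 / (s ^ 2) ^ 3 * ((1 + 8 / β) * (n:ℝ) ^ (-(1/12) : ℝ))) := by
  have hn' : (0:ℝ) < n := by exact_mod_cast hn
  set z : ℂ := 2 + ((s ^ 2 : ℝ) : ℂ) * Complex.I with hzd
  have hzim : z.im = s ^ 2 := by simp [hzd, sq]
  have hz : 0 < z.im := by rw [hzim]; positivity
  have hs2 : s ^ 2 ≤ 1 := pow_le_one₀ hs.le (by linarith)
  have hz1 : z.im ≤ 1 := hzim ▸ hs2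
  have hz4 : ‖z‖ ≤ 4 := by
    refine (norm_add_le _ _).trans ?_
    rw [norm_mul, Complex.norm_I, Complex.norm_real, Real.norm_eq_abs, abs_of_nonneg (sq_nonneg s), Complex.norm_ofNat]
    linarith
  set h := (n:ℝ) ^ (-(1/6) : ℝ) with hhd
  have hh : 0 < h := Real.rpow_pos_of_pos hn' _
  set a := (n:ℝ) ^ (-(1/12) : ℝ) with had
  have ha : 0 < a := Real.rpow_pos_of_pos hn' _
  have haa : a * a = h := by rw [had, hhd, ← Real.rpow_add hn']; norm_num
  have hsn : Real.sqrt n * h ^ 2 * h = 1 := by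
    rw [hhd, Real.sqrt_eq_rpow, ← Real.rpow_natCast, ← Real.rpow_mul hn'.le, ← Real.rpow_add hn', ← Real.rpow_add hn']
    norm_num
  have hq : ∫ g, overlapSq (n := n) β g ∂disorder n ≤ 8 / β * h := by
    refine (overlap_decay hβ hβ1 hh hnb hn).trans (le_of_eq ?_)
    have : 6 / (Real.sqrt n * h ^ 2 * β) = 6 / β * h := by
      have hpos : 0 < Real.sqrt n * h ^ 2 := by positivity
      field_simp
      linarith
    rw [this]; ring
  obtain ⟨iT, eT⟩ := trDefect_small hn hz hz1 hz4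
  obtain ⟨iF, eF⟩ := formDefect_small hn hz hz1 hz4 hβ.le hβ1 ha
  set A := {g : Edge n → ℝ | (s ^ 2 / 10) ^ 2 ≤ ‖trDefect z g‖ ^ 2}
  set B := {g : Edge n → ℝ | (κ * s / 8) ^ 2 ≤ ∑ x, gibbs β g x * ‖formDefect β z g x‖ ^ 2}
  have hsub : badSet (n := n) β s κ ⊆ A ∪ B := by
    rintro g ⟨L, t, hL, ht, hR, hlt⟩
    by_contra hAB
    simp only [A, B, Set.mem_union, Set.mem_ofPred_eq, not_or, not_le] at hAB
    obtain ⟨h1, h2⟩ := rayleigh_resolvent hn hz g ht hR
    have hW : ‖trDefect z g‖ ≤ s ^ 2 / 10 := (pow_le_pow_iff_left₀ (norm_nonneg _) (by positivity) two_ne_zero).1 hAB.1.le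
    set e := ∑ x, (gibbs β g x : ℂ) * formDefect β z g x with he
    have hG : (z - rtr z g - (β:ℂ)) * gform β z g = 1 + e := by
      have hone : ∑ x, ((gibbs β g x : ℝ) : ℂ) = 1 := by rw [← Complex.ofReal_sum, gibbs_sum, Complex.ofReal_one]
      rw [he, gform, Finset.mul_sum]
      have : ∀ x, ((gibbs β g x : ℝ) : ℂ) * formDefect β z g x =
          (z - rtr z g - (β:ℂ)) * ((gibbs β g x : ℂ) * rform z g x) - (gibbs β g x : ℂ) := fun x => by
        simp only [formDefect]; ring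
      simp only [this, Finset.sum_sub_distrib, hone]
      ring
    have he2 : ‖e‖ ≤ κ * s / 8 := by
      have pt : ∀ x, ‖(gibbs β g x : ℂ) * formDefect β z g x‖ ≤
          gibbs β g x * ((‖formDefect β z g x‖ ^ 2 / (κ * s / 8) + κ * s / 8) / 2) := fun x => by
        rw [norm_mul, Complex.norm_real, Real.norm_eq_abs, abs_of_pos (gibbs_pos β g x)]
        refine mul_le_mul_of_nonneg_left ?_ (gibbs_pos β g x).le
        set u := ‖formDefect β z g x‖
        set c := κ * s / 8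
        have hc : 0 < c := by positivity
        have := div_nonneg (sq_nonneg (u - c)) hc.le
        have e : (u - c) ^ 2 / c = u ^ 2 / c + c - 2 * u := by field_simp; ring
        linarith
      refine (norm_sum_le _ _).trans ((Finset.sum_le_sum fun x _ => pt x).trans ?_)
      simp only [mul_div_assoc', mul_add, ← Finset.sum_div, Finset.sum_add_distrib, ← Finset.sum_mul, gibbs_sum, one_mul]
      have hc : 0 < κ * s / 8 := by positivity
      have := div_le_div_of_nonneg_right hAB.2.le hc.le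
      rw [sq (κ * s / 8), mul_self_div_self] at this
      linarith
    have := rayleigh_algebra hβ.le hβ1 hs hs4 hL ht h2 hW he2 hG h1
    linarith
  refine (measureReal_mono hsub).trans ((measureReal_union_le _ _).trans (add_le_add ?_ ?_))
  · refine (markov_le (fun g => sq_nonneg _) iT (by positivity) eT).trans (le_of_eq ?_)
    rw [hzim]; field_simp; norm_num
  · refine (markov_le (fun g => Finset.sum_nonneg fun x _ => mul_nonneg (gibbs_pos β g x).le (sq_nonneg _)) iF
      (by positivity) eF).trans ?_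
    rw [hzim]
    have h3 : a + (∫ g, overlapSq (n := n) β g ∂disorder n) / a ≤ (1 + 8 / β) * a := by
      have h4 := div_le_div_of_nonneg_right hq ha.le
      rw [← haa, show 8 / β * (a * a) / a = 8 / β * a by field_simp] at h4
      linarith
    have h5 := mul_le_mul_of_nonneg_left h3 (show 0 ≤ 4 / (s ^ 2) ^ 3 by positivity)
    rw [show 64 / (κ ^ 2 * s ^ 2) * (37 / ((n:ℝ) * (s ^ 2) ^ 5) + 4 / (s ^ 2) ^ 3 * ((1 + 8 / β) * a)) =
      (37 / ((n:ℝ) * (s ^ 2) ^ 5) + 4 / (s ^ 2) ^ 3 * ((1 + 8 / β) * a)) / (κ * s / 8) ^ 2 by field_simp; ring]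
    exact div_le_div_of_nonneg_right (by linarith) (sq_nonneg _)

/-- for `β ≤ 1` the gap is at most `(1 - β)²` in the limit -/
theorem gap_upper (β : ℝ) (hβ : 0 ≤ β) (hβ1 : β ≤ 1) (ε : ℝ) (hε : 0 < ε) :
    Tendsto (fun n : ℕ => (disorder n).real {g | ∃ δ, (1 - β) ^ 2 + ε ≤ δ ∧ GapAtLeast β g δ}) atTop (𝓝 0) := by
  rcases hβ.eq_or_lt with rfl | hβ'
  · refine Tendsto.congr' ?_ tendsto_const_nhds
    filter_upwards [eventually_gt_atTop 0] with n hn
    have : {g : Edge n → ℝ | ∃ δ, (1 - (0:ℝ)) ^ 2 + ε ≤ δ ∧ GapAtLeast 0 g δ} = ∅ :=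
      Set.eq_empty_iff_forall_notMem.2 fun g ⟨δ, hδ, hg⟩ => by
        have h1 := (rayleigh_of_gap hg) (fun i => if i = (⟨0, hn⟩ : Fin n) then 1 else 0)
        have h2 := dirichlet_linObs 0 g (fun i => if i = (⟨0, hn⟩ : Fin n) then (1:ℝ) else 0)
        simp [linObs, sq, spin_mul_self, gibbs_sum] at h1 h2 hδ
        linarith
    rw [this, measureReal_empty]
  set s := min (ε / 18) (1 / 4) with hsd
  have hs : 0 < s := lt_min (by linarith) (by norm_num)
  have hs4 : s ≤ 1 / 4 := min_le_right _ _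
  set κ := min (ε / 32) (1 / 2) with hκd
  have hκ : 0 < κ := lt_min (by linarith) (by norm_num)
  have hκ2 : κ ≤ 1 / 2 := min_le_right _ _
  have hnum : (1 - β + 3 * s) ^ 2 < ((1 - β) ^ 2 + ε) * (1 - κ) := by
    have h1 : s ^ 2 ≤ s * (1 / 4) := by rw [sq]; exact mul_le_mul_of_nonneg_left hs4 hs.le
    have h2 : (1 - β) * s ≤ 1 * s := mul_le_mul_of_nonneg_right (by linarith) hs.le
    have h3 : (1 - β) ^ 2 * κ ≤ 1 * κ := mul_le_mul_of_nonneg_right (pow_le_one₀ (by linarith) (by linarith)) hκ.le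
    have h4 : ε * κ ≤ ε * (1 / 2) := mul_le_mul_of_nonneg_left hκ2 hε.le
    linarith [min_le_left (ε / 32) (1 / 2), min_le_left (ε / 18) (1 / 4)]
  refine squeeze_zero' (Eventually.of_forall fun n => measureReal_nonneg) (g := fun n : ℕ => 4200 / (n * (s ^ 2) ^ 6) +
      64 / (κ ^ 2 * s ^ 2) * (37 / (n * (s ^ 2) ^ 5) + 4 / (s ^ 2) ^ 3 * ((1 + 8 / β) * (n:ℝ) ^ (-(1/12) : ℝ)))) ?_ ?_
  · have ev : ∀ᶠ n : ℕ in atTop, ((n:ℝ) ^ (-(1/6) : ℝ)) ≤ β / 2 :=
      ((tendsto_rpow_neg_atTop (by norm_num : (0:ℝ) < 1 / 6)).comp tendsto_natCast_atTop_atTop).eventually_le_const (by linarith)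
    filter_upwards [ev, eventually_gt_atTop 0] with n hn hn0
    refine le_trans (measureReal_mono ?_) (badSet_small hn0 hβ' hβ1 hs hs4 hκ hn)
    rintro g ⟨δ, hδ, hg⟩
    have : 0 ≤ δ := by linarith [sq_nonneg (1 - β)]
    refine ⟨δ, 1, this, zero_le_one, rayleigh_of_gap hg, ?_⟩
    rw [one_mul]
    exact hnum.trans_le (mul_le_mul_of_nonneg_right hδ (by linarith))
  · have h1 : ∀ C D : ℝ, Tendsto (fun n : ℕ => C / ((n:ℝ) * D)) atTop (𝓝 0) := fun C D => by
      simpa [div_eq_mul_inv, mul_comm, mul_left_comm, mul_assoc] using (tendsto_one_div_atTop_nhds_zero_nat (𝕜 := ℝ)).const_mul (C * D⁻¹)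
    have h2 := ((tendsto_rpow_neg_atTop (by norm_num : (0:ℝ) < 1 / 12)).comp tendsto_natCast_atTop_atTop).const_mul (1 + 8 / β)
    simpa using (h1 4200 ((s ^ 2) ^ 6)).add ((((h1 37 ((s ^ 2) ^ 5))).add (h2.const_mul (4 / (s ^ 2) ^ 3))).const_mul (64 / (κ ^ 2 * s ^ 2)))

/-- polynomial slowdown at the critical temperature -/
theorem critical_slow :
    Tendsto (fun n : ℕ => (disorder n).real {g | ∃ δ, (n:ℝ) ^ (-(1/100) : ℝ) ≤ δ ∧ GapAtLeast 1 g δ}) atTop (𝓝 0) ∧
    Tendsto (fun n : ℕ => (disorder n).real {g | ∃ t, 0 ≤ t ∧ t ≤ (n:ℝ) ^ (1/100 : ℝ) ∧ MixedAt 1 g t}) atTop (𝓝 0) := by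
  set S := fun n : ℕ => (n:ℝ) ^ (-(1/192) : ℝ)
  set U := fun n : ℕ => (disorder n).real (badSet (n := n) 1 (S n) (1/2))
  have hSlim : Tendsto S atTop (𝓝 0) :=
    (tendsto_rpow_neg_atTop (by norm_num : (0:ℝ) < 1 / 192)).comp tendsto_natCast_atTop_atTop
  have hU : Tendsto U atTop (𝓝 0) := by
    have hlim : ∀ C e : ℝ, 0 < e → Tendsto (fun n : ℕ => C * (n:ℝ) ^ (-e)) atTop (𝓝 0) := fun C e he => by
      simpa using ((tendsto_rpow_neg_atTop he).comp tendsto_natCast_atTop_atTop).const_mul C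
    refine squeeze_zero' (Eventually.of_forall fun n => measureReal_nonneg)
      (g := fun n : ℕ => 4200 * (n:ℝ) ^ (-(15/16) : ℝ) + (256 * 37 * (n:ℝ) ^ (-(15/16) : ℝ) + 9216 * (n:ℝ) ^ (-(1/24) : ℝ))) ?_ ?_
    · have ev : ∀ᶠ n : ℕ in atTop, ((n:ℝ) ^ (-(1/6) : ℝ)) ≤ 1 / 2 :=
        ((tendsto_rpow_neg_atTop (by norm_num : (0:ℝ) < 1 / 6)).comp tendsto_natCast_atTop_atTop).eventually_le_const (by norm_num)
      filter_upwards [ev, hSlim.eventually_le_const (by norm_num : (0:ℝ) < 1 / 4), eventually_gt_atTop 0] with n hn hS hn0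
      have hn' : (0:ℝ) < n := by exact_mod_cast hn0
      have hpos : 0 < S n := Real.rpow_pos_of_pos hn' _
      refine (badSet_small hn0 one_pos le_rfl hpos hS (by norm_num) hn).trans (le_of_eq ?_)
      have e12 : (n:ℝ) * (S n ^ 2) ^ 6 = (n:ℝ) ^ (15/16 : ℝ) := by
        simp only [S, ← Real.rpow_natCast, ← Real.rpow_mul hn'.le]
        nth_rewrite 1 [← Real.rpow_one (n:ℝ)]
        rw [← Real.rpow_add hn']; norm_num
      have e8 : (S n ^ 2) ^ 4 * (n:ℝ) ^ (-(1/24) : ℝ) = (n:ℝ) ^ (-(1/12) : ℝ) := by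
        simp only [S, ← Real.rpow_natCast, ← Real.rpow_mul hn'.le]
        rw [← Real.rpow_add hn']; norm_num
      rw [← e8, e12]
      have e10 : 64 / ((1/2:ℝ) ^ 2 * S n ^ 2) * (37 / ((n:ℝ) * (S n ^ 2) ^ 5)) = 256 * 37 / ((n:ℝ) * (S n ^ 2) ^ 6) := by
        field_simp; ring
      rw [mul_add, e10, e12, Real.rpow_neg hn'.le (15/16)]
      field_simp
      ring
    · simpa using (hlim 4200 (15/16) (by norm_num)).add
        ((hlim (256 * 37) (15/16) (by norm_num)).add (hlim 9216 (1/24) (by norm_num)))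
  have hsmall : ∀ C : ℝ, 0 < C → ∀ᶠ n : ℕ in atTop, (n:ℝ) ^ (1/100 : ℝ) * (1 - 1 + 3 * S n) ^ 2 < C := fun C hC => by
    have h := (((tendsto_rpow_neg_atTop (by norm_num : (0:ℝ) < 1 / 2400)).comp tendsto_natCast_atTop_atTop).const_mul 9)
    rw [mul_zero] at h
    filter_upwards [h.eventually_lt_const hC, eventually_gt_atTop 0] with n hn hn0
    have hn' : (0:ℝ) < n := by exact_mod_cast hn0
    refine lt_of_eq_of_lt ?_ hn
    simp only [S, Function.comp_apply, sub_self, zero_add, mul_pow, ← Real.rpow_natCast, ← Real.rpow_mul hn'.le]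
    rw [mul_left_comm, ← Real.rpow_add hn']; norm_num
  constructor
  · refine squeeze_zero' (Eventually.of_forall fun n => measureReal_nonneg) ?_ hU
    filter_upwards [hsmall (1/2) (by norm_num), eventually_gt_atTop 0] with n hn hn0
    refine measureReal_mono fun g hg => ?_
    obtain ⟨δ, hδ, hg⟩ := hg
    have hn' : (0:ℝ) < n := by exact_mod_cast hn0
    have hp : 0 < (n:ℝ) ^ (1/100 : ℝ) := Real.rpow_pos_of_pos hn' _
    rw [Real.rpow_neg hn'.le, inv_le_iff_one_le_mul₀ hp] at hδ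
    have hδ0 : 0 ≤ δ := nonneg_of_mul_nonneg_left (le_trans zero_le_one hδ) hp
    refine ⟨δ, 1, hδ0, zero_le_one, rayleigh_of_gap hg, ?_⟩
    rw [one_mul]
    refine lt_of_mul_lt_mul_left ?_ hp.le
    linarith
  · refine squeeze_zero' (Eventually.of_forall fun n => measureReal_nonneg) ?_ hU
    filter_upwards [hsmall (Real.log 2 / 2) (by have := Real.log_pos one_lt_two; positivity)] with n hn
    refine measureReal_mono fun g hg => ?_
    obtain ⟨t, ht, htn, hg⟩ := hg
    refine ⟨Real.log 2, t, (Real.log_pos one_lt_two).le, ht, rayleigh_of_mixed ht hg, ?_⟩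
    have := mul_le_mul_of_nonneg_right htn (sq_nonneg (1 - (1:ℝ) + 3 * S n))
    linarith

end Vale.Agent.P150
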