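import Mathlib

open MeasureTheory ProbabilityTheory

namespace Vale.Agent.P150

/-- spin configurations -/
abbrev Cfg (n : ℕ) := Fin n → Bool

/-- unordered pairs, as pairs `i < j` -/
abbrev Edge (n : ℕ) := {p : Fin n × Fin n // p.1 < p.2}

/-- `true ↦ 1`, `false ↦ -1` -/
def spin (b : Bool) : ℝ := if b then 1 else -1

variable {n : ℕ}

/-- `n^{-1/2} ∑_{i<j} g_{ij} x_i x_j` -/
noncomputable def energy (g : Edge n → ℝ) (x : Cfg n) : ℝ :=
  (1 / Real.sqrt n) * ∑ e, g e * spin (x e.1.1) * spin (x e.1.2)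

/-- the Gibbs measure -/
noncomputable def gibbs (β : ℝ) (g : Edge n → ℝ) (x : Cfg n) : ℝ :=
  Real.exp (β * energy g x) / ∑ y : Cfg n, Real.exp (β * energy g y)

/-- symmetrised couplings, zero on the diagonal -/
def coupling (g : Edge n → ℝ) (i j : Fin n) : ℝ :=
  if h : i < j then g ⟨(i, j), h⟩ else if h' : j < i then g ⟨(j, i), h'⟩ else 0

/-- `h_i` -/
noncomputable def localField (β : ℝ) (g : Edge n → ℝ) (i : Fin n) (x : Cfg n) : ℝ :=
  β / Real.sqrt n * ∑ j ∈ Finset.univ.erase i, coupling g i j * spin (x j)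

/-- the heat-bath operator `Q_i` -/
noncomputable def heatBath (β : ℝ) (g : Edge n → ℝ) (i : Fin n) (f : Cfg n → ℝ) (x : Cfg n) : ℝ :=
  (Real.exp (localField β g i x) * f (Function.update x i true)
      + Real.exp (-localField β g i x) * f (Function.update x i false))
    / (2 * Real.cosh (localField β g i x))

/-- the generator `∑ i, (Q_i - I)` as a linear map -/
noncomputable def generatorLin (β : ℝ) (g : Edge n → ℝ) : (Cfg n → ℝ) →ₗ[ℝ] (Cfg n → ℝ) where
  toFun f x := ∑ i, (heatBath β g i f x - f x)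
  map_add' f f' := by
    funext x
    simp only [Pi.add_apply, ← Finset.sum_add_distrib]
    exact Finset.sum_congr rfl fun i _ => by simp only [heatBath, Pi.add_apply]; ring
  map_smul' c f := by
    funext x
    simp only [Pi.smul_apply, smul_eq_mul, RingHom.id_apply, Finset.mul_sum]
    exact Finset.sum_congr rfl fun i _ => by simp only [heatBath, Pi.smul_apply, smul_eq_mul]; ring

/-- the generator as a continuous linear map -/
noncomputable def generator (β : ℝ) (g : Edge n → ℝ) : (Cfg n → ℝ) →L[ℝ] (Cfg n → ℝ) :=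
  LinearMap.toContinuousLinearMap (generatorLin β g)

/-- the continuous-time kernel `P_t(x,y)` -/
noncomputable def kernel (β : ℝ) (g : Edge n → ℝ) (t : ℝ) (x y : Cfg n) : ℝ :=
  NormedSpace.exp (t • generator β g) (Pi.single y (1 : ℝ)) x

/-- `max_x ‖P_t(x,·) - μ‖_TV ≤ 1/4` -/
def MixedAt (β : ℝ) (g : Edge n → ℝ) (t : ℝ) : Prop :=
  ∀ x : Cfg n, (1 / 2 : ℝ) * ∑ y, |kernel β g t x y - gibbs β g y| ≤ 1 / 4

/-- the Dirichlet form `⟨f, -L f⟩_μ` -/
noncomputable def dirichlet (β : ℝ) (g : Edge n → ℝ) (f : Cfg n → ℝ) : ℝ :=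
  -∑ x, gibbs β g x * (f x * generator β g f x)

/-- `Var_μ f` -/
noncomputable def gibbsVariance (β : ℝ) (g : Edge n → ℝ) (f : Cfg n → ℝ) : ℝ :=
  ∑ x, gibbs β g x * f x ^ 2 - (∑ x, gibbs β g x * f x) ^ 2

/-- `gap ≥ δ` -/
def GapAtLeast (β : ℝ) (g : Edge n → ℝ) (δ : ℝ) : Prop :=
  ∀ f : Cfg n → ℝ, δ * gibbsVariance β g f ≤ dirichlet β g f

/-- the law of the disorder -/
noncomputable def disorder (n : ℕ) : Measure (Edge n → ℝ) :=
  Measure.pi fun _ => gaussianReal 0 1

end Vale.Agent.P150
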