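import Vale.Agent.P150.SKNorm

/-! Fast mixing of Sherrington-Kirkpatrick Glauber dynamics for `β < 1/2`. -/

open MeasureTheory Filter
open scoped Topology

namespace Vale.Agent.P150

lemma tendsto_exp_nat {c : ℝ} (hc : 0 < c) :
    Tendsto (fun n : ℕ => Real.exp (-(c * n))) atTop (𝓝 0) :=
  Real.tendsto_exp_atBot.comp (tendsto_neg_atTop_atBot.comp (tendsto_natCast_atTop_atTop.const_mul_atTop hc))

lemma tendsto_pow_exp_nat (k : ℕ) {c : ℝ} (hc : 0 < c) :
    Tendsto (fun n : ℕ => (n:ℝ) ^ k * Real.exp (-(c * n))) atTop (𝓝 0) := by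
  have h := tendsto_pow_const_mul_const_pow_of_lt_one k (Real.exp_pos (-c)).le (Real.exp_lt_one_iff.2 (neg_lt_zero.2 hc))
  refine h.congr fun n => ?_
  rw [← Real.exp_nat_mul]
  ring_nf

theorem fast_mixing (β : ℝ) (hβ0 : 0 ≤ β) (hβ : β < 1 / 2) :
    ∃ δ C : ℝ, 0 < δ ∧ 0 < C ∧ Tendsto (fun n : ℕ => (disorder n).real
      {g | ¬ (GapAtLeast β g δ ∧ MixedAt β g (C * Real.log n))}) atTop (𝓝 0) := by
  set η := (1 - 2 * β) / 2 with hη
  have hη0 : 0 < η := by rw [hη]; linarith
  have hη1 : η ≤ 1 / 2 := by rw [hη]; linarith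
  set Λ := 2 * β + η with hΛ
  have hΛ0 : 0 < Λ := by rw [hΛ]; linarith
  have hΛ1 : Λ ≤ 1 := by rw [hΛ, hη]; linarith
  set e₀ := η / 10 with he₀
  set d₀ := η / 16 with hd₀
  obtain ⟨c₀, hc₀, hop⟩ := opnorm_bound (ε := e₀) (δ := d₀) (by positivity) (by rw [he₀]; linarith)
    (by positivity) (by rw [hd₀]; linarith)
  set c := η / 20000 with hc
  have hc0 : 0 < c := by positivity
  set R := c / 4 with hR
  have hκ : 0 < 1 - Λ - 20001 * R := by rw [hR, hc, hΛ, hη]; linarith
  set δ := 1 - Λ - 20001 * R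
  set K := Real.exp (2 * Λ / δ)
  refine ⟨δ, 9 * K, hκ, by positivity, ?_⟩
  set c₁ := (1 - Real.log 2) / 2
  have hc₁ : 0 < c₁ := by
    have := Real.log_lt_sub_one_of_pos two_pos (by norm_num)
    simp only [c₁]; linarith
  set c₂ := c ^ 2 / 4 with hc₂
  set bad := fun n : ℕ => 2 * Real.exp (-(c₀ * n)) + (n:ℝ) * Real.exp (-(c₁ * n)) +
    Real.exp (Real.log 2 / 2) * ((n:ℝ) ^ 2 * Real.exp (-(c₂ * n)))
  have hbad : Tendsto bad atTop (𝓝 0) := by
    have := (((tendsto_exp_nat hc₀).const_mul 2).add (tendsto_pow_exp_nat 1 hc₁)).add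
      ((tendsto_pow_exp_nat 2 (show 0 < c₂ by positivity)).const_mul (Real.exp (Real.log 2 / 2)))
    simpa [bad] using this
  have key : ∀ n, 2 ≤ n → (disorder n).real {g | ¬ (GapAtLeast β g δ ∧ MixedAt β g (9 * K * Real.log n))} ≤ bad n := by
    intro n hn
    have hn0 : 0 < n := by omega
    have hnR : (0:ℝ) < n := by exact_mod_cast hn0
    set rn := Real.sqrt (n:ℝ)
    have hrn : 0 < rn := Real.sqrt_pos.2 hnR
    have hrn2 : rn * rn = n := Real.mul_self_sqrt hnR.le
    set E := {g : Edge n → ℝ | GapAtLeast β g δ ∧ MixedAt β g (9 * K * Real.log n)}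
    set B1 := {g : Edge n → ℝ | ∃ v : Fin n → ℝ, (2 + 5 * e₀) / (1 - 2 * d₀) * Real.sqrt n * ∑ i, v i ^ 2 <
        |∑ i, ∑ j, coupling g i j * (v i * v j)|}
    set B2 := ⋃ i : Fin n, {g : Edge n → ℝ | 2 * (n:ℝ) ≤ ∑ j, coupling g i j ^ 2}
    set B3 := ⋃ e : Edge n, {g : Edge n → ℝ | c * rn < |g e|}
    have hsub : Eᶜ ⊆ B1 ∪ B2 ∪ B3 := fun g hgE => by
      by_contra hg
      refine hgE ?_
      simp only [B1, B2, B3, Set.mem_union, Set.mem_iUnion, Set.mem_ofPred_eq, not_or, not_exists, not_lt, not_le] at hg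
      obtain ⟨⟨h1, h2⟩, h3⟩ := hg
      have hk0 : 0 ≤ β / rn := by positivity
      have h1' : (2 + 5 * e₀) / (1 - 2 * d₀) ≤ 2 + 2 * η := by
        rw [div_le_iff₀ (by rw [hd₀]; linarith), he₀, hd₀]
        have := mul_nonneg hη0.le (by linarith : (0:ℝ) ≤ 1 / 2 - η)
        linarith
      have hent : ∀ i j, |coupling g i j| ≤ c * rn := fun i j => by
        unfold coupling
        split_ifs
        · exact h3 _
        · exact h3 _
        · simp only [abs_zero]; positivity
      have hsm : ∀ i j, |cpl β g i j| ≤ c / 2 := fun i j => by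
        simp only [cpl]
        rw [abs_mul, abs_of_nonneg hk0]
        refine (mul_le_mul_of_nonneg_left (hent i j) hk0).trans ?_
        rw [show β / rn * (c * rn) = β * c by field_simp]
        exact (mul_le_mul_of_nonneg_right hβ.le hc0.le).trans_eq (by ring)
      have hr2 : ∀ i, ∑ j, cpl β g i j ^ 2 ≤ Λ / 2 := fun i => by
        simp only [cpl, mul_pow, ← Finset.mul_sum, div_pow, sq rn, show Real.sqrt (n:ℝ) = rn from rfl, hrn2]
        refine (mul_le_mul_of_nonneg_left (h2 i).le (by positivity)).trans ?_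
        rw [show β ^ 2 / (n:ℝ) * (2 * n) = β * (2 * β) by field_simp]
        refine (mul_le_mul hβ.le (show 2 * β ≤ Λ by rw [hΛ]; linarith) (by positivity) (by norm_num)).trans_eq ?_
        ring
      have hJ : Ising.Good (cpl β g) Λ R := by
        refine ⟨fun i j => by simp only [cpl, coupling_symm g i j], fun i => by simp [cpl, coupling_self], fun v => ?_, hr2,
          fun i j => (hsm i j).trans (by rw [hc]; linarith), fun i => ?_⟩
        · have hS : 0 ≤ ∑ i, v i ^ 2 := Finset.sum_nonneg fun i _ => sq_nonneg _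
          simp only [cpl, mul_assoc, ← Finset.mul_sum, abs_mul, abs_of_nonneg hk0, show Real.sqrt (n:ℝ) = rn from rfl]
          refine (mul_le_mul_of_nonneg_left ((h1 v).trans (mul_le_mul_of_nonneg_right
            (mul_le_mul_of_nonneg_right h1' (Real.sqrt_nonneg _)) hS)) hk0).trans ?_
          rw [← mul_assoc]
          refine mul_le_mul_of_nonneg_right ?_ hS
          rw [show β / rn * ((2 + 2 * η) * Real.sqrt n) = 2 * β + 2 * β * η by
            simp only [show Real.sqrt (n:ℝ) = rn from rfl]; field_simp]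
          rw [hΛ]
          linarith [mul_le_mul_of_nonneg_right (show 2 * β ≤ 1 by linarith) hη0.le]
        · calc ∑ j, |cpl β g i j| ^ 3 ≤ ∑ j, c / 2 * cpl β g i j ^ 2 := Finset.sum_le_sum fun j _ => by
                rw [pow_succ' |cpl β g i j| 2, sq_abs]
                exact mul_le_mul_of_nonneg_right (hsm i j) (sq_nonneg _)
            _ ≤ c / 2 * (Λ / 2) := by rw [← Finset.mul_sum]; exact mul_le_mul_of_nonneg_left (hr2 i) (by positivity)
            _ ≤ R := by rw [hR]; linarith [mul_le_mul_of_nonneg_left hΛ1 hc0.le]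
      exact ⟨gap_of_good β g hJ hκ, mixed_of_good β g hJ hΛ0 hΛ1 hκ hn⟩
    have p1 : (disorder n).real B1 ≤ 2 * Real.exp (-(c₀ * n)) := hop n hn0
    have p2 : (disorder n).real B2 ≤ (n:ℝ) * Real.exp (-(c₁ * n)) := by
      refine (measureReal_iUnion_fintype_le _).trans ((Finset.sum_le_sum fun i _ => row_bound i).trans_eq ?_)
      rw [Finset.sum_const, Finset.card_univ, Fintype.card_fin, nsmul_eq_mul]
    have p3 : (disorder n).real B3 ≤ Real.exp (Real.log 2 / 2) * ((n:ℝ) ^ 2 * Real.exp (-(c₂ * n))) := by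
      refine (measureReal_iUnion_fintype_le _).trans ((Finset.sum_le_sum fun e _ => entry_bound e (by positivity)).trans ?_)
      rw [Finset.sum_const, nsmul_eq_mul, Finset.card_univ]
      have hcard : (Fintype.card (Edge n) : ℝ) ≤ (n:ℝ) ^ 2 := by
        have := Fintype.card_subtype_le (fun p : Fin n × Fin n => p.1 < p.2)
        rw [Fintype.card_prod, Fintype.card_fin, ← sq] at this
        exact_mod_cast this
      refine (mul_le_mul_of_nonneg_right hcard (Real.exp_pos _).le).trans (le_of_eq ?_)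
      rw [mul_pow, sq rn, hrn2, sub_eq_add_neg, Real.exp_add, hc₂]
      ring_nf
    have h := (measureReal_mono (μ := disorder n) hsub).trans
      ((measureReal_union_le _ _).trans (add_le_add (measureReal_union_le _ _) le_rfl))
    show (disorder n).real Eᶜ ≤ bad n
    simp only [bad]
    linarith
  exact squeeze_zero' (Eventually.of_forall fun n => measureReal_nonneg) (eventually_atTop.2 ⟨2, key⟩) hbad

end Vale.Agent.P150
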