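import Vale.Agent.P150.Ising

/-! Approximate tensorisation of entropy for Ising models with small couplings. -/

open MeasureTheory
open scoped MatrixOrder Matrix

namespace Vale.Agent.P150.Ising

variable {n : ℕ} {J : Fin n → Fin n → ℝ} (b : Fin n → ℝ)

/-- heat-bath average at site `i` -/
noncomputable def qb (J : Fin n → Fin n → ℝ) (i : Fin n) (f : Cfg n → ℝ) (x : Cfg n) : ℝ := f x - proj J b i f x

lemma qb_eq (i : Fin n) (f : Cfg n → ℝ) (x : Cfg n) :
    qb b J i f x = ((1 + mag J b i x) * f (Function.update x i true) +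
      (1 - mag J b i x) * f (Function.update x i false)) / 2 := by
  unfold qb proj dd
  cases hx : x i
  · have e : Function.update x i false = x := by rw [← hx, Function.update_eq_self]
    rw [e]; simp [spin]; ring
  · have e : Function.update x i true = x := by rw [← hx, Function.update_eq_self]
    rw [e]; simp [spin]; ring

lemma qb_pos {f : Cfg n → ℝ} (hf : ∀ x, 0 < f x) (i : Fin n) (x : Cfg n) : 0 < qb b J i f x := by
  rw [qb_eq]
  have := abs_lt.1 (tanh_abs_lt (fld J b i x))
  have h1 : 0 < 1 + mag J b i x := by simp only [mag]; linarith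
  have h2 : 0 < 1 - mag J b i x := by simp only [mag]; linarith
  have := hf (Function.update x i true); have := hf (Function.update x i false)
  positivity

lemma qb_update (hd : ∀ i, J i i = 0) (i : Fin n) (f : Cfg n → ℝ) (x : Cfg n) (c : Bool) :
    qb b J i f (Function.update x i c) = qb b J i f x := by
  rw [qb_eq, qb_eq, mag_update b hd]; simp

lemma avg_qb_mul (hs : ∀ i j, J i j = J j i) (hd : ∀ i, J i i = 0) (i : Fin n) (c f : Cfg n → ℝ)
    (hc : ∀ x v, c (Function.update x i v) = c x) :
    ∑ x, wt J b x * (c x * qb b J i f x) = ∑ x, wt J b x * (c x * f x) := by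
  have h := site_mul b hs hd i c f
  have e : ∀ x, dd i c x = 0 := fun x => by simp [dd, hc]
  simp only [e, zero_mul, mul_zero, Finset.sum_const_zero] at h
  simp only [qb, mul_sub, Finset.sum_sub_distrib, h, sub_zero]

lemma avg_qb_symm (hs : ∀ i j, J i j = J j i) (hd : ∀ i, J i i = 0) (i : Fin n) (h f : Cfg n → ℝ) :
    ∑ x, wt J b x * (h x * qb b J i f x) = ∑ x, wt J b x * (f x * qb b J i h x) := by
  simp only [qb, mul_sub, Finset.sum_sub_distrib, site_mul b hs hd]
  exact congrArg₂ (· - ·) (Finset.sum_congr rfl fun x _ => by ring) (Finset.sum_congr rfl fun x _ => by ring)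

/-- `f log (f / c)` with the linear correction -/
noncomputable def gap₁ (a c : ℝ) : ℝ := a * (Real.log a - Real.log c) - a + c

lemma product_le (β : Fin n → ℝ) {f : Cfg n → ℝ} (hf : ∀ x, 0 < f x) (c : Fin n → Cfg n → ℝ)
    (hc0 : ∀ i x, 0 < c i x) (hc : ∀ i x v, c i (Function.update x i v) = c i x) :
    ent (wt (fun _ _ => (0:ℝ)) β) f ≤ ∑ i, ∑ x, wt (fun _ _ => (0:ℝ)) β x * gap₁ (f x) (c i x) := by
  set O : Fin n → Fin n → ℝ := fun _ _ => 0
  have hs : ∀ i j, O i j = O j i := fun _ _ => rfl
  have hd : ∀ i, O i i = 0 := fun _ => rfl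
  have hm : ∀ i x y, mag O β i x = mag O β i y := fun i x y => by simp [mag, fld, O]
  let F : ℕ → Cfg n → ℝ := Nat.rec f fun k g => if h : k < n then qb β O ⟨k, h⟩ g else g
  have hF : ∀ k (h : k < n), F (k + 1) = qb β O ⟨k, h⟩ (F k) := fun k h => by simp [F, h]
  have hpos : ∀ k, k ≤ n → ∀ x, 0 < F k x := by
    intro k
    induction k with
    | zero => exact fun _ x => hf x
    | succ k ih => intro hk x; rw [hF k (by omega)]; exact qb_pos β (ih (by omega)) _ x
  have hinv : ∀ k, k ≤ n → ∀ l : Fin n, l.val < k → ∀ x v, F k (Function.update x l v) = F k x := by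
    intro k
    induction k with
    | zero => intro _ l hl; omega
    | succ k ih =>
      intro hk l hl x v
      rw [hF k (by omega)]
      by_cases he : (⟨k, by omega⟩ : Fin n) = l
      · rw [← he]; exact qb_update β hd _ _ x v
      · have hl' : l.val < k := by
          have : l.val ≠ k := fun h => he (Fin.ext h.symm)
          omega
        rw [qb_eq, qb_eq, hm _ (Function.update x l v) x, Function.update_comm (Ne.symm he),
          Function.update_comm (Ne.symm he), ih (by omega) l hl', ih (by omega) l hl']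
  have hmean : ∀ k, k ≤ n → ∑ x, wt O β x * F k x = ∑ x, wt O β x * f x := by
    intro k
    induction k with
    | zero => intro _; rfl
    | succ k ih =>
      intro hk
      rw [hF k (by omega), ← ih (by omega)]
      simpa using avg_qb_mul β hs hd ⟨k, by omega⟩ (fun _ => 1) (F k) (fun _ _ => rfl)
  have hconst : ∀ x, F n x = ∑ y, wt O β y * f y := by
    intro x
    have h1 : ∀ (y : Cfg n) (S : Finset (Fin n)) (x : Cfg n), (∀ i ∉ S, x i = y i) → F n x = F n y := by
      intro y S
      induction S using Finset.induction_on with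
      | empty => intro x hx; rw [show x = y from funext fun i => hx i (Finset.notMem_empty i)]
      | insert a S ha ih =>
        intro x hx
        rw [← hinv n le_rfl a a.isLt x (y a)]
        refine ih _ fun i hi => ?_
        by_cases hia : i = a
        · subst hia; simp
        · rw [Function.update_of_ne hia]; exact hx i (by simp [hia, hi])
    have h2 : ∀ y, F n y = F n x := fun y => h1 x Finset.univ y fun i hi => absurd (Finset.mem_univ i) hi
    rw [← hmean n le_rfl]
    simp only [h2, ← Finset.sum_mul, wt_sum, one_mul]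
  set step := fun (k : ℕ) => ∑ x, wt O β x * (f x * (Real.log (F k x) - Real.log (F (k + 1) x)))
  have htel : ent (wt O β) f = ∑ k ∈ Finset.range n, step k := by
    have e : ∀ x, ∑ k ∈ Finset.range n, (Real.log (F k x) - Real.log (F (k + 1) x)) =
        Real.log (f x) - Real.log (∑ y, wt O β y * f y) := fun x => by
      rw [Finset.sum_range_sub' (fun k => Real.log (F k x)) n, hconst]; rfl
    simp only [step]
    rw [Finset.sum_comm]
    simp only [← Finset.mul_sum]
    simp only [e, mul_sub, Finset.sum_sub_distrib, ent]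
    congr 1
    rw [Finset.sum_mul]
    exact Finset.sum_congr rfl fun x _ => by ring
  rw [htel, ← Fin.sum_univ_eq_sum_range]
  refine Finset.sum_le_sum fun i _ => ?_
  simp only [step]
  set q := qb β O i f with hq
  set h := fun x => Real.log (F i x) - Real.log (F (i + 1) x)
  have hq0 : ∀ x, 0 < q x := qb_pos β hf i
  have pt : ∀ x, f x * h x ≤ gap₁ (f x) (c i x) +
      ((f x * ((c i x) / q x)) - c i x) + (q x * Real.exp (h x) - f x) := fun x => by
    have h1 := Real.log_le_sub_one_of_pos (x := c i x / q x) (div_pos (hc0 i x) (hq0 x))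
    rw [Real.log_div (hc0 i x).ne' (hq0 x).ne'] at h1
    have h2 := Real.log_le_sub_one_of_pos (x := q x * Real.exp (h x) / f x)
      (div_pos (mul_pos (hq0 x) (Real.exp_pos _)) (hf x))
    rw [Real.log_div (mul_pos (hq0 x) (Real.exp_pos _)).ne' (hf x).ne', Real.log_mul (hq0 x).ne' (Real.exp_pos _).ne',
      Real.log_exp] at h2
    have h3 := mul_le_mul_of_nonneg_left (add_le_add h1 h2) (hf x).le
    have e : f x * (c i x / q x - 1 + (q x * Real.exp (h x) / f x - 1)) =
        f x * (c i x / q x) - f x + (q x * Real.exp (h x) - f x) := by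
      have := (hf x).ne'
      field_simp
    rw [e] at h3
    simp only [gap₁]; linarith
  refine (Finset.sum_le_sum fun x _ => mul_le_mul_of_nonneg_left (pt x) (wt_pos O β x).le).trans (le_of_eq ?_)
  simp only [mul_add, mul_sub, Finset.sum_add_distrib, Finset.sum_sub_distrib]
  have i1 : ∑ x, wt O β x * (f x * (c i x / q x)) = ∑ x, wt O β x * c i x := by
    have := avg_qb_mul β hs hd i (fun x => c i x / q x) f (fun x v => by simp only [hc, hq, qb_update β hd])
    rw [show ∑ x, wt O β x * (f x * (c i x / q x)) = ∑ x, wt O β x * (c i x / q x * f x) from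
      Finset.sum_congr rfl fun x _ => by ring, ← this]
    exact Finset.sum_congr rfl fun x _ => by rw [← hq, div_mul_cancel₀ _ (hq0 x).ne']
  have i2 : ∑ x, wt O β x * (q x * Real.exp (h x)) = ∑ x, wt O β x * f x := by
    rw [show ∑ x, wt O β x * (q x * Real.exp (h x)) = ∑ x, wt O β x * (Real.exp (h x) * qb β O i f x) from
      Finset.sum_congr rfl fun x _ => by rw [hq]; ring, avg_qb_symm β hs hd]
    refine Finset.sum_congr rfl fun x _ => ?_
    have hinv' := hinv (i + 1) i.isLt i (Nat.lt_succ_self _)
    have e : qb β O i (fun x => Real.exp (h x)) x = 1 := by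
      have he : ∀ y, Real.exp (h y) = F i y / F (i + 1) y := fun y => by
        simp only [h]
        rw [Real.exp_sub, Real.exp_log (hpos i i.isLt.le y), Real.exp_log (hpos (i + 1) i.isLt y)]
      simp only [qb_eq, he, hinv']
      have h5 := congrFun (hF i i.isLt) x
      rw [qb_eq, Fin.eta] at h5
      have := (hpos (i + 1) i.isLt x).ne'
      rw [← mul_div_assoc, ← mul_div_assoc, ← add_div, div_right_comm, ← h5, div_self this]
    rw [e, mul_one]
  rw [i1, i2]; ring

lemma exists_factor {Λ R : ℝ} (hJ : Good J Λ R) : ∃ B : Fin n → Fin n → ℝ,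
    (∀ i j, B i j = B j i) ∧ ∀ i j, ∑ k, B k i * B k j = J i j + if i = j then Λ else 0 := by
  set M : Matrix (Fin n) (Fin n) ℝ := Matrix.of fun i j => J i j + if i = j then Λ else 0
  have hH : M.IsHermitian := Matrix.IsHermitian.ext fun i j => by simp [M, hJ.symm i j, eq_comm]
  have hP : M.PosSemidef := Matrix.PosSemidef.of_dotProduct_mulVec_nonneg hH fun v => by
    have h := (abs_le.1 (hJ.op v)).1
    simp only [dotProduct, Matrix.mulVec, M, Matrix.of_apply, Pi.star_apply, star_trivial, add_mul, ite_mul, zero_mul,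
      Finset.sum_add_distrib, Finset.sum_ite_eq, Finset.mem_univ, if_true, mul_add, Finset.mul_sum]
    have e1 : ∑ i, ∑ j, v i * (J i j * v j) = ∑ i, ∑ j, J i j * (v i * v j) :=
      Finset.sum_congr rfl fun i _ => Finset.sum_congr rfl fun j _ => by ring
    have e2 : ∑ i, v i * (Λ * v i) = Λ * ∑ i, v i ^ 2 := by
      rw [Finset.mul_sum]; exact Finset.sum_congr rfl fun i _ => by ring
    linarith
  set B := CFC.sqrt M
  have hB : B.IsHermitian := (Matrix.nonneg_iff_posSemidef.1 (CFC.sqrt_nonneg M)).1
  have hBB : B * B = M := CFC.sqrt_mul_sqrt_self M hP.nonneg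
  refine ⟨fun i j => B i j, fun i j => by simpa using (hB.apply i j).symm, fun i j => ?_⟩
  have := congrFun (congrFun hBB i) j
  simp only [Matrix.mul_apply, M, Matrix.of_apply] at this
  rw [← this]
  exact Finset.sum_congr rfl fun k _ => by
    show B k i * B k j = B i k * B k j
    rw [show B k i = B i k by simpa using (hB.apply i k)]

/-- approximate tensorisation of entropy -/
theorem tensor {Λ R : ℝ} (hJ : Good J Λ R) (hΛ : 0 < Λ) (hκ : 0 < 1 - Λ - 20001 * R) {f : Cfg n → ℝ}
    (hf : ∀ x, 0 < f x) :
    ent (wt J b) f ≤ Real.exp (2 * Λ / (1 - Λ - 20001 * R)) *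
      ∑ i, ∑ x, wt J b x * (f x * (Real.log (f x) - Real.log (qb b J i f x))) := by
  obtain ⟨B, hBs, hB⟩ := exists_factor hJ
  set κ := 1 - Λ - 20001 * R
  set a := fun (x : Cfg n) (k : Fin n) => ∑ i, B k i * spin (x i) with ha
  set w := fun (z : Fin n → ℝ) (i : Fin n) => ∑ k, B k i * z k with hw
  have hdot : ∀ z x, dot (a x) z = ∑ i, w z i * spin (x i) := fun z x => by
    simp only [dot, ha, hw, Finset.sum_mul]
    rw [Finset.sum_comm]
    exact Finset.sum_congr rfl fun i _ => Finset.sum_congr rfl fun k _ => by ring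
  have hBv : ∀ v : Fin n → ℝ, ∑ k, (∑ i, B k i * v i) ^ 2 = (∑ i, ∑ j, J i j * (v i * v j)) + Λ * ∑ i, v i ^ 2 := by
    intro v
    simp only [sq, Finset.sum_mul_sum]
    rw [Finset.sum_comm, Finset.mul_sum, ← Finset.sum_add_distrib]
    refine Finset.sum_congr rfl fun i _ => ?_
    rw [Finset.sum_comm]
    have e : ∀ j, ∑ k, B k i * v i * (B k j * v j) = (J i j + if i = j then Λ else 0) * (v i * v j) := fun j => by
      rw [← hB, Finset.sum_mul]
      exact Finset.sum_congr rfl fun k _ => by ring
    simp only [e, add_mul, Finset.sum_add_distrib, ite_mul, zero_mul, Finset.sum_ite_eq, Finset.mem_univ, if_true]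
  have hnorm : ∀ x, ∑ k, a x k ^ 2 = (∑ i, ∑ j, J i j * (spin (x i) * spin (x j))) + Λ * n := fun x => by
    simp only [ha]; rw [hBv]; simp [sq, spin_mul_self]
  have hpost : ∀ θ z x, post (wt J b) a θ z x =
      wt (fun i j => (1 - θ ^ 2) * J i j) (fun i => b i + θ * w z i) x := by
    intro θ z x
    have e : ∀ y, qE J b y + (θ * dot (a y) z - θ ^ 2 / 2 * ∑ k, a y k ^ 2) =
        qE (fun i j => (1 - θ ^ 2) * J i j) (fun i => b i + θ * w z i) y + (-(θ ^ 2 / 2 * (Λ * n))) := fun y => by
      simp only [qE, hdot, hnorm, add_mul, Finset.sum_add_distrib, mul_assoc, ← Finset.mul_sum]; ring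
    set Z := ∑ y : Cfg n, Real.exp (qE J b y) with hZ
    have hZ0 : Z ≠ 0 := (Finset.sum_pos (fun _ _ => Real.exp_pos _) Finset.univ_nonempty).ne'
    have num : ∀ y, wt J b y * ker a θ z y = Real.exp (qE (fun i j => (1 - θ ^ 2) * J i j) (fun i => b i + θ * w z i) y) *
        (Real.exp (-(θ ^ 2 / 2 * (Λ * n))) / Z) := fun y => by
      rw [wt, ker, div_mul_eq_mul_div, ← Real.exp_add, e, Real.exp_add, mul_div_assoc]
    simp only [post, mix, num]
    rw [← Finset.sum_mul, mul_div_mul_right _ _ (div_ne_zero (Real.exp_pos _).ne' hZ0), wt]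
  have hsub : ∀ θ z, 0 ≤ θ → θ ≤ 1 → ∀ v : Fin n → ℝ,
      ∑ x, post (wt J b) a θ z x * Real.exp (dot v (a x) - ∑ y, post (wt J b) a θ z y * dot v (a y)) ≤
        Real.exp (2 * Λ / κ * (∑ k, v k ^ 2) / 2) := by
    intro θ z h0 h1 v
    have hd : ∀ x, dot v (a x) = ∑ i, w v i * spin (x i) := fun x => by
      rw [← hdot]; simp only [dot, mul_comm]
    simp only [hpost, hd]
    refine (subgaussian _ (hJ.scale (s := 1 - θ ^ 2) (by nlinarith) (by nlinarith [sq_nonneg θ])) hκ (w v)).trans ?_
    refine Real.exp_le_exp.2 (div_le_div_of_nonneg_right ?_ two_pos.le)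
    rw [div_mul_eq_mul_div]
    refine div_le_div_of_nonneg_right ?_ hκ.le
    set W := ∑ i, w v i ^ 2 with hW
    have h2 : W = ∑ k, v k * ∑ i, B k i * w v i := by
      rw [hW]
      simp only [hw, Finset.mul_sum, sq, Finset.sum_mul]
      rw [Finset.sum_comm]
      exact Finset.sum_congr rfl fun k _ => Finset.sum_congr rfl fun i _ => Finset.sum_congr rfl fun l _ => by ring
    have h3 := Finset.sum_mul_sq_le_sq_mul_sq Finset.univ v (fun k => ∑ i, B k i * w v i)
    rw [← h2, hBv] at h3
    have h4 := (le_abs_self _).trans (hJ.op (w v))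
    rw [← hW] at h4 h3
    have hv : 0 ≤ ∑ k, v k ^ 2 := Finset.sum_nonneg fun _ _ => sq_nonneg _
    have h5 : W ^ 2 ≤ (∑ k, v k ^ 2) * (2 * Λ * W) := h3.trans (mul_le_mul_of_nonneg_left (by linarith) hv)
    rcases eq_or_lt_of_le (show 0 ≤ W from Finset.sum_nonneg fun _ _ => sq_nonneg _) with h | h
    · rw [← h]; positivity
    · refine le_of_mul_le_mul_right ?_ h
      calc W * W = W ^ 2 := (sq W).symm
        _ ≤ _ := h5.trans_eq (by ring)
  have hstab := entropic_stability (a := a) (div_pos (by linarith) hκ) (wt_pos J b) (wt_sum J b) hf hsub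
  refine hstab.trans (mul_le_mul_of_nonneg_left ?_ (Real.exp_pos _).le)
  set T := fun x => ∑ i, gap₁ (f x) (qb b J i f x)
  have hT : ∀ z, mix (wt J b) a 1 z * ent (post (wt J b) a 1 z) f ≤ mix (fun x => wt J b x * T x) a 1 z := by
    intro z
    have hz : ∀ x, post (wt J b) a 1 z x = wt (fun _ _ => (0:ℝ)) (fun i => b i + 1 * w z i) x := fun x => by
      rw [hpost]; norm_num
    rw [show post (wt J b) a 1 z = wt (fun _ _ => (0:ℝ)) (fun i => b i + 1 * w z i) from funext hz]
    refine (mul_le_mul_of_nonneg_left (product_le _ hf (fun i => qb b J i f) (fun i => qb_pos b hf i)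
      (fun i => qb_update b hJ.diag i f)) (mix_pos (wt_pos J b) a 1 z).le).trans (le_of_eq ?_)
    rw [Finset.sum_comm, Finset.mul_sum, mix]
    refine Finset.sum_congr rfl fun x _ => ?_
    rw [← Finset.mul_sum, ← hz x]
    simp only [post, T]
    have hm : mix (wt J b) a 1 z ≠ 0 := (mix_pos (wt_pos J b) a 1 z).ne'
    simp only [← mix.eq_def]
    field_simp
  have hI : Integrable (fun z => mix (fun x => wt J b x * T x) a 1 z) (gauss (Fin n)) :=
    integrable_of_bound (continuous_mix _ a 1) fun z => abs_mix_le (A₀ := ∑ y, ∑ k, |a y k|) (fun x k =>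
      (Finset.single_le_sum (f := fun k => |a x k|) (fun _ _ => abs_nonneg _) (Finset.mem_univ k)).trans
        (Finset.single_le_sum (f := fun y => ∑ k, |a y k|) (fun y _ => Finset.sum_nonneg fun _ _ => abs_nonneg _)
          (Finset.mem_univ x))) _ 1 z
  by_cases hint : Integrable (fun z => mix (wt J b) a 1 z * ent (post (wt J b) a 1 z) f) (gauss (Fin n))
  · refine (integral_mono hint hI hT).trans (le_of_eq ?_)
    rw [integral_mix]
    simp only [T, Finset.mul_sum]
    rw [Finset.sum_comm]
    refine Finset.sum_congr rfl fun i _ => ?_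
    have h := avg_qb_mul b hJ.symm hJ.diag i (fun _ => 1) f (fun _ _ => rfl)
    simp only [one_mul] at h
    simp only [gap₁, mul_add, mul_sub, Finset.sum_add_distrib, Finset.sum_sub_distrib, h]
    ring
  · rw [integral_undef hint]
    refine Finset.sum_nonneg fun i _ => ?_
    have h := avg_qb_mul b hJ.symm hJ.diag i (fun _ => 1) f (fun _ _ => rfl)
    simp only [one_mul] at h
    have h2 : 0 ≤ ∑ x, wt J b x * gap₁ (f x) (qb b J i f x) := Finset.sum_nonneg fun x _ => by
      refine mul_nonneg (wt_pos J b x).le ?_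
      have h1 := Real.log_le_sub_one_of_pos (div_pos (qb_pos (J := J) b hf i x) (hf x))
      rw [Real.log_div (qb_pos (J := J) b hf i x).ne' (hf x).ne'] at h1
      have h3 := mul_le_mul_of_nonneg_left h1 (hf x).le
      rw [mul_sub, mul_sub, mul_div_cancel₀ _ (hf x).ne', mul_one] at h3
      simp only [gap₁]; linarith
    simp only [gap₁, mul_add, mul_sub, Finset.sum_add_distrib, Finset.sum_sub_distrib, h] at h2
    simp only [mul_sub, Finset.sum_sub_distrib]
    linarith

end Vale.Agent.P150.Ising
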