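import Vale.Agent.P150.ResolventLaw

/-! The mean-square self-consistent equation of the Gibbs resolvent form. -/

open MeasureTheory ProbabilityTheory Filter Matrix
open scoped ComplexConjugate

namespace Vale.Agent.P150

variable {n : ℕ}

lemma hasDerivAt_gibbs_edge (β : ℝ) (g : Edge n → ℝ) (e : Edge n) (x : Cfg n) (t : ℝ) :
    HasDerivAt (fun s => gibbs β (Function.update g e s) x)
      (β * gibbs β (Function.update g e t) x *
        (coef x e - ∑ y, gibbs β (Function.update g e t) y * coef y e)) t := by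
  classical
  have hE : ∀ y, HasDerivAt (fun s => energy (Function.update g e s) y) (coef y e) t := fun y => by
    simp only [energy_coef]
    refine (HasDerivAt.fun_sum fun j _ => ((hasDerivAt_pi.1 (hasDerivAt_update g e t)) j).const_mul (coef y j)).congr_deriv ?_
    simp [Pi.single_apply]
  have hw : ∀ y, HasDerivAt (fun s => Real.exp (β * energy (Function.update g e s) y))
      (Real.exp (β * energy (Function.update g e t) y) * (β * coef y e)) t := fun y => ((hE y).const_mul β).exp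
  have hZ := HasDerivAt.fun_sum (u := Finset.univ) fun y (_ : y ∈ Finset.univ) => hw y
  refine ((hw x).div hZ (partition_pos β _).ne').congr_deriv ?_
  have hp := (partition_pos β (Function.update g e t)).ne'
  simp only [gibbs, div_mul_eq_mul_div, ← Finset.sum_div]
  have e1 : ∑ y, Real.exp (β * energy (Function.update g e t) y) * (β * coef y e) =
      β * ∑ y, Real.exp (β * energy (Function.update g e t) y) * coef y e := by
    rw [Finset.mul_sum]; exact Finset.sum_congr rfl fun y _ => by ring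
  rw [e1]
  field_simp

variable {z : ℂ}

lemma norm_formDefect_le (hz : 0 < z.im) (hz1 : z.im ≤ 1) (hz4 : ‖z‖ ≤ 4) {β : ℝ} (hβ : 0 ≤ β) (hβ1 : β ≤ 1)
    (g : Edge n → ℝ) (x : Cfg n) : ‖formDefect β z g x‖ ≤ 7 / z.im ^ 2 := by
  have hT := norm_rtr_le hz g
  have hP := norm_rform_le hz g x
  have h1 : (1:ℝ) ≤ 1 / z.im := (one_le_div hz).2 hz1
  have h2 := norm_sub_le (z * rform z g x - 1) ((rtr z g + β) * rform z g x)
  have h3 := norm_sub_le (z * rform z g x) 1
  have h4 := norm_add_le (rtr z g) (β:ℂ)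
  rw [Complex.norm_real, Real.norm_eq_abs, abs_of_nonneg hβ] at h4
  rw [norm_one, norm_mul] at h3
  rw [norm_mul] at h2
  have h5 := mul_le_mul hz4 hP (norm_nonneg _) (by norm_num)
  have h6 := mul_le_mul (h4.trans (add_le_add hT hβ1)) hP (norm_nonneg _) (by positivity)
  have h7 := le_self_pow₀ (n := 2) h1 two_ne_zero
  rw [show 7 / z.im ^ 2 = 7 * (1 / z.im) ^ 2 by rw [div_pow]; ring]
  unfold formDefect
  linarith

lemma res_sq_symm (g : Edge n → ℝ) (a b : Fin n) : (res z g * res z g) a b = (res z g * res z g) b a := by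
  simp only [Matrix.mul_apply]
  exact Finset.sum_congr rfl fun i _ => by rw [res_symm g a i, res_symm g i b]; ring

lemma res_sq_entry (hz : 0 < z.im) (g : Edge n → ℝ) (i k : Fin n) : ‖(res z g * res z g) i k‖ ≤ 1 / z.im ^ 2 := by
  refine (pow_le_pow_iff_left₀ (norm_nonneg _) (by positivity) two_ne_zero).1 ?_
  refine ((Finset.single_le_sum (f := fun i => ‖(res z g * res z g) i k‖ ^ 2) (fun _ _ => sq_nonneg _) (Finset.mem_univ i)).trans
    (res_sq_col hz g k)).trans (le_of_eq ?_)
  rw [div_pow, ← pow_mul, one_pow]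

/-- edge numerator of the resolvent form -/
noncomputable def formEdge (z : ℂ) (g : Edge n → ℝ) (x : Cfg n) (e : Edge n) : ℂ :=
  cspin x e.1.1 * kx z g x e.1.2 + cspin x e.1.2 * kx z g x e.1.1

/-- its derivative in the same coupling -/
noncomputable def formEdgeD (z : ℂ) (g : Edge n → ℝ) (x : Cfg n) (e : Edge n) : ℂ :=
  (cspin x e.1.1 * (res z g e.1.2 e.1.1 * kx z g x e.1.2 + res z g e.1.2 e.1.2 * kx z g x e.1.1) +
    cspin x e.1.2 * (res z g e.1.1 e.1.1 * kx z g x e.1.2 + res z g e.1.1 e.1.2 * kx z g x e.1.1)) / (Real.sqrt n : ℂ)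

/-- derivative of the defect -/
noncomputable def formDefectD (β : ℝ) (z : ℂ) (g : Edge n → ℝ) (x : Cfg n) (e : Edge n) : ℂ :=
  (z - rtr z g - β) * (2 / ((n:ℂ) * (Real.sqrt n : ℂ)) * (kx z g x e.1.1 * kx z g x e.1.2)) -
    rform z g x * (2 / ((n:ℂ) * (Real.sqrt n : ℂ)) * (res z g * res z g) e.1.1 e.1.2)

lemma formEdge_le (g : Edge n → ℝ) (x : Cfg n) (e : Edge n) :
    ‖formEdge z g x e‖ ≤ ‖kx z g x e.1.2‖ + ‖kx z g x e.1.1‖ := by
  refine (norm_add_le _ _).trans (le_of_eq ?_)
  rw [norm_mul, norm_mul, cspin_norm, cspin_norm, one_mul, one_mul]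

lemma formEdge_sum_le (hn : 0 < n) (hz : 0 < z.im) (hz1 : z.im ≤ 1) (hz4 : ‖z‖ ≤ 4) {β : ℝ} (hβ : 0 ≤ β)
    (hβ1 : β ≤ 1) (g : Edge n → ℝ) (x : Cfg n) :
    ‖∑ e, 1 / ((n:ℂ) * (Real.sqrt n : ℂ)) * formEdge z g x e * conj (formDefectD β z g x e)‖ ≤ 16 / (n * z.im ^ 5) := by
  have hn' : (0:ℝ) < n := by exact_mod_cast hn
  set η := z.im
  have h1η : (1:ℝ) ≤ 1 / η := (one_le_div hz).2 hz1
  set w := fun i => ‖kx z g x i‖
  set M := fun i j => ‖(res z g * res z g) i j‖
  have hz5 : ‖z - rtr z g - β‖ ≤ 7 / η := by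
    have h := norm_sub_le (z - rtr z g) (β:ℂ)
    have h' := norm_sub_le z (rtr z g)
    rw [Complex.norm_real, Real.norm_eq_abs, abs_of_nonneg hβ] at h
    have hT : ‖rtr z g‖ ≤ 1 / η := norm_rtr_le hz g
    rw [show (7:ℝ) / η = 7 * (1 / η) by ring]
    linarith
  have pt : ∀ e : Edge n, ‖1 / ((n:ℂ) * (Real.sqrt n : ℂ)) * formEdge z g x e * conj (formDefectD β z g x e)‖ ≤
      2 / (n:ℝ) ^ 3 * ((7 / η) * (w e.1.1 * w e.1.2 ^ 2 + w e.1.2 * w e.1.1 ^ 2) +
        (1 / η) * (w e.1.2 * M e.1.1 e.1.2 + w e.1.1 * M e.1.2 e.1.1)) := fun e => by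
    have hs : Real.sqrt n * Real.sqrt n = n := Real.mul_self_sqrt hn'.le
    have hD : ‖formDefectD β z g x e‖ ≤ 2 / ((n:ℝ) * Real.sqrt n) * ((7 / η) * (w e.1.1 * w e.1.2) + (1 / η) * M e.1.1 e.1.2) := by
      refine (norm_sub_le _ _).trans ?_
      simp only [norm_mul, norm_div, Complex.norm_natCast, Complex.norm_ofNat, Complex.norm_real, Real.norm_eq_abs,
        abs_of_nonneg (Real.sqrt_nonneg (n:ℝ))]
      have a1 := mul_le_mul_of_nonneg_right hz5 (show 0 ≤ 2 / ((n:ℝ) * Real.sqrt n) * (w e.1.1 * w e.1.2) by positivity)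
      have a2 := mul_le_mul_of_nonneg_right (show ‖rform z g x‖ ≤ 1 / η from norm_rform_le hz g x)
        (show 0 ≤ 2 / ((n:ℝ) * Real.sqrt n) * M e.1.1 e.1.2 by positivity)
      linarith
    have hU := formEdge_le (z := z) g x e
    simp only [norm_mul, norm_div, norm_one, Complex.norm_conj, Complex.norm_natCast, Complex.norm_real, Real.norm_eq_abs,
      abs_of_nonneg (Real.sqrt_nonneg (n:ℝ))]
    refine (mul_le_mul (mul_le_mul_of_nonneg_left hU (by positivity)) hD (norm_nonneg _) (by positivity)).trans (le_of_eq ?_)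
    simp only [M, res_sq_symm g e.1.2 e.1.1]
    have e3 : (n:ℝ) ^ 3 = ((n:ℝ) * Real.sqrt n) * ((n:ℝ) * Real.sqrt n) := by
      rw [show ((n:ℝ) * Real.sqrt n) * ((n:ℝ) * Real.sqrt n) = (n:ℝ) * n * (Real.sqrt n * Real.sqrt n) by ring, hs]; ring
    rw [e3]
    simp only [w]
    field_simp
  refine (norm_sum_le _ _).trans ((Finset.sum_le_sum fun e _ => pt e).trans ?_)
  rw [← Finset.mul_sum, Finset.sum_add_distrib, ← Finset.mul_sum, ← Finset.mul_sum]
  have s1 : ∑ e : Edge n, (w e.1.1 * w e.1.2 ^ 2 + w e.1.2 * w e.1.1 ^ 2) ≤ (n:ℝ) ^ 2 / η ^ 3 := by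
    refine (rsum_edge_le (fun i j => w i * w j ^ 2) fun i => by positivity).trans ?_
    simp only [← Finset.mul_sum, ← Finset.sum_mul]
    refine (mul_le_mul (kx_abs_sum hz g x) (kx_norm hz g x) (Finset.sum_nonneg fun i _ => sq_nonneg _) (by positivity)).trans (le_of_eq ?_)
    show (n:ℝ) / η * (n / η ^ 2) = _
    ring
  have s2 : ∑ e : Edge n, (w e.1.2 * M e.1.1 e.1.2 + w e.1.1 * M e.1.2 e.1.1) ≤ (n:ℝ) ^ 2 / η ^ 4 := by
    refine (rsum_edge_le (fun i j => w j * M i j) fun i => by positivity).trans ?_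
    have h : ∀ i j, w j * M i j ≤ (w j ^ 2 + M i j ^ 2) / 2 := fun i j => by
      linarith [sq_nonneg (w j - M i j)]
    refine (Finset.sum_le_sum fun i _ => Finset.sum_le_sum fun j _ => h i j).trans ?_
    simp only [← Finset.sum_div, Finset.sum_add_distrib, Finset.sum_const, Finset.card_univ, Fintype.card_fin, nsmul_eq_mul]
    rw [Finset.sum_comm (f := fun i j => M i j ^ 2), div_le_iff₀ two_pos]
    refine (add_le_add (mul_le_mul_of_nonneg_left (kx_norm hz g x) (Nat.cast_nonneg n))
      ((Finset.sum_le_sum fun j _ => res_sq_col hz g j).trans_eq (by simp : ∑ _j : Fin n, 1 / η ^ 4 = (n:ℝ) * (η ^ 4)⁻¹))).trans ?_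
    show (n:ℝ) * (n / η ^ 2) + n * (η ^ 4)⁻¹ ≤ _
    have h2 : (n:ℝ) * (n / η ^ 2) ≤ (n:ℝ) ^ 2 / η ^ 4 := by
      rw [← mul_div_assoc, ← sq]
      exact div_le_div_of_nonneg_left (sq_nonneg _) (pow_pos hz 4) (pow_le_pow_of_le_one hz.le hz1 (by norm_num))
    have h3 : (n:ℝ) * (η ^ 4)⁻¹ ≤ (n:ℝ) ^ 2 / η ^ 4 := by
      rw [← div_eq_mul_inv]
      exact div_le_div_of_nonneg_right (le_self_pow₀ (by exact_mod_cast hn) two_ne_zero) (pow_pos hz 4).le
    linarith
  refine (mul_le_mul_of_nonneg_left (add_le_add (mul_le_mul_of_nonneg_left s1 (by positivity))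
    (mul_le_mul_of_nonneg_left s2 (by positivity))) (by positivity)).trans ?_
  have e4 : 2 / (n:ℝ) ^ 3 * (7 / η * ((n:ℝ) ^ 2 / η ^ 3) + 1 / η * ((n:ℝ) ^ 2 / η ^ 4)) = (14 * η + 2) / (n * η ^ 5) := by
    field_simp; ring
  rw [e4]
  exact div_le_div_of_nonneg_right (by linarith) (by positivity)

/-- the value of the averaged derivative -/
lemma form_main_le (hn : 0 < n) (hz : 0 < z.im) {β : ℝ} (hβ : 0 ≤ β) (hβ1 : β ≤ 1) (g : Edge n → ℝ) (x : Cfg n) :
    ‖1 / ((n:ℂ) * (Real.sqrt n : ℂ)) * (∑ e, ((β * (coef x e - ∑ y, gibbs β g y * coef y e) : ℝ) : ℂ) * formEdge z g x e +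
        ∑ e, formEdgeD z g x e) - (rtr z g + β) * rform z g x‖ ≤
      3 / (n * z.im ^ 2) + 1 / z.im * ∑ y, gibbs β g y * |(∑ i, spin (x i) * spin (y i)) / (n:ℝ)| := by
  have hn' : (0:ℝ) < n := by exact_mod_cast hn
  have hnC : (n:ℂ) ≠ 0 := Nat.cast_ne_zero.2 hn.ne'
  set η := z.im
  set w := fun i => kx z g x i
  set s : ℂ := (Real.sqrt n : ℂ) with hs0
  have hs : s * s = (n:ℂ) := by rw [hs0, ← Complex.ofReal_mul, Real.mul_self_sqrt hn'.le, Complex.ofReal_natCast]
  have hsne : s ≠ 0 := fun h => hnC (by rw [← hs, h, mul_zero])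
  have hD : 1 / ((n:ℂ) * s) * ∑ e, formEdgeD z g x e =
      rtr z g * rform z g x + ((∑ a, cspin x a * ∑ b, res z g b a * w b) - 2 * ∑ a, cspin x a * (res z g a a * w a)) / (n:ℂ) ^ 2 := by
    have h := csum_edge_all fun a b => cspin x a * (res z g b a * w b + res z g b b * w a)
    have e : ∀ e : Edge n, formEdgeD z g x e = ((cspin x e.1.1 * (res z g e.1.2 e.1.1 * w e.1.2 + res z g e.1.2 e.1.2 * w e.1.1)) +
        (cspin x e.1.2 * (res z g e.1.1 e.1.2 * w e.1.1 + res z g e.1.1 e.1.1 * w e.1.2))) / s := fun e => by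
      simp only [formEdgeD, w, hs0]; ring
    simp only [e, ← Finset.sum_div, h]
    simp only [mul_add, Finset.sum_add_distrib, ← Finset.mul_sum, ← Finset.sum_mul, rtr, rform, w]
    rw [show ∑ a, cspin x a * ((∑ i, res z g i i) * kx z g x a) = (∑ i, res z g i i) * ∑ a, cspin x a * kx z g x a by
      rw [Finset.mul_sum]; exact Finset.sum_congr rfl fun a _ => by ring]
    rw [sq (n:ℂ)]
    conv_rhs => arg 2; arg 2; rw [← hs]
    field_simp
    rw [← hs]; ring
  have hB : ∀ y : Cfg n, 1 / ((n:ℂ) * s) * ∑ e, ((coef y e : ℝ) : ℂ) * formEdge z g x e =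
      ((∑ i, cspin x i * cspin y i) * (∑ i, cspin y i * w i) - ∑ i, cspin x i * w i) / (n:ℂ) ^ 2 := fun y => by
    have h := csum_edge_all fun a b => cspin y a * cspin y b * (cspin x a * w b)
    have e : ∀ e : Edge n, ((coef y e : ℝ) : ℂ) * formEdge z g x e = ((cspin y e.1.1 * cspin y e.1.2 * (cspin x e.1.1 * w e.1.2)) +
        (cspin y e.1.2 * cspin y e.1.1 * (cspin x e.1.2 * w e.1.1))) / s := fun e => by
      simp only [coef, formEdge, cspin, w, hs0]; push_cast; ring
    simp only [e, ← Finset.sum_div, h]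
    have e2 : ∀ i, cspin y i * cspin y i * (cspin x i * w i) = cspin x i * w i := fun i => by rw [cspin_sq, one_mul]
    simp only [e2]
    have e3 : ∑ i, ∑ j, cspin y i * cspin y j * (cspin x i * w j) = (∑ i, cspin x i * cspin y i) * (∑ i, cspin y i * w i) := by
      rw [Finset.sum_mul_sum]; exact Finset.sum_congr rfl fun i _ => Finset.sum_congr rfl fun j _ => by ring
    rw [e3, sq (n:ℂ)]
    conv_rhs => arg 2; arg 2; rw [← hs]
    field_simp
  have hone : ∑ y, ((gibbs β g y : ℝ) : ℂ) = 1 := by rw [← Complex.ofReal_sum, gibbs_sum, Complex.ofReal_one]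
  set Q := ∑ y, ((gibbs β g y : ℝ) : ℂ) * ((∑ i, cspin x i * cspin y i) * (∑ i, cspin y i * w i)) / (n:ℂ) ^ 2 with hQ
  have hmain : 1 / ((n:ℂ) * s) * ∑ e, ((β * (coef x e - ∑ y, gibbs β g y * coef y e) : ℝ) : ℂ) * formEdge z g x e =
      (β:ℂ) * (rform z g x - Q) := by
    have h1 : ∑ e, ((β * (coef x e - ∑ y, gibbs β g y * coef y e) : ℝ) : ℂ) * formEdge z g x e =
        (β:ℂ) * ((∑ e, ((coef x e : ℝ) : ℂ) * formEdge z g x e) - ∑ y, ((gibbs β g y : ℝ) : ℂ) * ∑ e, ((coef y e : ℝ) : ℂ) * formEdge z g x e) := by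
      simp only [Finset.mul_sum]
      rw [Finset.sum_comm, ← Finset.sum_sub_distrib, Finset.mul_sum]
      refine Finset.sum_congr rfl fun e _ => ?_
      push_cast
      simp only [mul_sub, sub_mul, Finset.mul_sum, Finset.sum_mul, mul_assoc]
    have e : ∀ y, 1 / ((n:ℂ) * s) * (((gibbs β g y : ℝ) : ℂ) * ∑ e, ((coef y e : ℝ) : ℂ) * formEdge z g x e) =
        ((gibbs β g y : ℝ) : ℂ) * ((∑ i, cspin x i * cspin y i) * (∑ i, cspin y i * w i)) / (n:ℂ) ^ 2 -
          ((gibbs β g y : ℝ) : ℂ) * ((∑ i, cspin x i * w i) / (n:ℂ) ^ 2) := fun y => by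
      rw [mul_left_comm, hB y]; ring
    rw [h1, mul_left_comm, mul_sub (1 / ((n:ℂ) * s)), hB x, Finset.mul_sum (s := (Finset.univ : Finset (Cfg n)))]
    simp only [e, Finset.sum_sub_distrib, ← Finset.sum_mul, hone, one_mul, cspin_sq, Finset.sum_const, Finset.card_univ,
      Fintype.card_fin, nsmul_eq_mul, mul_one, ← hQ]
    simp only [rform, w]
    field_simp
    ring
  rw [mul_add, hmain, hD]
  set E1 := ((∑ a, cspin x a * ∑ b, res z g b a * w b) - 2 * ∑ a, cspin x a * (res z g a a * w a)) / (n:ℂ) ^ 2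
  rw [show (β:ℂ) * (rform z g x - Q) + (rtr z g * rform z g x + E1) - (rtr z g + β) * rform z g x = E1 - (β:ℂ) * Q by ring]
  refine (norm_sub_le _ _).trans (add_le_add ?_ ?_)
  · rw [norm_div, norm_pow, Complex.norm_natCast]
    have a1 : ‖∑ a, cspin x a * ∑ b, res z g b a * w b‖ ≤ n / η ^ 2 := by
      have e : ∀ a, ∑ b, res z g b a * w b = (res z g *ᵥ w) a := fun a =>
        Finset.sum_congr rfl fun b _ => by rw [res_symm g b a]
      simp only [e]
      refine (norm_sum_le _ _).trans ?_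
      simp only [norm_mul, cspin_norm, one_mul]
      have h := res_mulVec_le hz g w
      simp only [Complex.normSq_eq_norm_sq] at h
      have h' : ∑ i, ‖(res z g *ᵥ w) i‖ ^ 2 ≤ n / η ^ 4 := by
        rw [le_div_iff₀ (pow_pos hz 4)]
        have := h.trans (kx_norm hz g x)
        rw [le_div_iff₀ (pow_pos hz 2)] at this
        linarith
      have pt : ∀ a, ‖(res z g *ᵥ w) a‖ ≤ (η ^ 2 * ‖(res z g *ᵥ w) a‖ ^ 2 + 1 / η ^ 2) / 2 := fun a => by
        have := div_nonneg (sq_nonneg (η ^ 2 * ‖(res z g *ᵥ w) a‖ - 1)) (sq_nonneg η)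
        have e : (η ^ 2 * ‖(res z g *ᵥ w) a‖ - 1) ^ 2 / η ^ 2 =
            η ^ 2 * ‖(res z g *ᵥ w) a‖ ^ 2 + 1 / η ^ 2 - 2 * ‖(res z g *ᵥ w) a‖ := by
          have : η ≠ 0 := hz.ne'
          field_simp; ring
        linarith
      refine (Finset.sum_le_sum fun a _ => pt a).trans ?_
      rw [← Finset.sum_div, Finset.sum_add_distrib, ← Finset.mul_sum, Finset.sum_const, Finset.card_univ, Fintype.card_fin,
        nsmul_eq_mul, mul_one_div]
      have := mul_le_mul_of_nonneg_left h' (sq_nonneg η)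
      have e : η ^ 2 * ((n:ℝ) / η ^ 4) = n / η ^ 2 := by
        have : η ≠ 0 := hz.ne'
        field_simp
      linarith
    have a2 : ‖∑ a, cspin x a * (res z g a a * w a)‖ ≤ n / η ^ 2 := by
      refine (norm_sum_le _ _).trans ?_
      simp only [norm_mul, cspin_norm, one_mul]
      refine (Finset.sum_le_sum fun a _ => mul_le_mul_of_nonneg_right (res_entry hz g a a) (norm_nonneg _)).trans ?_
      rw [← Finset.mul_sum]
      refine (mul_le_mul_of_nonneg_left (kx_abs_sum hz g x) (by positivity)).trans (le_of_eq ?_)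
      show 1 / η * ((n:ℝ) / η) = _
      ring
    have := norm_sub_le (∑ a, cspin x a * ∑ b, res z g b a * w b) (2 * ∑ a, cspin x a * (res z g a a * w a))
    rw [norm_mul, Complex.norm_ofNat] at this
    refine (div_le_div_of_nonneg_right (this.trans (show _ ≤ 3 * ((n:ℝ) / η ^ 2) by linarith)) (sq_nonneg _)).trans (le_of_eq ?_)
    field_simp
  · rw [norm_mul, Complex.norm_real, Real.norm_eq_abs, abs_of_nonneg hβ]
    refine (mul_le_of_le_one_left (norm_nonneg _) hβ1).trans ?_
    rw [hQ, Finset.mul_sum]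
    refine (norm_sum_le _ _).trans (Finset.sum_le_sum fun y _ => ?_)
    rw [norm_div, norm_mul, norm_mul, norm_pow, Complex.norm_natCast, Complex.norm_real, Real.norm_eq_abs, abs_of_pos (gibbs_pos β g y)]
    have hy : ‖∑ i, cspin y i * w i‖ ≤ n / η := by
      refine (norm_sum_le _ _).trans ?_
      simp only [norm_mul, cspin_norm, one_mul]
      exact kx_abs_sum hz g x
    have hR : ‖∑ i, cspin x i * cspin y i‖ = |∑ i, spin (x i) * spin (y i)| := by
      simp only [cspin, ← Complex.ofReal_mul, ← Complex.ofReal_sum, Complex.norm_real, Real.norm_eq_abs]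
    rw [hR, abs_div, Nat.abs_cast]
    refine (div_le_div_of_nonneg_right (mul_le_mul_of_nonneg_left (mul_le_mul_of_nonneg_left hy (abs_nonneg _))
      (gibbs_pos β g y).le) (sq_nonneg _)).trans (le_of_eq ?_)
    field_simp

/-- the resolvent form equation in mean square -/
theorem formDefect_small (hn : 0 < n) (hz : 0 < z.im) (hz1 : z.im ≤ 1) (hz4 : ‖z‖ ≤ 4) {β a : ℝ} (hβ : 0 ≤ β)
    (hβ1 : β ≤ 1) (ha : 0 < a) :
    Integrable (fun g : Edge n → ℝ => ∑ x, gibbs β g x * ‖formDefect β z g x‖ ^ 2) (disorder n) ∧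
    ∫ g : Edge n → ℝ, ∑ x, gibbs β g x * ‖formDefect β z g x‖ ^ 2 ∂disorder n ≤
      37 / (n * z.im ^ 5) + 4 / z.im ^ 3 * (a + (∫ g, overlapSq (n := n) β g ∂disorder n) / a) := by
  classical
  rw [gauss_edge]
  have hn' : (0:ℝ) < n := by exact_mod_cast hn
  set η := z.im with hη
  set c : ℂ := 1 / ((n:ℂ) * (Real.sqrt n : ℂ)) with hc
  set H := fun (g : Edge n → ℝ) (x : Cfg n) => conj (formDefect β z g x)
  set μ := fun (g : Edge n → ℝ) (x : Cfg n) => ((gibbs β g x : ℝ) : ℂ)
  set φ := fun (e : Edge n) (g : Edge n → ℝ) => ∑ x, μ g x * (c * formEdge z g x e * H g x)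
  set φ' := fun (e : Edge n) (g : Edge n → ℝ) => ∑ x,
    (((β * gibbs β g x * (coef x e - ∑ y, gibbs β g y * coef y e) : ℝ) : ℂ) * (c * formEdge z g x e * H g x) +
      μ g x * (c * formEdgeD z g x e * H g x + c * formEdge z g x e * conj (formDefectD β z g x e)))
  have cT := continuous_rtr (n := n) hz
  have cK := fun i j => continuous_res (n := n) hz i j
  have cw := fun (x : Cfg n) i => continuous_kx hz x i
  have cF := fun (x : Cfg n) => continuous_rform hz x
  have cH : ∀ x, Continuous fun g => H g x := fun x => Complex.continuous_conj.comp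
    (((continuous_const.mul (cF x)).sub continuous_const).sub ((cT.add continuous_const).mul (cF x)))
  have cμ : ∀ x, Continuous fun g => μ g x := fun x => Complex.continuous_ofReal.comp (continuous_gibbs β x)
  have cU : ∀ x (e : Edge n), Continuous fun g => c * formEdge z g x e := fun x e =>
    continuous_const.mul ((continuous_const.mul (cw x _)).add (continuous_const.mul (cw x _)))
  have cU' : ∀ x (e : Edge n), Continuous fun g => c * formEdgeD z g x e := fun x e =>
    continuous_const.mul (((continuous_const.mul (((cK _ _).mul (cw x _)).add ((cK _ _).mul (cw x _)))).add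
      (continuous_const.mul (((cK _ _).mul (cw x _)).add ((cK _ _).mul (cw x _))))).div_const _)
  have cM : ∀ i j : Fin n, Continuous fun g : Edge n → ℝ => (res z g * res z g) i j := fun i j => by
    simp only [Matrix.mul_apply]
    exact continuous_finsetSum _ fun k _ => (cK i k).mul (cK k j)
  have cD : ∀ x (e : Edge n), Continuous fun g => conj (formDefectD β z g x e) := fun x e => Complex.continuous_conj.comp
    ((((continuous_const.sub cT).sub continuous_const).mul (continuous_const.mul ((cw x _).mul (cw x _)))).sub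
      ((cF x).mul (continuous_const.mul (cM _ _))))
  have cφ : ∀ e, Continuous (φ e) := fun e => continuous_finsetSum _ fun x _ => (cμ x).mul ((cU x e).mul (cH x))
  have cφ' : ∀ e, Continuous (φ' e) := fun e => continuous_finsetSum _ fun x _ =>
    ((Complex.continuous_ofReal.comp ((continuous_const.mul (continuous_gibbs β x)).mul (continuous_const.sub
      (continuous_finsetSum _ fun y _ => (continuous_gibbs β y).mul continuous_const)))).mul ((cU x e).mul (cH x))).add
      ((cμ x).mul (((cU' x e).mul (cH x)).add ((cU x e).mul (cD x e))))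
  -- crude uniform bounds
  set B := ‖c‖ * (2 * ((n:ℝ) / η))
  set B' := ‖c‖ * ((2 * (1 / η * ((n:ℝ) / η) + 1 / η * ((n:ℝ) / η))) / ‖(Real.sqrt n : ℂ)‖)
  set Bd := (4 + 1 / η + 1) * (‖(2:ℂ) / ((n:ℂ) * (Real.sqrt n : ℂ))‖ * ((n:ℝ) / η * ((n:ℝ) / η))) +
    1 / η * (‖(2:ℂ) / ((n:ℂ) * (Real.sqrt n : ℂ))‖ * (1 / η ^ 2))
  have bH : ∀ g x, ‖H g x‖ ≤ 7 / η ^ 2 := fun g x => by simpa [H] using norm_formDefect_le hz hz1 hz4 hβ hβ1 g x
  have bU : ∀ (g : Edge n → ℝ) x e, ‖c * formEdge z g x e‖ ≤ B := fun g x e => by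
    rw [norm_mul]
    refine mul_le_mul_of_nonneg_left ((formEdge_le g x e).trans ?_) (norm_nonneg _)
    rw [two_mul]; exact add_le_add (kx_entry hz g x _) (kx_entry hz g x _)
  have bU' : ∀ (g : Edge n → ℝ) x e, ‖c * formEdgeD z g x e‖ ≤ B' := fun g x e => by
    rw [norm_mul]
    refine mul_le_mul_of_nonneg_left ?_ (norm_nonneg c)
    rw [formEdgeD, norm_div]
    refine div_le_div_of_nonneg_right ?_ (norm_nonneg _)
    refine (norm_add_le _ _).trans ?_
    simp only [norm_mul, cspin_norm, one_mul, two_mul]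
    refine add_le_add ((norm_add_le _ _).trans ?_) ((norm_add_le _ _).trans ?_) <;> simp only [norm_mul] <;>
      exact add_le_add (mul_le_mul (res_entry hz g _ _) (kx_entry hz g x _) (norm_nonneg _) (by positivity))
        (mul_le_mul (res_entry hz g _ _) (kx_entry hz g x _) (norm_nonneg _) (by positivity))
  have bD : ∀ (g : Edge n → ℝ) x e, ‖conj (formDefectD β z g x e)‖ ≤ Bd := fun g x e => by
    rw [Complex.norm_conj, formDefectD]
    refine (norm_sub_le _ _).trans ?_
    simp only [norm_mul]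
    have h1 : ‖z - rtr z g - β‖ ≤ 4 + 1 / η + 1 := by
      have h := norm_sub_le (z - rtr z g) (β:ℂ)
      have h' := norm_sub_le z (rtr z g)
      rw [Complex.norm_real, Real.norm_eq_abs, abs_of_nonneg hβ] at h
      have hT : ‖rtr z g‖ ≤ 1 / η := norm_rtr_le hz g
      linarith
    refine add_le_add (mul_le_mul h1 (mul_le_mul_of_nonneg_left ?_ (norm_nonneg _)) (by positivity) (by positivity))
      (mul_le_mul (norm_rform_le hz g x) (mul_le_mul_of_nonneg_left (res_sq_entry hz g _ _) (norm_nonneg _)) (by positivity) (by positivity))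
    exact mul_le_mul (kx_entry hz g x _) (kx_entry hz g x _) (norm_nonneg _) (by positivity)
  have bc : ∀ (g : Edge n → ℝ) (x : Cfg n) e, |coef x e - ∑ y, gibbs β g y * coef y e| ≤ 2 := fun g x e => by
    have h : |∑ y, gibbs β g y * coef y e| ≤ 1 := by
      refine (Finset.abs_sum_le_sum_abs _ _).trans ((Finset.sum_le_sum fun y _ => ?_).trans (gibbs_sum β g).le)
      rw [abs_mul, abs_of_pos (gibbs_pos β g y)]
      exact mul_le_of_le_one_right (gibbs_pos β g y).le (abs_coef_le hn y e)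
    linarith [abs_sub (coef x e) (∑ y, gibbs β g y * coef y e), abs_coef_le hn x e]
  set C := 2 * (B * (7 / η ^ 2)) + (B' * (7 / η ^ 2) + B * Bd) + B * (7 / η ^ 2)
  have hμn : ∀ g x, ‖μ g x‖ = gibbs β g x := fun g x => by
    simp only [μ, Complex.norm_real, Real.norm_eq_abs, abs_of_pos (gibbs_pos β g x)]
  have bφ : ∀ e g, ‖φ e g‖ ≤ C := fun e g => by
    refine ((norm_sum_le _ _).trans (Finset.sum_le_sum (g := fun x => gibbs β g x * (B * (7 / η ^ 2))) fun x _ => ?_)).trans ?_
    · rw [norm_mul, hμn, norm_mul]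
      exact mul_le_mul_of_nonneg_left (mul_le_mul (bU g x e) (bH g x) (norm_nonneg _) (by positivity)) (gibbs_pos β g x).le
    · rw [← Finset.sum_mul, gibbs_sum, one_mul]; exact le_add_of_nonneg_left (by positivity)
  have bφ' : ∀ e g, ‖φ' e g‖ ≤ C := fun e g => by
    refine ((norm_sum_le _ _).trans (Finset.sum_le_sum (g := fun x => gibbs β g x * (2 * (B * (7 / η ^ 2)) + (B' * (7 / η ^ 2) + B * Bd))) fun x _ => ?_)).trans ?_
    · refine (norm_add_le _ _).trans ?_
      rw [mul_add (gibbs β g x)]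
      refine add_le_add ?_ ?_
      · rw [norm_mul, Complex.norm_real, Real.norm_eq_abs, abs_mul, abs_mul, abs_of_nonneg hβ, abs_of_pos (gibbs_pos β g x), norm_mul]
        have h1 : β * gibbs β g x * |coef x e - ∑ y, gibbs β g y * coef y e| ≤ 1 * gibbs β g x * 2 :=
          mul_le_mul (mul_le_mul_of_nonneg_right hβ1 (gibbs_pos β g x).le) (bc g x e) (abs_nonneg _) (by linarith [gibbs_pos β g x])
        refine (mul_le_mul h1 (mul_le_mul (bU g x e) (bH g x) (norm_nonneg _) (by positivity)) (by positivity) (by linarith [gibbs_pos β g x])).trans (le_of_eq ?_)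
        ring
      · rw [norm_mul, hμn]
        refine mul_le_mul_of_nonneg_left ((norm_add_le _ _).trans ?_) (gibbs_pos β g x).le
        rw [norm_mul (c * formEdgeD z g x e), norm_mul (c * formEdge z g x e)]
        exact add_le_add (mul_le_mul (bU' g x e) (bH g x) (norm_nonneg _) (by positivity))
          (mul_le_mul (bU g x e) (bD g x e) (norm_nonneg _) (by positivity))
    · rw [← Finset.sum_mul, gibbs_sum, one_mul]; exact le_add_of_nonneg_right (by positivity)
  have hd : ∀ (e : Edge n) (g : Edge n → ℝ) (t : ℝ), HasDerivAt (fun s => φ e (Function.update g e s)) (φ' e (Function.update g e t)) t := by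
    intro e g t
    refine HasDerivAt.fun_sum fun x _ => ?_
    have h1 := (hasDerivAt_gibbs_edge β g e x t).ofReal_comp
    have h2 : HasDerivAt (fun s => formDefect β z (Function.update g e s) x) (formDefectD β z (Function.update g e t) x e) t := by
      have hT := hasDerivAt_rtr hz g e t
      have hF := hasDerivAt_rform hz g x e t
      refine (((hF.const_mul z).sub_const 1).fun_sub ((hT.add_const (β:ℂ)).fun_mul hF)).congr_deriv ?_
      simp only [formDefectD]; ring
    have h3 : HasDerivAt (fun s => c * formEdge z (Function.update g e s) x e) (c * formEdgeD z (Function.update g e t) x e) t := by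
      refine ((((hasDerivAt_kx hz g x e t e.1.2).const_mul (cspin x e.1.1)).add
        ((hasDerivAt_kx hz g x e t e.1.1).const_mul (cspin x e.1.2))).const_mul c).congr_deriv ?_
      simp only [formEdgeD]; ring
    exact h1.mul (h3.mul (Complex.conjCLE.toContinuousLinearMap.hasFDerivAt.comp_hasDerivAt t h2))
  have hibp := fun e => ibp_re e (C := C) (cφ e) (cφ' e) (bφ e) (bφ' e) (hd e)
  set Rm := fun g : Edge n → ℝ => (∑ x, μ g x * ((rtr z g + β) * rform z g x * H g x)).re
  have hid : ∀ g : Edge n → ℝ, ∑ x, gibbs β g x * ‖formDefect β z g x‖ ^ 2 = (∑ e, g e * (φ e g).re) - Rm g := fun g => by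
    have e1 : ∀ x, ((gibbs β g x * ‖formDefect β z g x‖ ^ 2 : ℝ) : ℂ) =
        (∑ e, (g e : ℂ) * (μ g x * (c * formEdge z g x e * H g x))) - μ g x * ((rtr z g + β) * rform z g x * H g x) := fun x => by
      rw [Complex.ofReal_mul, ← Complex.normSq_eq_norm_sq, Complex.normSq_eq_conj_mul_self,
        show conj (formDefect β z g x) * formDefect β z g x = (z * rform z g x - 1) * H g x - (rtr z g + β) * rform z g x * H g x by
          simp only [H, formDefect]; ring,
        rform_eq hn hz, mul_sub, Finset.sum_mul, Finset.mul_sum]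
      refine congrArg₂ (· - ·) (Finset.sum_congr rfl fun e _ => ?_) rfl
      simp only [μ, c, formEdge]; ring
    have e2 := congrArg Complex.re (Finset.sum_congr (s₁ := (Finset.univ : Finset (Cfg n))) rfl fun x _ => e1 x)
    rw [← Complex.ofReal_sum, Complex.ofReal_re, Finset.sum_sub_distrib, Complex.sub_re, Finset.sum_comm, Complex.re_sum] at e2
    rw [e2]
    refine congrArg₂ (· - ·) (Finset.sum_congr rfl fun e _ => ?_) rfl
    rw [← Finset.mul_sum, Complex.re_ofReal_mul]
  have iS : Integrable (fun g => ∑ e, g e * (φ e g).re) (gauss (Edge n)) := integrable_finsetSum _ fun e _ => (hibp e).1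
  have iR : Integrable Rm (gauss (Edge n)) := by
    refine integrable_of_bound (C := (1 / η + 1) * (1 / η) * (7 / η ^ 2)) (M := 0) (Complex.continuous_re.comp
      (continuous_finsetSum _ fun x _ => (cμ x).mul (((cT.add continuous_const).mul (cF x)).mul (cH x)))) fun g => ?_
    rw [zero_mul, Real.exp_zero, mul_one]
    refine (Complex.abs_re_le_norm _).trans ((norm_sum_le _ _).trans ?_)
    refine (Finset.sum_le_sum (g := fun x => gibbs β g x * ((1 / η + 1) * (1 / η) * (7 / η ^ 2))) fun x _ => ?_).trans ?_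
    · rw [norm_mul, hμn, norm_mul, norm_mul]
      refine mul_le_mul_of_nonneg_left (mul_le_mul (mul_le_mul ?_ (norm_rform_le hz g x) (norm_nonneg _) (by positivity)) (bH g x) (norm_nonneg _) (by positivity)) (gibbs_pos β g x).le
      refine (norm_add_le _ _).trans (add_le_add (norm_rtr_le hz g) ?_)
      rw [Complex.norm_real, Real.norm_eq_abs, abs_of_nonneg hβ]; exact hβ1
    · rw [← Finset.sum_mul, gibbs_sum, one_mul]
  refine ⟨by simp only [hid]; exact iS.sub iR, ?_⟩
  simp only [hid]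
  rw [integral_sub iS iR, integral_finsetSum _ fun e _ => (hibp e).1]
  simp only [fun e => (hibp e).2.2]
  rw [← integral_finsetSum _ fun e _ => (hibp e).2.1, ← integral_sub (integrable_finsetSum _ fun e _ => (hibp e).2.1) iR]
  obtain ⟨-, iO, -⟩ := mean_identity hn hβ
  rw [gauss_edge] at iO
  have iU : Integrable (fun g : Edge n → ℝ => 37 / ((n:ℝ) * η ^ 5) + 4 / η ^ 3 * (a + overlapSq β g / a)) (gauss (Edge n)) :=
    (integrable_const _).add (((integrable_const _).add (iO.div_const a)).const_mul _)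
  refine (integral_mono ((integrable_finsetSum _ fun e _ => (hibp e).2.1).sub iR) iU fun g => ?_).trans (le_of_eq ?_)
  swap
  · have i2 : Integrable (fun g : Edge n → ℝ => 4 / η ^ 3 * (a + overlapSq β g / a)) (gauss (Edge n)) :=
      ((integrable_const _).add (iO.div_const a)).const_mul _
    rw [integral_add (integrable_const _) i2, integral_const_mul, integral_add (integrable_const _) (iO.div_const a)]
    simp [integral_div]
  show ∑ e, (φ' e g).re - Rm g ≤ _
  have e3 : ∑ e, φ' e g - ∑ x, μ g x * ((rtr z g + β) * rform z g x * H g x) = ∑ x, μ g x *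
      ((c * (∑ e, ((β * (coef x e - ∑ y, gibbs β g y * coef y e) : ℝ) : ℂ) * formEdge z g x e + ∑ e, formEdgeD z g x e) -
        (rtr z g + β) * rform z g x) * H g x + ∑ e, c * formEdge z g x e * conj (formDefectD β z g x e)) := by
    simp only [φ']
    rw [Finset.sum_comm, ← Finset.sum_sub_distrib]
    refine Finset.sum_congr rfl fun x _ => ?_
    have e4 : ∀ e : Edge n, ((β * gibbs β g x * (coef x e - ∑ y, gibbs β g y * coef y e) : ℝ) : ℂ) * (c * formEdge z g x e * H g x) =
        (gibbs β g x : ℂ) * (c * (((β * (coef x e - ∑ y, gibbs β g y * coef y e) : ℝ) : ℂ) * formEdge z g x e) * H g x) := fun e => by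
      push_cast; ring
    simp only [e4, μ, Finset.sum_add_distrib, ← Finset.mul_sum, ← Finset.sum_mul]
    ring
  simp only [Rm, ← Complex.re_sum, ← Complex.sub_re, e3]
  refine (Complex.re_le_norm _).trans ((norm_sum_le _ _).trans ?_)
  have pt : ∀ x, ‖μ g x * ((c * (∑ e, ((β * (coef x e - ∑ y, gibbs β g y * coef y e) : ℝ) : ℂ) * formEdge z g x e + ∑ e, formEdgeD z g x e) -
      (rtr z g + β) * rform z g x) * H g x + ∑ e, c * formEdge z g x e * conj (formDefectD β z g x e))‖ ≤
      gibbs β g x * (37 / (n * η ^ 5) + 7 / η ^ 3 * ((a + (∑ y, gibbs β g y * qsq x y) / a) / 2)) := fun x => by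
    rw [norm_mul, hμn]
    refine mul_le_mul_of_nonneg_left ?_ (gibbs_pos β g x).le
    refine (norm_add_le _ _).trans ?_
    rw [norm_mul]
    have h1 := mul_le_mul (form_main_le hn hz hβ hβ1 g x) (bH g x) (norm_nonneg _)
      (add_nonneg (by positivity) (mul_nonneg (by positivity) (Finset.sum_nonneg fun y _ => mul_nonneg (gibbs_pos β g y).le (abs_nonneg _))))
    have h2 := formEdge_sum_le hn hz hz1 hz4 hβ hβ1 g x
    have h3 : ∑ y, gibbs β g y * |(∑ i, spin (x i) * spin (y i)) / (n:ℝ)| ≤ (a + (∑ y, gibbs β g y * qsq x y) / a) / 2 := by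
      have pt : ∀ y, gibbs β g y * |(∑ i, spin (x i) * spin (y i)) / (n:ℝ)| ≤ gibbs β g y * ((a + qsq x y / a) / 2) := fun y => by
        refine mul_le_mul_of_nonneg_left ?_ (gibbs_pos β g y).le
        set u := |(∑ i, spin (x i) * spin (y i)) / (n:ℝ)|
        have hu : qsq x y = u ^ 2 := (sq_abs _).symm
        have := div_nonneg (sq_nonneg (u - a)) ha.le
        have e : (u - a) ^ 2 / a = qsq x y / a + a - 2 * u := by rw [hu]; field_simp; ring
        linarith
      refine (Finset.sum_le_sum fun y _ => pt y).trans (le_of_eq ?_)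
      simp only [mul_div_assoc', mul_add, ← Finset.sum_div, Finset.sum_add_distrib, ← Finset.sum_mul, gibbs_sum, one_mul]
    have h4 : (3 / ((n:ℝ) * η ^ 2) + 1 / η * ((a + (∑ y, gibbs β g y * qsq x y) / a) / 2)) * (7 / η ^ 2) ≤
        21 / (n * η ^ 5) + 7 / η ^ 3 * ((a + (∑ y, gibbs β g y * qsq x y) / a) / 2) := by
      rw [add_mul]
      refine add_le_add ?_ (le_of_eq (by ring))
      rw [div_mul_div_comm, mul_assoc, ← pow_add]
      norm_num
      exact div_le_div_of_nonneg_left (by norm_num) (by positivity)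
        (mul_le_mul_of_nonneg_left (pow_le_pow_of_le_one hz.le hz1 (by norm_num)) hn'.le)
    have h5 := mul_le_mul_of_nonneg_right (add_le_add (le_refl (3 / ((n:ℝ) * η ^ 2))) (mul_le_mul_of_nonneg_left h3 (show 0 ≤ 1 / η by positivity)))
      (show 0 ≤ 7 / η ^ 2 by positivity)
    have h6 : 21 / ((n:ℝ) * η ^ 5) + 16 / (n * η ^ 5) = 37 / (n * η ^ 5) := by ring
    linarith
  refine (Finset.sum_le_sum fun x _ => pt x).trans ?_
  have e5 : ∑ x, gibbs β g x * ((∑ y, gibbs β g y * qsq x y) / a) = overlapSq β g / a := by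
    simp only [overlapSq, Finset.mul_sum, Finset.sum_div]
    exact Finset.sum_congr rfl fun x _ => Finset.sum_congr rfl fun y _ => by ring
  simp only [mul_add, add_div, Finset.sum_add_distrib, ← Finset.sum_mul, gibbs_sum, one_mul]
  have e6 : ∑ x, gibbs β g x * (7 / η ^ 3 * ((∑ y, gibbs β g y * qsq x y) / a / 2)) = 7 / η ^ 3 * (overlapSq β g / a / 2) := by
    rw [← e5, Finset.sum_div, Finset.mul_sum]
    exact Finset.sum_congr rfl fun x _ => by ring
  rw [e6]
  have h7 : 0 ≤ 1 / η ^ 3 * (overlapSq β g / a) := mul_nonneg (by positivity)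
    (div_nonneg (Finset.sum_nonneg fun x _ => Finset.sum_nonneg fun y _ =>
      mul_nonneg (mul_nonneg (gibbs_pos β g x).le (gibbs_pos β g y).le) (qsq_mem x y).1) ha.le)
  have h8 : 0 ≤ 1 / η ^ 3 * a := by positivity
  have h9 : ∀ X : ℝ, 7 / η ^ 3 * (X / 2) = 4 / η ^ 3 * X - 1 / η ^ 3 * X / 2 := fun X => by ring
  rw [h9, h9]
  linarith

end Vale.Agent.P150
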