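import Mathlib

/-! The maximiser of `2tu - u artanh u + 2q u²` on `|u| < 1`, parametrised by `u = tanh z`. -/

namespace Vale.Agent.P150.Tap

open Real Filter Set

/-- `2t` as a function of `z` at the maximiser -/
noncomputable def tau (q z : ℝ) : ℝ := z + sinh z * cosh z - 4 * q * tanh z

/-- maximiser, in the variable `z` -/
noncomputable def Z (q t : ℝ) : ℝ := Function.invFun (tau q) (2 * t)

/-- maximiser -/
noncomputable def U (q t : ℝ) : ℝ := tanh (Z q t)

/-- derivative of the maximiser in `t` -/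
noncomputable def dU (q t : ℝ) : ℝ := (1 - U q t ^ 2) ^ 2 / (1 - 2 * q * (1 - U q t ^ 2) ^ 2)

/-- objective in the variable `z` -/
noncomputable def fz (q t z : ℝ) : ℝ := 2 * t * tanh z - tanh z * z + 2 * q * tanh z ^ 2

/-- maximum -/
noncomputable def psi (q t : ℝ) : ℝ := fz q t (Z q t)

lemma one_sub_tanh_sq (z : ℝ) : 1 - tanh z ^ 2 = 1 / cosh z ^ 2 := by
  have h := (cosh_pos z).ne'
  rw [tanh_eq_sinh_div_cosh]; field_simp
  linear_combination cosh_sq_sub_sinh_sq z

lemma hasDeriv_tanh (z : ℝ) : HasDerivAt tanh (1 - tanh z ^ 2) z := by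
  have h := (hasDerivAt_sinh z).div (hasDerivAt_cosh z) (cosh_pos z).ne'
  refine (h.congr_of_eventuallyEq (Eventually.of_forall fun y => by simp [tanh_eq_sinh_div_cosh])).congr_deriv ?_
  have hc := (cosh_pos z).ne'
  rw [tanh_eq_sinh_div_cosh]; field_simp

lemma w_mem (z : ℝ) : 0 < 1 - tanh z ^ 2 ∧ 1 - tanh z ^ 2 ≤ 1 := by
  refine ⟨?_, by nlinarith [sq_nonneg (tanh z)]⟩
  rw [one_sub_tanh_sq]; have := cosh_pos z; positivity

lemma hasDeriv_tau (q z : ℝ) :
    HasDerivAt (tau q) (2 / (1 - tanh z ^ 2) - 4 * q * (1 - tanh z ^ 2)) z := by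
  have h := ((hasDerivAt_id z).add ((hasDerivAt_sinh z).mul (hasDerivAt_cosh z))).sub
    ((hasDeriv_tanh z).const_mul (4 * q))
  refine h.congr_deriv ?_
  have hc := (cosh_pos z).ne'
  rw [one_sub_tanh_sq]; field_simp
  linear_combination (-(cosh z ^ 2)) * cosh_sq_sub_sinh_sq z

variable {q : ℝ}

lemma dtau_ge (hq : 0 ≤ q) (z : ℝ) :
    2 - 4 * q ≤ 2 / (1 - tanh z ^ 2) - 4 * q * (1 - tanh z ^ 2) := by
  obtain ⟨h, h'⟩ := w_mem z
  have : 2 ≤ 2 / (1 - tanh z ^ 2) := by rw [le_div_iff₀ h]; linarith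
  nlinarith [mul_le_mul_of_nonneg_left h' hq]

lemma tau_sub_ge (hq : 0 ≤ q) {a b : ℝ} (hab : a ≤ b) : (2 - 4 * q) * (b - a) ≤ tau q b - tau q a := by
  have hm : Monotone fun z => tau q z - (2 - 4 * q) * z :=
    monotone_of_hasDerivAt_nonneg (fun z => (hasDeriv_tau q z).sub ((hasDerivAt_id z).const_mul (2 - 4 * q)))
      fun z => by simpa using dtau_ge hq z
  linarith [hm hab, mul_sub (2 - 4 * q) b a]

lemma tau_strictMono (hq : 0 ≤ q) (hq' : q < 1 / 2) : StrictMono (tau q) := fun a b hab => by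
  linarith [tau_sub_ge hq hab.le, mul_pos (show 0 < 2 - 4 * q by linarith) (sub_pos.2 hab)]

lemma tau_zero (q : ℝ) : tau q 0 = 0 := by simp [tau]

lemma tau_surj (hq : 0 ≤ q) (hq' : q < 1 / 2) : Function.Surjective (tau q) := by
  intro y
  have hc : Continuous (tau q) := continuous_iff_continuousAt.2 fun z => (hasDeriv_tau q z).continuousAt
  have hk : 0 < 2 - 4 * q := by linarith
  set R := |y| / (2 - 4 * q)
  have hR : 0 ≤ R := by positivity
  have hy : |y| = (2 - 4 * q) * R := by simp only [R]; field_simp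
  have h1 := tau_sub_ge hq hR
  have h2 := tau_sub_ge hq (neg_nonpos.2 hR)
  rw [tau_zero] at h1 h2
  obtain ⟨z, -, hz⟩ := intermediate_value_Icc (a := -R) (b := R) (by linarith) hc.continuousOn
    (show y ∈ Icc (tau q (-R)) (tau q R) from ⟨by linarith [neg_abs_le y], by linarith [le_abs_self y]⟩)
  exact ⟨z, hz⟩

variable (hq : 0 ≤ q) (hq' : q < 1 / 2)
include hq hq'

lemma tau_Z (t : ℝ) : tau q (Z q t) = 2 * t := Function.invFun_eq (tau_surj hq hq' (2 * t))

lemma Z_lip (s t : ℝ) : (1 - 2 * q) * |Z q s - Z q t| ≤ |s - t| := by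
  rcases le_total (Z q s) (Z q t) with h | h
  · have := tau_sub_ge hq h
    rw [tau_Z hq hq', tau_Z hq hq'] at this
    rw [abs_sub_comm, abs_of_nonneg (sub_nonneg.2 h)]
    linarith [neg_abs_le (s - t)]
  · have := tau_sub_ge hq h
    rw [tau_Z hq hq', tau_Z hq hq'] at this
    rw [abs_of_nonneg (sub_nonneg.2 h)]
    linarith [le_abs_self (s - t)]

lemma continuous_Z : Continuous (Z q) := by
  have hk : 0 < 1 - 2 * q := by linarith
  refine (LipschitzWith.of_dist_le_mul (K := ⟨(1 - 2 * q)⁻¹, by positivity⟩) fun s t => ?_).continuous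
  show dist (Z q s) (Z q t) ≤ (1 - 2 * q)⁻¹ * dist s t
  rw [dist_eq, dist_eq, inv_mul_eq_div, le_div_iff₀ hk, mul_comm]
  exact Z_lip hq hq' s t

lemma hasDeriv_U (t : ℝ) : HasDerivAt (U q) (dU q t) t := by
  have hd := dtau_ge hq (Z q t)
  have hne : (2 / (1 - tanh (Z q t) ^ 2) - 4 * q * (1 - tanh (Z q t) ^ 2)) / 2 ≠ 0 := by
    intro h; linarith
  have hZ : HasDerivAt (Z q) (((2 / (1 - tanh (Z q t) ^ 2) - 4 * q * (1 - tanh (Z q t) ^ 2)) / 2)⁻¹) t :=
    HasDerivAt.of_local_left_inverse (f := fun z => tau q z / 2) (continuous_Z hq hq').continuousAt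
      ((hasDeriv_tau q _).div_const 2) hne (Eventually.of_forall fun s => by simp [tau_Z hq hq'])
  refine ((hasDeriv_tanh _).comp t hZ).congr_deriv ?_
  obtain ⟨h, h'⟩ := w_mem (Z q t)
  have h2 : 1 - 2 * q * (1 - tanh (Z q t) ^ 2) ^ 2 ≠ 0 := by
    have : (1 - tanh (Z q t) ^ 2) ^ 2 ≤ 1 := pow_le_one₀ h.le h'
    intro h0; nlinarith [mul_le_mul_of_nonneg_left this hq]
  simp only [dU, U]
  have hw := h.ne'
  have key : ∀ w : ℝ, w ≠ 0 → 1 - 2 * q * w ^ 2 ≠ 0 →
      w * ((2 / w - 4 * q * w) / 2)⁻¹ = w ^ 2 / (1 - 2 * q * w ^ 2) := fun w hw hw2 => by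
    rw [show (2 / w - 4 * q * w) / 2 = (1 - 2 * q * w ^ 2) / w by field_simp; ring, inv_div]
    field_simp
  exact key _ hw h2

lemma continuous_U : Continuous (U q) :=
  continuous_iff_continuousAt.2 fun t => (hasDeriv_U hq hq' t).continuousAt

lemma continuous_dU : Continuous (dU q) := by
  refine (((continuous_const.sub ((continuous_U hq hq').pow 2)).pow 2)).div
    (continuous_const.sub (continuous_const.mul ((continuous_const.sub ((continuous_U hq hq').pow 2)).pow 2))) ?_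
  intro t h
  obtain ⟨h1, h2⟩ := w_mem (Z q t)
  simp only [U] at h
  nlinarith [mul_le_mul_of_nonneg_left (pow_le_one₀ (n := 2) h1.le h2) hq]

omit hq hq' in
lemma abs_U_le (t : ℝ) : |U q t| ≤ 1 := by
  have := (w_mem (Z q t)).1
  rw [← sq_le_one_iff_abs_le_one]; unfold U; linarith

lemma dU_mem (t : ℝ) : 0 ≤ dU q t ∧ dU q t ≤ 1 / (1 - 2 * q) := by
  obtain ⟨h1, h2⟩ := w_mem (Z q t)
  have h4 : (1 - tanh (Z q t) ^ 2) ^ 2 ≤ 1 := pow_le_one₀ h1.le h2
  have h5 := mul_le_mul_of_nonneg_left h4 hq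
  unfold dU U
  exact ⟨div_nonneg (sq_nonneg _) (by linarith), div_le_div₀ zero_le_one h4 (by linarith) (by linarith)⟩

lemma fz_le_psi (t z : ℝ) : fz q t z ≤ psi q t := by
  have hd : ∀ y, HasDerivAt (fz q t) ((1 - tanh y ^ 2) * (2 * t - tau q y)) y := fun y => by
    have h := (((hasDeriv_tanh y).const_mul (2 * t)).sub ((hasDeriv_tanh y).mul (hasDerivAt_id y))).add
      (((hasDeriv_tanh y).pow 2).const_mul (2 * q))
    refine h.congr_deriv ?_
    have hc := (cosh_pos y).ne'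
    simp only [tau, id, one_sub_tanh_sq]
    rw [tanh_eq_sinh_div_cosh]; field_simp
    push_cast
    field_simp
    ring
  have hc : Continuous (fz q t) := continuous_iff_continuousAt.2 fun y => (hd y).continuousAt
  have hz := tau_Z hq hq' t
  have hs := tau_strictMono hq hq'
  rcases le_total z (Z q t) with h | h
  · refine monotoneOn_of_hasDerivWithinAt_nonneg (convex_Iic (Z q t)) hc.continuousOn
      (fun y _ => (hd y).hasDerivWithinAt) (fun y hy => ?_) h (mem_Iic.2 le_rfl) h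
    rw [interior_Iic] at hy
    exact mul_nonneg (w_mem y).1.le (by linarith [hs hy])
  · refine antitoneOn_of_hasDerivWithinAt_nonpos (convex_Ici (Z q t)) hc.continuousOn
      (fun y _ => (hd y).hasDerivWithinAt) (fun y hy => ?_) (mem_Ici.2 le_rfl) h h
    rw [interior_Ici] at hy
    exact mul_nonpos_of_nonneg_of_nonpos (w_mem y).1.le (by linarith [hs hy])

lemma psi_nonneg (t : ℝ) : 0 ≤ psi q t := by simpa [fz] using fz_le_psi hq hq' t 0

end Vale.Agent.P150.Tap
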