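import Vale.Agent.P150.Algebra

namespace Vale.Agent.P150

variable {n : ℕ} (β : ℝ) (g : Edge n → ℝ)

/-- weighted inner product -/
noncomputable def ip (f h : Cfg n → ℝ) : ℝ := ∑ x, gibbs β g x * (f x * h x)

/-- the semigroup applied to `f` -/
noncomputable def flow (f : Cfg n → ℝ) (t : ℝ) : Cfg n → ℝ := NormedSpace.exp (t • generator β g) f

lemma flow_zero (f : Cfg n → ℝ) : flow β g f 0 = f := by
  simp [flow, NormedSpace.exp_zero]

lemma hasDerivAt_flow (f : Cfg n → ℝ) (t : ℝ) :
    HasDerivAt (flow β g f) (generator β g (flow β g f t)) t := by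
  have h := hasDerivAt_exp_smul_const' (generator β g) t
  exact ((ContinuousLinearMap.apply ℝ (Cfg n → ℝ) f).hasFDerivAt.comp_hasDerivAt t h)

lemma flow_add (f : Cfg n → ℝ) (a b : ℝ) : flow β g f (a + b) = flow β g (flow β g f b) a := by
  let : NormedAlgebra ℚ ((Cfg n → ℝ) →L[ℝ] (Cfg n → ℝ)) := NormedAlgebra.restrictScalars ℚ ℝ _
  unfold flow
  rw [add_smul, NormedSpace.exp_add_of_commute (((Commute.refl (generator β g)).smul_left a).smul_right b)]
  rfl

lemma ip_selfAdjoint (f h : Cfg n → ℝ) : ip β g f (generator β g h) = ip β g (generator β g f) h := by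
  unfold ip
  rw [generator_selfAdjoint]
  exact Finset.sum_congr rfl fun x _ => by ring

lemma ip_symm (f h : Cfg n → ℝ) : ip β g f h = ip β g h f :=
  Finset.sum_congr rfl fun x _ => by ring

lemma hasDerivAt_ip {a b : ℝ → Cfg n → ℝ} {a' b' : Cfg n → ℝ} {t : ℝ}
    (ha : HasDerivAt a a' t) (hb : HasDerivAt b b' t) :
    HasDerivAt (fun s => ip β g (a s) (b s)) (ip β g a' (b t) + ip β g (a t) b') t := by
  have ha' := hasDerivAt_pi.1 ha
  have hb' := hasDerivAt_pi.1 hb
  have h : HasDerivAt (fun s => ∑ x, gibbs β g x * (a s x * b s x))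
      (∑ x, gibbs β g x * (a' x * b t x + a t x * b' x)) t :=
    HasDerivAt.fun_sum fun x _ => ((ha' x).mul (hb' x)).const_mul _
  have e : ip β g a' (b t) + ip β g (a t) b' = ∑ x, gibbs β g x * (a' x * b t x + a t x * b' x) := by
    simp only [ip, ← Finset.sum_add_distrib]
    exact Finset.sum_congr rfl fun x _ => by ring
  rw [e]
  exact h

lemma ip_self_pos {f : Cfg n → ℝ} (hf : f ≠ 0) : 0 < ip β g f f := by
  obtain ⟨x, hx⟩ := Function.ne_iff.1 hf
  refine Finset.sum_pos' (fun y _ => mul_nonneg (gibbs_pos β g y).le (mul_self_nonneg _))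
    ⟨x, Finset.mem_univ x, mul_pos (gibbs_pos β g x) (mul_self_pos.2 hx)⟩

lemma ip_cauchy (f h : Cfg n → ℝ) : ip β g f h ^ 2 ≤ ip β g f f * ip β g h h := by
  have := Finset.sum_mul_sq_le_sq_mul_sq Finset.univ (fun x => Real.sqrt (gibbs β g x) * f x)
    (fun x => Real.sqrt (gibbs β g x) * h x)
  have e : ∀ a b : Cfg n → ℝ,
      ∑ x, (Real.sqrt (gibbs β g x) * a x) * (Real.sqrt (gibbs β g x) * b x) = ip β g a b := fun a b =>
    Finset.sum_congr rfl fun x _ => by
      have := Real.mul_self_sqrt (gibbs_pos β g x).le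
      linear_combination (a x * b x) * this
  simp only [sq (Real.sqrt (gibbs β g _) * _), e] at this
  exact this

lemma flow_ne_zero {f : Cfg n → ℝ} (hf : f ≠ 0) (t : ℝ) : flow β g f t ≠ 0 := by
  intro h
  apply hf
  have := flow_add β g f (-t) t
  rw [h, neg_add_cancel, flow_zero] at this
  rw [this]
  simp [flow]

lemma flow_mean (f : Cfg n → ℝ) (t : ℝ) :
    ip β g (fun _ => 1) (flow β g f t) = ip β g (fun _ => 1) f := by
  have hd : ∀ s, HasDerivAt (fun u => ip β g (fun _ => 1) (flow β g f u)) 0 s := fun s => by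
    have := hasDerivAt_ip β g (hasDerivAt_const s (fun _ : Cfg n => (1:ℝ))) (hasDerivAt_flow β g f s)
    rw [ip_selfAdjoint, generator_const] at this
    simpa [ip] using this
  have := is_const_of_deriv_eq_zero (fun s => (hd s).differentiableAt) (fun s => (hd s).deriv) t 0
  rw [this, flow_zero]

lemma norm_lower {f : Cfg n → ℝ} (hf : f ≠ 0) {t : ℝ} (ht : 0 ≤ t) :
    ip β g f f * Real.exp (-(2 * (dirichlet β g f / ip β g f f)) * t) ≤ ip β g (flow β g f t) (flow β g f t) := by
  set φ := fun s => ip β g (flow β g f s) (flow β g f s)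
  set ψ := fun s => ip β g (flow β g f s) (generator β g (flow β g f s)) / φ s
  have hφpos : ∀ s, 0 < φ s := fun s => ip_self_pos β g (flow_ne_zero β g hf s)
  have hφ : ∀ s, HasDerivAt φ (2 * ip β g (flow β g f s) (generator β g (flow β g f s))) s := fun s => by
    have := hasDerivAt_ip β g (hasDerivAt_flow β g f s) (hasDerivAt_flow β g f s)
    rw [ip_symm β g (generator β g (flow β g f s)), ← two_mul] at this
    exact this
  have hnum : ∀ s, HasDerivAt (fun u => ip β g (flow β g f u) (generator β g (flow β g f u)))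
      (2 * ip β g (generator β g (flow β g f s)) (generator β g (flow β g f s))) s := fun s => by
    have h2 : HasDerivAt (fun u => generator β g (flow β g f u))
        (generator β g (generator β g (flow β g f s))) s :=
      (generator β g).hasFDerivAt.comp_hasDerivAt s (hasDerivAt_flow β g f s)
    have := hasDerivAt_ip β g (hasDerivAt_flow β g f s) h2
    rw [ip_selfAdjoint β g (flow β g f s), ← two_mul] at this
    exact this
  have hψ : ∀ s, HasDerivAt ψ ((2 * ip β g (generator β g (flow β g f s)) (generator β g (flow β g f s)) * φ s -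
      ip β g (flow β g f s) (generator β g (flow β g f s)) *
        (2 * ip β g (flow β g f s) (generator β g (flow β g f s)))) / φ s ^ 2) s :=
    fun s => (hnum s).div (hφ s) (hφpos s).ne'
  have hmono : Monotone ψ := monotone_of_hasDerivAt_nonneg hψ fun s => by
    refine div_nonneg ?_ (sq_nonneg _)
    have := ip_cauchy β g (flow β g f s) (generator β g (flow β g f s))
    simp only [φ]; linarith
  set a := ψ 0
  have hD : ∀ s, HasDerivAt (fun u => φ u * Real.exp (-(2 * a) * u))
      (2 * ip β g (flow β g f s) (generator β g (flow β g f s)) * Real.exp (-(2 * a) * s) +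
        φ s * (Real.exp (-(2 * a) * s) * (-(2 * a)))) s := fun s => by
    have he : HasDerivAt (fun u : ℝ => Real.exp (-(2 * a) * u)) (Real.exp (-(2 * a) * s) * (-(2 * a))) s := by
      simpa using ((hasDerivAt_id s).const_mul (-(2 * a))).exp
    exact (hφ s).mul he
  have hm : MonotoneOn (fun u => φ u * Real.exp (-(2 * a) * u)) (Set.Ici 0) := by
    refine monotoneOn_of_hasDerivWithinAt_nonneg (convex_Ici 0)
      (fun s _ => (hD s).continuousAt.continuousWithinAt) (fun s _ => (hD s).hasDerivWithinAt) fun s hs => ?_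
    rw [interior_Ici] at hs
    have h1 : a ≤ ψ s := hmono (le_of_lt hs)
    have h2 : ip β g (flow β g f s) (generator β g (flow β g f s)) = ψ s * φ s :=
      (div_mul_cancel₀ _ (hφpos s).ne').symm
    rw [h2]
    have := mul_le_mul_of_nonneg_left h1 (mul_nonneg (hφpos s).le (Real.exp_pos (-(2 * a) * s)).le)
    linarith
  have h0 := hm Set.self_mem_Ici (Set.mem_Ici.2 ht) ht
  simp only [φ, flow_zero, mul_zero, Real.exp_zero, mul_one] at h0
  have hv : a = -(dirichlet β g f / ip β g f f) := by
    simp only [a, ψ, φ, flow_zero, dirichlet, ip]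
    rw [neg_div, neg_neg]
  rw [hv] at h0
  have hE := mul_le_mul_of_nonneg_right h0 (Real.exp_pos (-(2 * (dirichlet β g f / ip β g f f)) * t)).le
  rw [mul_assoc (ip β g (flow β g f t) _), ← Real.exp_add] at hE
  refine hE.trans (le_of_eq ?_)
  ring_nf; simp

lemma flow_apply (f : Cfg n → ℝ) (t : ℝ) (x : Cfg n) :
    flow β g f t x = ∑ y, kernel β g t x y * f y := by
  unfold flow kernel
  conv_lhs => rw [pi_eq_sum_univ' f]
  simp only [map_sum, map_smul, Finset.sum_apply, Pi.smul_apply, smul_eq_mul]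
  exact Finset.sum_congr rfl fun y _ => mul_comm _ _

lemma flow_contract {t : ℝ} (hmix : MixedAt β g t) (f : Cfg n → ℝ)
    (hmean : ip β g (fun _ => 1) f = 0) {R : ℝ} (hR : ∀ x, |f x| ≤ R) (x : Cfg n) :
    |flow β g f t x| ≤ R / 2 := by
  have hR0 : 0 ≤ R := (abs_nonneg _).trans (hR x)
  have h0 : ∑ y, gibbs β g y * f y = 0 := by simpa [ip] using hmean
  have e : flow β g f t x = ∑ y, (kernel β g t x y - gibbs β g y) * f y := by
    simp only [sub_mul, Finset.sum_sub_distrib, h0, sub_zero, flow_apply]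
  rw [e]
  calc |∑ y, (kernel β g t x y - gibbs β g y) * f y|
      ≤ ∑ y, |kernel β g t x y - gibbs β g y| * R := (Finset.abs_sum_le_sum_abs _ _).trans
        (Finset.sum_le_sum fun y _ => by rw [abs_mul]; exact mul_le_mul_of_nonneg_left (hR y) (abs_nonneg _))
    _ = (∑ y, |kernel β g t x y - gibbs β g y|) * R := (Finset.sum_mul _ _ _).symm
    _ ≤ (1 / 2) * R := mul_le_mul_of_nonneg_right (by have := hmix x; linarith) hR0
    _ = R / 2 := by ring

/-- If the chain has mixed by time `t`, every centred `f` has Rayleigh quotient at least `log 2 / t`. -/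
lemma mixed_lower {t : ℝ} (ht : 0 ≤ t) (hmix : MixedAt β g t) {f : Cfg n → ℝ} (hf : f ≠ 0)
    (hmean : ip β g (fun _ => 1) f = 0) :
    Real.log 2 ≤ t * (dirichlet β g f / ip β g f f) := by
  set ρ := dirichlet β g f / ip β g f f
  set R := ∑ x, |f x|
  have hiter : ∀ k : ℕ, ∀ x, |flow β g f (k * t) x| ≤ R / 2 ^ k := by
    intro k
    induction k with
    | zero =>
      intro x
      simp only [Nat.cast_zero, zero_mul, flow_zero, pow_zero, div_one]
      exact Finset.single_le_sum (f := fun x => |f x|) (fun _ _ => abs_nonneg _) (Finset.mem_univ x)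
    | succ k ih =>
      intro x
      have e : ((k + 1 : ℕ) : ℝ) * t = t + k * t := by push_cast; ring
      rw [e, flow_add]
      refine (flow_contract β g hmix _ (by rw [flow_mean, hmean]) ih x).trans (le_of_eq ?_)
      rw [pow_succ]; ring
  have hpos := ip_self_pos β g hf
  by_contra hcon
  push Not at hcon
  have hlt : 2 * (t * ρ) - 2 * Real.log 2 < 0 := by linarith
  have key : ∀ k : ℕ, ip β g f f ≤ R ^ 2 * Real.exp (2 * (t * ρ) - 2 * Real.log 2) ^ k := by
    intro k
    have h1 := norm_lower β g hf (show 0 ≤ (k:ℝ) * t by positivity)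
    have h2 : ip β g (flow β g f (k * t)) (flow β g f (k * t)) ≤ (R / 2 ^ k) ^ 2 := by
      calc ip β g (flow β g f (k * t)) (flow β g f (k * t)) ≤ ∑ x, gibbs β g x * (R / 2 ^ k) ^ 2 :=
            Finset.sum_le_sum fun x _ => mul_le_mul_of_nonneg_left (by
              rw [← sq, ← sq_abs]; exact pow_le_pow_left₀ (abs_nonneg _) (hiter k x) 2) (gibbs_pos β g x).le
        _ = _ := by rw [← Finset.sum_mul, gibbs_sum, one_mul]
    have h3 := mul_le_mul_of_nonneg_right (h1.trans h2) (Real.exp_pos (2 * ρ * (k * t))).le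
    rw [mul_assoc, ← Real.exp_add] at h3
    have e1 : -(2 * ρ) * ((k:ℝ) * t) + 2 * ρ * ((k:ℝ) * t) = 0 := by ring
    rw [e1, Real.exp_zero, mul_one] at h3
    refine h3.trans (le_of_eq ?_)
    rw [div_pow, Real.exp_sub, div_pow (Real.exp (2 * (t * ρ))), ← Real.exp_nat_mul, ← Real.exp_nat_mul]
    have : Real.exp ((k:ℝ) * (2 * Real.log 2)) = (2 ^ k) ^ 2 := by
      rw [Real.exp_nat_mul, ← pow_mul, mul_comm k 2, pow_mul, mul_comm 2 (Real.log 2)]
      congr 1
      rw [mul_two, Real.exp_add, Real.exp_log two_pos, sq]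
    rw [this, show 2 * ρ * ((k:ℝ) * t) = (k:ℝ) * (2 * (t * ρ)) by ring]
    ring
  have lim := (tendsto_pow_atTop_nhds_zero_of_lt_one (Real.exp_pos _).le (Real.exp_lt_one_iff.2 hlt)).const_mul (R ^ 2)
  rw [mul_zero] at lim
  linarith [le_of_tendsto_of_tendsto tendsto_const_nhds lim (Filter.Eventually.of_forall key)]

/-- Mixing by time `t` forces `⟨q²⟩ ≤ 2 t / (n log 2)`. -/
lemma overlap_le_of_mixed (hn : 0 < n) {t : ℝ} (ht : 0 ≤ t) (hmix : MixedAt β g t) :
    Real.log 2 * overlapSq β g ≤ 2 * t / n := by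
  have hn' : (0:ℝ) < n := by exact_mod_cast hn
  have h1 : ∀ y, Real.log 2 * (∑ x, gibbs β g x * qsq x y) ≤ 2 * t / n := fun y => by
    set f := overlapFun y
    have hf : f ≠ 0 := by
      intro h
      have := congrFun h y
      simp [f, overlapFun, spin_mul_self] at this
      omega
    have hip : ip β g f f = ∑ x, gibbs β g x * qsq x y :=
      Finset.sum_congr rfl fun x _ => by simp only [f, qsq, overlapFun, sq]
    have hpos := ip_self_pos β g hf
    have h := mixed_lower β g ht hmix hf (by simpa [ip] using mean_overlapFun β g y)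
    rw [← mul_div_assoc, le_div_iff₀ hpos] at h
    rw [← hip]
    refine h.trans ?_
    rw [mul_comm 2 t, mul_div_assoc]
    exact mul_le_mul_of_nonneg_left (dirichlet_overlapFun β g y) ht
  calc Real.log 2 * overlapSq β g = ∑ y, gibbs β g y * (Real.log 2 * ∑ x, gibbs β g x * qsq x y) := by
        rw [overlapSq, Finset.sum_comm, Finset.mul_sum]
        refine Finset.sum_congr rfl fun y _ => ?_
        simp only [Finset.mul_sum]
        exact Finset.sum_congr rfl fun x _ => by ring
    _ ≤ ∑ y, gibbs β g y * (2 * t / n) :=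
        Finset.sum_le_sum fun y _ => mul_le_mul_of_nonneg_left (h1 y) (gibbs_pos β g y).le
    _ = 2 * t / n := by rw [← Finset.sum_mul, gibbs_sum, one_mul]

end Vale.Agent.P150
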