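import Vale.Agent.P150.Tensor
import Vale.Agent.P150.Semigroup

/-! Spectral gap and mixing time of the heat-bath dynamics from the coupling bounds. -/

namespace Vale.Agent.P150

open Ising

variable {n : ℕ} (β : ℝ) (g : Edge n → ℝ)

/-- `β n^{-1/2} g_{ij}` -/
noncomputable def cpl (i j : Fin n) : ℝ := β / Real.sqrt n * coupling g i j

lemma coupling_symm (i j : Fin n) : coupling g i j = coupling g j i := by
  rw [coupling_eq, coupling_eq, add_comm]

lemma coupling_self (i : Fin n) : coupling g i i = 0 := by rw [coupling_eq, upper_self, add_zero]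

lemma fld_cpl (i : Fin n) (x : Cfg n) : fld (cpl β g) 0 i x = localField β g i x := by
  simp only [fld, cpl, localField, Pi.zero_apply, add_zero, Finset.mul_sum]
  rw [← Finset.add_sum_erase _ _ (Finset.mem_univ i), coupling_self]
  simp [mul_assoc]

lemma qE_cpl (x : Cfg n) : qE (cpl β g) 0 x = β * energy g x := by
  have h : ∑ i, ∑ j, coupling g i j * (spin (x i) * spin (x j)) = 2 * ∑ i, ∑ j, upper g i j * (spin (x i) * spin (x j)) := by
    simp only [coupling_eq, add_mul, Finset.sum_add_distrib]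
    rw [Finset.sum_comm (f := fun i j => upper g j i * (spin (x i) * spin (x j))), two_mul]
    congr 1
    exact Finset.sum_congr rfl fun i _ => Finset.sum_congr rfl fun j _ => by ring
  simp only [qE, cpl, mul_assoc, ← Finset.mul_sum, h, energy_double, Pi.zero_apply, zero_mul, Finset.sum_const_zero, add_zero]
  ring

lemma wt_cpl (x : Cfg n) : wt (cpl β g) 0 x = gibbs β g x := by simp only [wt, gibbs, qE_cpl]

lemma heatBath_qb (i : Fin n) (f : Cfg n → ℝ) (x : Cfg n) : heatBath β g i f x = qb 0 (cpl β g) i f x := by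
  rw [qb_eq, mag, fld_cpl, heatBath, ← (tanh_eq (localField β g i x)).1, ← (tanh_eq (localField β g i x)).2]
  have := (Real.cosh_pos (localField β g i x)).ne'
  field_simp

lemma generator_gen (f : Cfg n → ℝ) (x : Cfg n) : generator β g f x = -gen (cpl β g) 0 f x := by
  rw [generator_apply, gen, ← Finset.sum_neg_distrib]
  exact Finset.sum_congr rfl fun i _ => by rw [heatBath_qb, qb]; ring

lemma gap_of_good {Λ R : ℝ} (hJ : Good (cpl β g) Λ R) (hκ : 0 < 1 - Λ - 20001 * R) :
    GapAtLeast β g (1 - Λ - 20001 * R) := by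
  intro f
  have h := poincare (0 : Fin n → ℝ) hJ hκ f
  have e : dirichlet β g f = dir (cpl β g) 0 f := by
    have h2 := inner_gen (0 : Fin n → ℝ) hJ.symm hJ.diag f f
    simp only [dirichlet, generator_gen, mul_neg, Finset.sum_neg_distrib, neg_neg, ← wt_cpl, h2, dir, sq]
  simp only [avg, wt_cpl] at h
  rw [e]
  exact h

lemma flow_series (f : Cfg n → ℝ) (t : ℝ) (x : Cfg n) (L : (Cfg n → ℝ) →L[ℝ] (Cfg n → ℝ)) :
    HasSum (fun k : ℕ => ((k.factorial : ℝ)⁻¹ * t ^ k) * (L ^ k) f x) (NormedSpace.exp (t • L) f x) := by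
  have h := (NormedSpace.exp_series_hasSum_exp' (𝕂 := ℝ) (t • L)).mapL
    ((ContinuousLinearMap.proj x).comp (ContinuousLinearMap.apply ℝ (Cfg n → ℝ) f))
  simp only [ContinuousLinearMap.coe_comp', Function.comp_apply, ContinuousLinearMap.apply_apply,
    ContinuousLinearMap.proj_apply, smul_pow, smul_smul, _root_.smul_apply, Pi.smul_apply, smul_eq_mul] at h
  exact h

lemma flow_one (t : ℝ) : flow β g (fun _ => 1) t = fun _ => 1 := by
  funext x
  refine (flow_series (fun _ => 1) t x (generator β g)).unique ?_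
  convert hasSum_single (α := ℝ) 0 fun k hk => ?_ using 1
  · simp
  · obtain ⟨j, rfl⟩ := Nat.exists_eq_succ_of_ne_zero hk
    rw [pow_succ (generator β g), mul_apply_eq_comp, generator_const, map_zero, Pi.zero_apply, mul_zero]

lemma flow_pos {f : Cfg n → ℝ} (hf : ∀ x, 0 < f x) {t : ℝ} (ht : 0 ≤ t) (x : Cfg n) : 0 < flow β g f t x := by
  set S : (Cfg n → ℝ) →L[ℝ] (Cfg n → ℝ) := generator β g + (n:ℝ) • 1 with hS
  have hSapp : ∀ h y, S h y = ∑ i, qb 0 (cpl β g) i h y := fun h y => by
    simp only [hS, _root_.add_apply, _root_.smul_apply, Pi.add_apply, Pi.smul_apply, one_apply_eq_self, smul_eq_mul,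
      generator_apply, Finset.sum_sub_distrib, heatBath_qb]
    simp
  have hpow : ∀ k, ∀ y, 0 ≤ (S ^ k) f y := by
    intro k
    induction k with
    | zero => intro y; simpa using (hf y).le
    | succ k ih =>
      intro y
      rw [pow_succ', mul_apply_eq_comp, hSapp]
      refine Finset.sum_nonneg fun i _ => ?_
      rw [qb_eq]
      have := abs_lt.1 (tanh_abs_lt (fld (cpl β g) 0 i y))
      simp only [mag]
      exact div_nonneg (add_nonneg (mul_nonneg (by linarith) (ih _)) (mul_nonneg (by linarith) (ih _))) two_pos.le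
  let : NormedAlgebra ℚ ((Cfg n → ℝ) →L[ℝ] (Cfg n → ℝ)) := NormedAlgebra.restrictScalars ℚ ℝ _
  have hsplit : NormedSpace.exp (t • generator β g) = Real.exp (-(t * n)) • NormedSpace.exp (t • S) := by
    have e : t • generator β g = t • S + algebraMap ℝ ((Cfg n → ℝ) →L[ℝ] (Cfg n → ℝ)) (-(t * n)) := by
      rw [Algebra.algebraMap_eq_smul_one, hS, smul_add, smul_smul, add_assoc, ← add_smul]
      simp
    rw [e, NormedSpace.exp_add_of_commute (Algebra.commute_algebraMap_right _ _), ← NormedSpace.algebraMap_exp_comm,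
      ← Algebra.commutes, ← Algebra.smul_def, ← Real.exp_eq_exp_ℝ]
  rw [flow, hsplit, _root_.smul_apply, Pi.smul_apply, smul_eq_mul]
  refine mul_pos (Real.exp_pos _) (lt_of_lt_of_le (hf x) ?_)
  have h := le_hasSum (flow_series f t x S) 0 fun k _ => mul_nonneg (by positivity) (hpow k x)
  simpa using h

lemma kernel_symm (t : ℝ) (x y : Cfg n) : gibbs β g x * kernel β g t x y = gibbs β g y * kernel β g t y x := by
  set a : Cfg n → ℝ := Pi.single x 1
  set c : Cfg n → ℝ := Pi.single y 1
  have hd : ∀ s, HasDerivAt (fun u => ip β g (flow β g a u) (flow β g c (t - u))) 0 s := fun s => by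
    have h2 : HasDerivAt (fun u => flow β g c (t - u)) (-generator β g (flow β g c (t - s))) s := by
      refine ((hasDerivAt_flow β g c (t - s)).scomp s ((hasDerivAt_id s).const_sub t)).congr_deriv ?_
      simp
    refine (hasDerivAt_ip β g (hasDerivAt_flow β g a s) h2).congr_deriv ?_
    have : ∀ u v : Cfg n → ℝ, ip β g u (-v) = -ip β g u v := fun u v => by simp [ip]
    rw [this, ip_selfAdjoint]; ring
  have h := is_const_of_deriv_eq_zero (fun s => (hd s).differentiableAt) (fun s => (hd s).deriv) 0 t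
  simp only [flow_zero, sub_zero, sub_self] at h
  have e1 : ip β g a (flow β g c t) = gibbs β g x * kernel β g t x y := by
    simp [ip, a, c, flow, kernel, Pi.single_apply]
  have e2 : ip β g (flow β g a t) c = gibbs β g y * kernel β g t y x := by
    simp [ip, a, c, flow, kernel, Pi.single_apply]
  rw [← e1, ← e2, h]

lemma log_qb_le (i : Fin n) {f : Cfg n → ℝ} (hf : ∀ x, 0 < f x) (x : Cfg n) :
    qb 0 (cpl β g) i (fun y => Real.log (f y)) x ≤ Real.log (qb 0 (cpl β g) i f x) := by
  set q := qb 0 (cpl β g) i f x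
  have hq : 0 < q := qb_pos 0 hf i x
  have hab := abs_lt.1 (tanh_abs_lt (fld (cpl β g) 0 i x))
  set m := mag (cpl β g) 0 i x
  have hm : -1 < m ∧ m < 1 := by simp only [m, mag]; exact hab
  set p := f (Function.update x i true)
  set s := f (Function.update x i false)
  have he : q = ((1 + m) * p + (1 - m) * s) / 2 := qb_eq _ _ _ _
  rw [qb_eq]
  have h : ∀ w : ℝ, 0 < w → Real.log w - Real.log q ≤ w / q - 1 := fun w hw => by
    rw [← Real.log_div hw.ne' hq.ne']; exact Real.log_le_sub_one_of_pos (div_pos hw hq)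
  have h1 := mul_le_mul_of_nonneg_left (h p (hf _)) (by linarith : (0:ℝ) ≤ 1 + m)
  have h2 := mul_le_mul_of_nonneg_left (h s (hf _)) (by linarith : (0:ℝ) ≤ 1 - m)
  have e : (1 + m) * (p / q - 1) + (1 - m) * (s / q - 1) = 0 := by
    have := hq.ne'
    field_simp; rw [he]; ring
  linarith

/-- entropy decay -/
lemma entropy_decay {Λ R : ℝ} (hJ : Good (cpl β g) Λ R) (hΛ : 0 < Λ) (hκ : 0 < 1 - Λ - 20001 * R)
    {f : Cfg n → ℝ} (hf : ∀ x, 0 < f x) (hmean : ∑ x, gibbs β g x * f x = 1) {t : ℝ} (ht : 0 ≤ t) :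
    ent (gibbs β g) (flow β g f t) ≤
      Real.exp (-(t / Real.exp (2 * Λ / (1 - Λ - 20001 * R)))) * ent (gibbs β g) f := by
  set K := Real.exp (2 * Λ / (1 - Λ - 20001 * R))
  have hK : 0 < K := Real.exp_pos _
  set F := flow β g f
  have hFm : ∀ s, ∑ x, gibbs β g x * F s x = 1 := fun s => by
    have := flow_mean β g f s
    simpa [ip, hmean] using this
  set φ := fun s => ∑ x, gibbs β g x * (F s x * Real.log (F s x)) with hφ
  set φ' := fun s => ∑ x, gibbs β g x * (generator β g (F s) x * (Real.log (F s x) + 1)) with hφ'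
  have hd : ∀ s, 0 ≤ s → HasDerivAt φ (φ' s) s := fun s hs => by
    have hF := hasDerivAt_pi.1 (hasDerivAt_flow β g f s)
    refine (HasDerivAt.fun_sum fun x _ =>
      ((hF x).mul ((hF x).log (flow_pos β g hf hs x).ne')).const_mul (gibbs β g x)).congr_deriv ?_
    refine Finset.sum_congr rfl fun x _ => ?_
    have := (flow_pos β g hf hs x).ne'
    simp only [F]; field_simp
  have hle : ∀ s, 0 ≤ s → φ' s ≤ -(φ s / K) := fun s hs => by
    have hpos : ∀ x, 0 < F s x := fun x => flow_pos β g hf hs x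
    have hT := tensor (0 : Fin n → ℝ) hJ hΛ hκ hpos
    simp only [ent, wt_cpl, hFm, Real.log_one, mul_zero, sub_zero] at hT
    rw [le_neg, div_le_iff₀ hK]
    refine (hT.trans (mul_le_mul_of_nonneg_left ?_ hK.le)).trans_eq (mul_comm _ _)
    have h1 : ∀ i x, F s x * (Real.log (F s x) - Real.log (qb 0 (cpl β g) i (F s) x)) ≤
        F s x * proj (cpl β g) 0 i (fun y => Real.log (F s y)) x := fun i x => by
      refine mul_le_mul_of_nonneg_left ?_ (hpos x).le
      have := log_qb_le β g i hpos x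
      simp only [qb] at this ⊢
      linarith
    refine (Finset.sum_le_sum fun i _ => Finset.sum_le_sum fun x _ =>
      mul_le_mul_of_nonneg_left (h1 i x) (gibbs_pos β g x).le).trans (le_of_eq ?_)
    have h2 : ∑ x, gibbs β g x * generator β g (F s) x = 0 := by
      simp only [generator_gen, mul_neg, Finset.sum_neg_distrib, ← wt_cpl]
      simpa [avg] using mean_gen (0 : Fin n → ℝ) hJ.symm hJ.diag (F s)
    have h3 : φ' s = ∑ x, gibbs β g x * (F s x * generator β g (fun y => Real.log (F s y)) x) := by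
      rw [generator_selfAdjoint β g (F s)]
      simp only [hφ', mul_add, mul_one, Finset.sum_add_distrib, h2, add_zero]
      exact Finset.sum_congr rfl fun x _ => by ring
    rw [h3, Finset.sum_comm, ← Finset.sum_neg_distrib]
    refine Finset.sum_congr rfl fun x _ => ?_
    rw [generator_gen, gen, mul_neg, mul_neg, neg_neg, Finset.mul_sum, Finset.mul_sum]
  have hg : ∀ s, 0 ≤ s → HasDerivAt (fun u => φ u * Real.exp (u / K))
      (φ' s * Real.exp (s / K) + φ s * (Real.exp (s / K) * (1 / K))) s := fun s hs =>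
    (hd s hs).mul ((hasDerivAt_id s).div_const K).exp
  have hanti : AntitoneOn (fun u => φ u * Real.exp (u / K)) (Set.Ici 0) := by
    refine antitoneOn_of_hasDerivWithinAt_nonpos (convex_Ici 0)
      (fun s hs => (hg s hs).continuousAt.continuousWithinAt)
      (fun s hs => (hg s (interior_subset (s := Set.Ici (0:ℝ)) hs)).hasDerivWithinAt) fun s hs => ?_
    have := mul_le_mul_of_nonneg_right (hle s (interior_subset (s := Set.Ici (0:ℝ)) hs)) (Real.exp_pos (s / K)).le
    linarith [this, show φ s * (Real.exp (s / K) * (1 / K)) = φ s / K * Real.exp (s / K) by ring]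
  have h := hanti Set.self_mem_Ici (Set.mem_Ici.2 ht) ht
  simp only [zero_div, Real.exp_zero, mul_one] at h
  have e : ∀ s, ent (gibbs β g) (F s) = φ s := fun s => by simp [ent, hFm, hφ]
  rw [e, ← show F 0 = f from flow_zero β g f, e, Real.exp_neg, inv_mul_eq_div, le_div_iff₀ (Real.exp_pos _)]
  exact h

lemma tv_le_entropy {G : Cfg n → ℝ} (hG : ∀ x, 0 < G x) (hmean : ∑ x, gibbs β g x * G x = 1) :
    (∑ x, gibbs β g x * |G x - 1|) ^ 2 ≤ 4 * ent (gibbs β g) G := by
  set s := fun x => Real.sqrt (G x)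
  have hs : ∀ x, 0 < s x := fun x => Real.sqrt_pos.2 (hG x)
  have hs2 : ∀ x, s x * s x = G x := fun x => Real.mul_self_sqrt (hG x).le
  have cs := Finset.sum_mul_sq_le_sq_mul_sq Finset.univ (fun x => Real.sqrt (gibbs β g x) * |s x - 1|)
    (fun x => Real.sqrt (gibbs β g x) * (s x + 1))
  have hμ : ∀ x, Real.sqrt (gibbs β g x) * Real.sqrt (gibbs β g x) = gibbs β g x := fun x =>
    Real.mul_self_sqrt (gibbs_pos β g x).le
  have e1 : ∀ x, Real.sqrt (gibbs β g x) * |s x - 1| * (Real.sqrt (gibbs β g x) * (s x + 1)) = gibbs β g x * |G x - 1| := fun x => by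
    rw [← hs2 x, show s x * s x - 1 = (s x - 1) * (s x + 1) by ring, abs_mul,
      abs_of_pos (by linarith [hs x] : 0 < s x + 1)]
    linear_combination (|s x - 1| * (s x + 1)) * hμ x
  have a1 : ∑ x, (Real.sqrt (gibbs β g x) * |s x - 1|) ^ 2 ≤ ent (gibbs β g) G := by
    have e : ent (gibbs β g) G = ∑ x, gibbs β g x * (G x * Real.log (G x) - G x + 1) := by
      simp only [ent, hmean, Real.log_one, mul_zero, sub_zero, mul_add, mul_sub, mul_one, Finset.sum_add_distrib,
        Finset.sum_sub_distrib, gibbs_sum]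
      ring
    rw [e]
    refine Finset.sum_le_sum fun x _ => ?_
    rw [mul_pow, sq_abs, sq (Real.sqrt _), hμ]
    refine mul_le_mul_of_nonneg_left ?_ (gibbs_pos β g x).le
    have hl := Real.log_le_sub_one_of_pos (inv_pos.2 (hs x))
    rw [Real.log_inv] at hl
    have hl2 := mul_le_mul_of_nonneg_left hl (mul_nonneg two_pos.le (mul_self_nonneg (s x)))
    have e2 : 2 * (s x * s x) * ((s x)⁻¹ - 1) = 2 * s x - 2 * (s x * s x) := by
      have := (hs x).ne'
      field_simp
    rw [e2] at hl2
    rw [← hs2 x, Real.log_mul (hs x).ne' (hs x).ne']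
    linarith
  have a2 : ∑ x, (Real.sqrt (gibbs β g x) * (s x + 1)) ^ 2 ≤ 4 := by
    refine (Finset.sum_le_sum fun x _ => (?_ : _ ≤ gibbs β g x * (2 * G x + 2))).trans (le_of_eq ?_)
    · rw [mul_pow, sq (Real.sqrt _), hμ]
      refine mul_le_mul_of_nonneg_left ?_ (gibbs_pos β g x).le
      linarith [hs2 x, sq_nonneg (s x - 1)]
    · simp only [mul_add, Finset.sum_add_distrib, ← Finset.sum_mul, gibbs_sum, ← mul_assoc, mul_comm (gibbs β g _) 2]
      simp only [mul_assoc, ← Finset.mul_sum, hmean, gibbs_sum]; norm_num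
  simp only [e1] at cs
  refine cs.trans ((mul_le_mul a1 a2 (Finset.sum_nonneg fun x _ => sq_nonneg _) ?_).trans_eq (mul_comm _ _))
  exact (Finset.sum_nonneg fun x _ => sq_nonneg _).trans a1

lemma mixed_of_good {Λ R : ℝ} (hJ : Good (cpl β g) Λ R) (hΛ : 0 < Λ) (hΛ1 : Λ ≤ 1)
    (hκ : 0 < 1 - Λ - 20001 * R) (hn : 2 ≤ n) :
    MixedAt β g (9 * Real.exp (2 * Λ / (1 - Λ - 20001 * R)) * Real.log n) := by
  set K := Real.exp (2 * Λ / (1 - Λ - 20001 * R))
  have hK : 0 < K := Real.exp_pos _
  have hn2 : (2:ℝ) ≤ n := by exact_mod_cast hn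
  have hlog : Real.log 2 ≤ Real.log n := Real.log_le_log two_pos hn2
  set t := 9 * K * Real.log n with ht
  have hl2 : 0 < Real.log 2 := Real.log_pos (by norm_num)
  have ht0 : 0 ≤ t := mul_nonneg (by positivity) (by linarith)
  intro x
  have hx := gibbs_pos β g x
  set c := (2 * gibbs β g x)⁻¹ with hc
  set G : Cfg n → ℝ := c • (Pi.single x 1 : Cfg n → ℝ) + (1/2:ℝ) • fun _ => (1:ℝ) with hG
  have hGy : ∀ y, G y = c * (if y = x then 1 else 0) + 1 / 2 := fun y => by
    simp [hG, Pi.single_apply]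
  have hG0 : ∀ y, 0 < G y := fun y => by
    rw [hGy]; split <;> positivity
  have hmean : ∑ y, gibbs β g y * G y = 1 := by
    simp only [hGy, mul_add, Finset.sum_add_distrib, mul_ite, mul_one, mul_zero, Finset.sum_ite_eq', Finset.mem_univ,
      if_true, ← Finset.sum_mul, gibbs_sum, hc]
    field_simp; norm_num
  have hqE : ∀ y, |qE (cpl β g) 0 y| ≤ n / 2 := fun y => by
    have h := hJ.op fun i => spin (y i)
    simp only [sq, spin_mul_self, Finset.sum_const, Finset.card_univ, Fintype.card_fin, nsmul_eq_mul, mul_one] at h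
    simp only [qE, Pi.zero_apply, zero_mul, Finset.sum_const_zero, add_zero, abs_div, abs_of_pos (two_pos (α := ℝ))]
    exact div_le_div_of_nonneg_right (h.trans (mul_le_of_le_one_left (by positivity) hΛ1)) two_pos.le
  have hlow : Real.exp (-(2 * n)) ≤ gibbs β g x := by
    rw [← wt_cpl, wt, le_div_iff₀ (Finset.sum_pos (fun _ _ => Real.exp_pos _) Finset.univ_nonempty)]
    have hsum : ∑ y : Cfg n, Real.exp (qE (cpl β g) 0 y) ≤ Real.exp (n * Real.log 2) * Real.exp (n / 2) := by
      refine (Finset.sum_le_card_nsmul _ _ (Real.exp (n / 2)) fun y _ => Real.exp_le_exp.2 (abs_le.1 (hqE y)).2).trans (le_of_eq ?_)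
      rw [nsmul_eq_mul, Finset.card_univ, Fintype.card_fun, Fintype.card_bool, Fintype.card_fin, Real.exp_nat_mul,
        Real.exp_log two_pos]
      push_cast; ring
    refine (mul_le_mul_of_nonneg_left hsum (Real.exp_pos _).le).trans ?_
    rw [← Real.exp_add, ← Real.exp_add]
    refine Real.exp_le_exp.2 ?_
    have h2 : Real.log 2 ≤ 1 := by linarith [Real.log_le_sub_one_of_pos (two_pos (α := ℝ))]
    have := mul_le_mul_of_nonneg_left h2 (by linarith : (0:ℝ) ≤ n)
    linarith [(abs_le.1 (hqE x)).1]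
  have hGle : ∀ y, G y ≤ Real.exp (2 * n) := fun y => by
    rw [hGy]
    have h1 : (gibbs β g x)⁻¹ ≤ Real.exp (2 * n) := by
      rw [inv_le_comm₀ hx (Real.exp_pos _), ← Real.exp_neg]; exact hlow
    have h2 : (1:ℝ) ≤ Real.exp (2 * n) := Real.one_le_exp (by positivity)
    have h3 : c = (gibbs β g x)⁻¹ / 2 := by rw [hc, mul_inv, mul_comm]; ring
    split <;> linarith
  have hent : ent (gibbs β g) G ≤ 2 * n := by
    simp only [ent, hmean, Real.log_one, mul_zero, sub_zero]
    calc ∑ y, gibbs β g y * (G y * Real.log (G y)) ≤ ∑ y, gibbs β g y * (G y * (2 * n)) :=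
          Finset.sum_le_sum fun y _ => mul_le_mul_of_nonneg_left (mul_le_mul_of_nonneg_left
            ((Real.log_le_iff_le_exp (hG0 y)).2 (hGle y)) (hG0 y).le) (gibbs_pos β g y).le
      _ = 2 * n := by simp only [← mul_assoc, ← Finset.sum_mul, hmean, one_mul]
  have hdec := (entropy_decay β g hJ hΛ hκ hG0 hmean ht0).trans (mul_le_mul_of_nonneg_left hent (Real.exp_pos _).le)
  have hn0 : (0:ℝ) < n := by linarith
  have hsmall : Real.exp (-(t / K)) * (2 * n) ≤ 1 / 64 := by
    have e : t / K = 9 * Real.log n := by rw [ht]; field_simp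
    have e2 : Real.exp (9 * Real.log n) = (n:ℝ) ^ 9 := by
      rw [show (9:ℝ) * Real.log n = ((9:ℕ):ℝ) * Real.log n by norm_num, Real.exp_nat_mul, Real.exp_log hn0]
    rw [e, Real.exp_neg, e2, inv_mul_le_iff₀ (by positivity)]
    have h8 : (2:ℝ) ^ 8 ≤ (n:ℝ) ^ 8 := pow_le_pow_left₀ two_pos.le hn2 8
    have := mul_le_mul_of_nonneg_right h8 hn0.le
    linarith [show (n:ℝ) ^ 8 * n = (n:ℝ) ^ 9 by ring]
  set Ft := flow β g G t
  have hFt0 : ∀ y, 0 < Ft y := fun y => flow_pos β g hG0 ht0 y
  have hFtm : ∑ y, gibbs β g y * Ft y = 1 := by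
    have := flow_mean β g G t
    simpa [ip, Ft, hmean] using this
  have htv := tv_le_entropy β g hFt0 hFtm
  have hFe : ∀ y, Ft y = c * kernel β g t y x + 1 / 2 := fun y => by
    simp only [Ft, flow, hG, map_add, map_smul, Pi.add_apply, Pi.smul_apply, smul_eq_mul, kernel]
    rw [show NormedSpace.exp (t • generator β g) (fun _ => (1:ℝ)) = fun _ => 1 from flow_one β g t]
    ring
  have hk : ∀ y, |kernel β g t x y - gibbs β g y| = 2 * (gibbs β g y * |Ft y - 1|) := fun y => by
    have hs := kernel_symm β g t x y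
    have e : kernel β g t x y - gibbs β g y = gibbs β g y * (2 * (Ft y - 1)) := by
      rw [hFe, hc]
      have := hx.ne'
      field_simp
      linarith
    rw [e, abs_mul, abs_mul, abs_of_pos (gibbs_pos β g y), abs_of_pos (two_pos (α := ℝ))]
    ring
  simp only [hk, ← Finset.mul_sum]
  have h16 : (∑ y, gibbs β g y * |Ft y - 1|) ^ 2 ≤ (1 / 4) ^ 2 := by
    refine htv.trans ?_
    linarith [hdec.trans hsmall]
  have := (abs_le.1 (abs_le_of_sq_le_sq h16 (by norm_num))).2
  linarith

end Vale.Agent.P150
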