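import Vale.Agent.P150.Fast

/-! A logarithmic lower bound on the mixing time at every temperature. -/

open MeasureTheory Filter
open scoped Topology

namespace Vale.Agent.P150

open Ising

variable {n : ℕ} {β : ℝ} {g : Edge n → ℝ}

/-- squared gradient -/
noncomputable def grad2 (F : Cfg n → ℝ) (x : Cfg n) : ℝ := ∑ i, dd i F x ^ 2

/-- one-site generator -/
noncomputable def genAt (β : ℝ) (g : Edge n → ℝ) (j : Fin n) (F : Cfg n → ℝ) (x : Cfg n) : ℝ :=
  -proj (cpl β g) 0 j F x

/-- change of the conditional mean at `j` when `i` is changed -/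
noncomputable def infl (β : ℝ) (g : Edge n → ℝ) (i j : Fin n) (x : Cfg n) : ℝ :=
  (mag (cpl β g) 0 j (Function.update x i true) - mag (cpl β g) 0 j (Function.update x i false)) / 2

lemma generator_genAt (F : Cfg n → ℝ) (x : Cfg n) : generator β g F x = ∑ j, genAt β g j F x := by
  rw [generator_gen, gen, ← Finset.sum_neg_distrib]; rfl

lemma spin_cases (b : Bool) : spin b = 1 ∨ spin b = -1 := by cases b <;> simp [spin]

lemma genAt_sq (j : Fin n) (u : Cfg n → ℝ) (x : Cfg n) :
    genAt β g j (fun y => u y ^ 2) x - 2 * u x * genAt β g j u x =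
      2 * (1 - spin (x j) * mag (cpl β g) 0 j x) * dd j u x ^ 2 := by
  simp only [genAt, proj, dd]
  cases hx : x j
  · have e : Function.update x j false = x := by rw [← hx, Function.update_eq_self]
    rw [e]; simp [spin]; ring
  · have e : Function.update x j true = x := by rw [← hx, Function.update_eq_self]
    rw [e]; simp [spin]; ring

lemma generator_sq (u : Cfg n → ℝ) (x : Cfg n) :
    generator β g (fun y => u y ^ 2) x - 2 * u x * generator β g u x =
      ∑ j, 2 * (1 - spin (x j) * mag (cpl β g) 0 j x) * dd j u x ^ 2 := by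
  simp only [generator_genAt, Finset.mul_sum, ← Finset.sum_sub_distrib, genAt_sq]

lemma genAt_dd {i j : Fin n} (hij : i ≠ j) (F : Cfg n → ℝ) (x : Cfg n) :
    dd i (genAt β g j F) x = genAt β g j (dd i F) x +
      infl β g i j x * (dd j F x - 2 * spin (x i) * dd j (dd i F) x) := by
  simp only [genAt, proj, infl, dd, Function.update_of_ne hij.symm, Function.update_comm hij _ _ x]
  cases hx : x i
  · have e : Function.update x i false = x := by rw [← hx, Function.update_eq_self]
    have e2 : ∀ c, Function.update (Function.update x j c) i false = Function.update x j c := fun c => by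
      rw [← Function.update_comm hij, e]
    simp only [e, e2, spin, Bool.false_eq_true, if_false]
    ring
  · have e : Function.update x i true = x := by rw [← hx, Function.update_eq_self]
    have e2 : ∀ c, Function.update (Function.update x j c) i true = Function.update x j c := fun c => by
      rw [← Function.update_comm hij, e]
    simp only [e, e2, spin, if_true]
    ring

lemma dd_genAt_self (hd : ∀ k, cpl β g k k = 0) (i : Fin n) (F : Cfg n → ℝ) (x : Cfg n) :
    dd i (genAt β g i F) x = -dd i F x := by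
  have h : ∀ c, genAt β g i F (Function.update x i c) = -((spin c - mag (cpl β g) 0 i x) * dd i F x) := fun c => by
    rw [genAt, proj_update 0 hd]
  rw [dd, h, h]
  simp only [spin, Bool.false_eq_true, if_true, if_false]
  ring

lemma genAt_dd_self (i : Fin n) (F : Cfg n → ℝ) (x : Cfg n) : genAt β g i (dd i F) x = 0 := by
  simp [genAt, proj, dd]

lemma infl_bound {Λ R : ℝ} (hJ : Good (cpl β g) Λ R) (i j : Fin n) (x : Cfg n) :
    |infl β g i j x| ≤ 4 * |cpl β g i j| * (1 - spin (x j) * mag (cpl β g) 0 j x) ∧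
    |infl β g i j x| ≤ 4 * |cpl β g i j| ∧
    |infl β g i j x - cpl β g i j * (1 - mag (cpl β g) 0 j x ^ 2)| ≤ 8 * cpl β g i j ^ 2 := by
  set K := cpl β g i j
  set m := mag (cpl β g) 0 j x with hm
  set a := fld (cpl β g) 0 j x
  have hK : |K| ≤ 1 / 4 := hJ.small i j
  obtain ⟨hp0, hp1⟩ := mag_sq (cpl β g) 0 j x
  have hm1 := abs_lt.1 (tanh_abs_lt a)
  have hm' : |m| ≤ 1 := (tanh_abs_lt a).le
  set s := spin (x i) with hs
  set T := Real.tanh (2 * (-s * K)) with hT
  have hs1 : |s| = 1 := by rcases spin_cases (x i) with h | h <;> simp [hs, h]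
  have hTb : |T| ≤ 2 * |K| := (abs_tanh_le _).trans_eq (by rw [abs_mul, abs_mul, abs_neg, hs1, one_mul, abs_two])
  have hT3 : |T - 2 * (-s * K)| ≤ (2 * |K|) ^ 3 := (abs_tanh_sub_le _).trans_eq (by
    rw [abs_mul, abs_mul, abs_neg, hs1, one_mul, abs_two])
  have hmT : |m * T| ≤ 1 / 2 := (abs_mul' hm' hTb).trans (by linarith)
  have hden : 0 < 1 + m * T := by have := (abs_le.1 hmT).1; linarith
  have hflip : mag (cpl β g) 0 j (Function.update x i (!(x i))) - m = T * (1 - m ^ 2) / (1 + m * T) := by
    have e : fld (cpl β g) 0 j (Function.update x i (!(x i))) = a + 2 * (-s * K) := by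
      rw [fld_update, spin_not, ← hJ.symm i j]; simp only [a, hs, K]; ring
    rw [mag, e, tanh_add', ← hT, show Real.tanh a = m from rfl]
    field_simp; ring
  have hinfl : infl β g i j x = -s / 2 * (T * (1 - m ^ 2) / (1 + m * T)) := by
    rw [← hflip, infl]
    cases hx : x i
    · have e : Function.update x i false = x := by rw [← hx, Function.update_eq_self]
      simp only [hs, hx, e, spin, Bool.false_eq_true, if_false, Bool.not_false, ← hm]; ring
    · have e : Function.update x i true = x := by rw [← hx, Function.update_eq_self]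
      simp only [hs, hx, e, spin, if_true, Bool.not_true, ← hm]; ring
  have hinv : |1 / (1 + m * T)| ≤ 2 := by
    rw [abs_of_pos (by positivity), div_le_iff₀ hden]; linarith [(abs_le.1 hmT).1]
  have hmain : |infl β g i j x| ≤ 2 * |K| * (1 - m ^ 2) := by
    rw [hinfl, show -s / 2 * (T * (1 - m ^ 2) / (1 + m * T)) = -s / 2 * (T * (1 / (1 + m * T))) * (1 - m ^ 2) by ring,
      abs_mul _ (1 - m ^ 2), abs_of_nonneg hp0]
    refine mul_le_mul_of_nonneg_right ((abs_mul' (A := 1 / 2) (le_of_eq ?_) (abs_mul' hTb hinv)).trans_eq (by ring)) hp0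
    rw [abs_div, abs_neg, hs1, abs_two]
  refine ⟨?_, ?_, ?_⟩
  · refine hmain.trans ?_
    have h : 1 - m ^ 2 ≤ 2 * (1 - spin (x j) * m) := by
      have := abs_le.1 hm'
      rcases spin_cases (x j) with h | h <;> rw [h]
      · linarith [mul_nonneg (by linarith : (0:ℝ) ≤ 1 - m) (by linarith : (0:ℝ) ≤ 1 - m)]
      · linarith [mul_nonneg (by linarith : (0:ℝ) ≤ 1 + m) (by linarith : (0:ℝ) ≤ 1 + m)]
    have := mul_le_mul_of_nonneg_left h (mul_nonneg two_pos.le (abs_nonneg K))
    linarith
  · refine hmain.trans ?_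
    have := mul_le_mul_of_nonneg_left hp1 (mul_nonneg two_pos.le (abs_nonneg K))
    linarith [abs_nonneg K]
  · have e : infl β g i j x - K * (1 - m ^ 2) =
        (-s / 2 * ((T - 2 * (-s * K)) * (1 / (1 + m * T))) + -K * (m * T * (1 / (1 + m * T)))) * (1 - m ^ 2) := by
      have hss : s * s = 1 := spin_mul_self (x i)
      have hDinv : (1 + m * T) * (1 / (1 + m * T)) = 1 := by field_simp
      rw [hinfl, div_eq_mul_one_div (T * (1 - m ^ 2))]
      generalize 1 / (1 + m * T) = q at hDinv ⊢
      linear_combination (K * (1 - m ^ 2)) * hDinv + (K * (1 - m ^ 2) * q) * hss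
    rw [e]
    have hA : |-s / 2| ≤ 1 / 2 := le_of_eq (by rw [abs_div, abs_neg, hs1, abs_two])
    have hB : |m * T| ≤ 2 * |K| := (abs_mul' hm' hTb).trans_eq (one_mul _)
    refine (abs_mul' (abs_add' (abs_mul' hA (abs_mul' hT3 hinv)) (abs_mul' (le_of_eq (abs_neg K)) (abs_mul' hB hinv)))
      (le_of_eq (abs_of_nonneg hp0))).trans ?_
    refine (mul_le_of_le_one_right (by positivity) hp1).trans ?_
    rw [← sq_abs K]
    have := mul_le_mul_of_nonneg_right hK (sq_nonneg |K|)
    linarith [sq_nonneg |K|]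

/-- pointwise curvature bound -/
lemma grad_curvature {Λ R : ℝ} (hJ : Good (cpl β g) Λ R) (hΛ : 0 ≤ Λ) (F : Cfg n → ℝ) (x : Cfg n) :
    -(42 * Λ * grad2 F x) ≤
      generator β g (grad2 F) x - 2 * ∑ i, dd i F x * dd i (generator β g F) x := by
  set m := fun j => mag (cpl β g) 0 j x
  set u := fun i => dd i F x with hu
  set K := cpl β g
  set W := fun i j => dd j (dd i F) x with hW
  set w := fun j => 1 - spin (x j) * m j with hw
  set a := fun i j => if i = j then 0 else infl β g i j x with ha
  have hL : generator β g (grad2 F) x = ∑ i, generator β g (fun y => dd i F y ^ 2) x := by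
    have e : grad2 F = ∑ i, (fun y => dd i F y ^ 2) := by funext y; simp [grad2, Finset.sum_apply]
    rw [e, map_sum, Finset.sum_apply]
  have hD : ∀ i, dd i (generator β g F) x =
      generator β g (dd i F) x - u i + ∑ j, a i j * (u j - 2 * spin (x i) * W i j) := by
    intro i
    have e : dd i (generator β g F) x = ∑ j, dd i (genAt β g j F) x := by
      simp only [dd, generator_genAt, ← Finset.sum_sub_distrib, Finset.sum_div]
    rw [e, generator_genAt]
    have e2 : ∀ j, dd i (genAt β g j F) x =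
        genAt β g j (dd i F) x - (if i = j then u i else 0) + a i j * (u j - 2 * spin (x i) * W i j) := fun j => by
      by_cases h : i = j
      · subst h; simp [ha, hu, dd_genAt_self hJ.diag, genAt_dd_self]
      · simp [ha, h, hu, hW, genAt_dd h]
    simp only [e2, Finset.sum_add_distrib, Finset.sum_sub_distrib, Finset.sum_ite_eq, Finset.mem_univ, if_true]
  have expand : generator β g (grad2 F) x - 2 * ∑ i, dd i F x * dd i (generator β g F) x =
      2 * (∑ i, u i ^ 2) + ∑ i, ∑ j, (2 * w j * W i j ^ 2 + 4 * spin (x i) * (u i * (a i j * W i j))) -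
        2 * ∑ i, ∑ j, a i j * (u i * u j) := by
    simp only [hL, hD, Finset.mul_sum, ← Finset.sum_sub_distrib, ← Finset.sum_add_distrib]
    refine Finset.sum_congr rfl fun i _ => ?_
    have h := generator_sq (β := β) (g := g) (dd i F) x
    simp only [hu, hw, m, hW] at *
    have e3 : ∑ j, 2 * (dd i F x * (a i j * (dd j F x - 2 * spin (x i) * dd j (dd i F) x))) =
        ∑ j, 2 * (a i j * (dd i F x * dd j F x)) - ∑ j, 4 * spin (x i) * (dd i F x * (a i j * dd j (dd i F) x)) := by
      rw [← Finset.sum_sub_distrib]; exact Finset.sum_congr rfl fun j _ => by ring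
    rw [Finset.sum_add_distrib, mul_add (dd i F x), mul_add 2, Finset.mul_sum, Finset.mul_sum, e3]
    linarith
  have hwp : ∀ j, 0 ≤ w j := fun j => by
    have := abs_le.1 (tanh_abs_lt (fld (cpl β g) 0 j x)).le
    rcases spin_cases (x j) with h | h <;> simp only [hw, m, mag, h] <;> linarith
  have pt : ∀ i j, -(64 * (K i j ^ 2 * u i ^ 2)) ≤ 2 * w j * W i j ^ 2 + 4 * spin (x i) * (u i * (a i j * W i j)) := by
    intro i j
    by_cases h : i = j
    · simp only [ha, h, if_true, zero_mul, mul_zero, add_zero]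
      have := mul_nonneg (mul_nonneg two_pos.le (hwp j)) (sq_nonneg (W j j))
      linarith [mul_nonneg (mul_nonneg (sq_nonneg (K j j)) (sq_nonneg (u j))) (by norm_num : (0:ℝ) ≤ 64)]
    · obtain ⟨b1, b2, -⟩ := infl_bound hJ i j x
      have hs : |spin (x i)| = 1 := by rcases spin_cases (x i) with h | h <;> simp [h]
      have hb : |4 * spin (x i) * (u i * (a i j * W i j))| ≤ 16 * (|u i| * |K i j|) * (w j * |W i j|) := by
        simp only [ha, if_neg h]
        rw [abs_mul, abs_mul, abs_mul, abs_mul, hs, abs_of_pos (by norm_num : (0:ℝ) < 4)]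
        have h2 := mul_le_mul_of_nonneg_left (mul_le_mul_of_nonneg_right b1 (abs_nonneg (W i j)))
          (mul_nonneg (by norm_num : (0:ℝ) ≤ 4) (abs_nonneg (u i)))
        simp only [hw, m, K] at *
        linarith
      have h1 := mul_nonneg (mul_nonneg two_pos.le (hwp j)) (sq_nonneg (|W i j| - 4 * (|u i| * |K i j|)))
      have hw2 : w j ≤ 2 := by
        have := abs_le.1 (tanh_abs_lt (fld (cpl β g) 0 j x)).le
        rcases spin_cases (x j) with h | h <;> simp only [hw, m, mag, h] <;> linarith
      have h3 := mul_le_mul_of_nonneg_right hw2 (mul_nonneg (sq_nonneg (|u i|)) (sq_nonneg (|K i j|)))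
      rw [sq_abs, sq_abs] at h3
      have e : (|W i j| - 4 * (|u i| * |K i j|)) ^ 2 = W i j ^ 2 - 8 * (|u i| * |K i j|) * |W i j| + 16 * (u i ^ 2 * K i j ^ 2) := by
        rw [← sq_abs (W i j), ← sq_abs (u i), ← sq_abs (K i j)]; ring
      rw [e] at h1
      have := (abs_le.1 hb).1
      linarith [mul_nonneg (sq_nonneg (u i)) (sq_nonneg (K i j))]
  have h1 : -(64 * (Λ / 2) * ∑ i, u i ^ 2) ≤ ∑ i, ∑ j, (2 * w j * W i j ^ 2 + 4 * spin (x i) * (u i * (a i j * W i j))) := by
    refine le_trans ?_ (Finset.sum_le_sum fun i _ => Finset.sum_le_sum fun j _ => pt i j)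
    simp only [Finset.sum_neg_distrib, neg_le_neg_iff]
    rw [Finset.mul_sum]
    refine Finset.sum_le_sum fun i _ => ?_
    rw [← Finset.mul_sum, ← Finset.sum_mul]
    have := mul_le_mul_of_nonneg_right (hJ.row2 i) (sq_nonneg (u i))
    linarith
  set v := fun j => (1 - m j ^ 2) * u j with hv
  have hK : |∑ i, ∑ j, K i j * (u i * v j)| ≤ Λ * ∑ i, u i ^ 2 := by
    have e : 4 * ∑ i, ∑ j, K i j * (u i * v j) =
        (∑ i, ∑ j, K i j * ((u i + v i) * (u j + v j))) - ∑ i, ∑ j, K i j * ((u i - v i) * (u j - v j)) := by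
      simp only [← Finset.sum_sub_distrib, Finset.mul_sum]
      have e1 : ∑ i, ∑ j, (K i j * ((u i + v i) * (u j + v j)) - K i j * ((u i - v i) * (u j - v j))) =
          ∑ i, ∑ j, (2 * (K i j * (u i * v j)) + 2 * (K j i * (u j * v i))) :=
        Finset.sum_congr rfl fun i _ => Finset.sum_congr rfl fun j _ => by simp only [K, hJ.symm j i]; ring
      rw [e1]
      simp only [Finset.sum_add_distrib]
      rw [Finset.sum_comm (f := fun i j => 2 * (K j i * (u j * v i))), ← Finset.sum_add_distrib]
      refine Finset.sum_congr rfl fun i _ => ?_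
      rw [← Finset.sum_add_distrib]
      exact Finset.sum_congr rfl fun j _ => by ring
    have hsum : ∑ i, (u i + v i) ^ 2 + ∑ i, (u i - v i) ^ 2 ≤ 4 * ∑ i, u i ^ 2 := by
      rw [← Finset.sum_add_distrib, Finset.mul_sum]
      refine Finset.sum_le_sum fun i _ => ?_
      obtain ⟨hp0, hp1⟩ := mag_sq (cpl β g) 0 i x
      have : v i ^ 2 ≤ u i ^ 2 := by
        simp only [hv, m, mul_pow]
        exact mul_le_of_le_one_left (sq_nonneg _) (pow_le_one₀ hp0 hp1)
      linarith
    have h2 := abs_sub' (hJ.op fun i => u i + v i) (hJ.op fun i => u i - v i)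
    rw [← e, abs_mul, abs_of_pos (by norm_num : (0:ℝ) < 4)] at h2
    have := mul_le_mul_of_nonneg_left hsum hΛ
    linarith
  have h2 : |∑ i, ∑ j, a i j * (u i * u j)| ≤ 5 * Λ * ∑ i, u i ^ 2 := by
    have e : ∑ i, ∑ j, a i j * (u i * u j) =
        (∑ i, ∑ j, (a i j - K i j * (1 - m j ^ 2)) * (u i * u j)) + ∑ i, ∑ j, K i j * (u i * v j) := by
      simp only [← Finset.sum_add_distrib, hv]
      exact Finset.sum_congr rfl fun i _ => Finset.sum_congr rfl fun j _ => by ring
    rw [e]
    refine (abs_add' ?_ hK).trans (le_of_eq (show 4 * Λ * ∑ i, u i ^ 2 + _ = _ by ring))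
    refine (Finset.abs_sum_le_sum_abs _ _).trans ((Finset.sum_le_sum fun i _ => Finset.abs_sum_le_sum_abs _ _).trans ?_)
    refine le_trans (Finset.sum_le_sum fun i _ => Finset.sum_le_sum fun j _ => ?_)
      (quad_form_le (T := fun i j => 8 * K i j ^ 2) (fun i j => by simp only [K, hJ.symm i j]) (fun i j => by positivity)
        (fun i => by rw [← Finset.mul_sum]; linarith [hJ.row2 i]) u)
    rw [abs_mul, abs_mul]
    refine mul_le_mul_of_nonneg_right ?_ (by positivity)
    by_cases h : i = j
    · simp [ha, h, K, hJ.diag]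
    · simp only [ha, if_neg h, m, K]
      exact (infl_bound hJ i j x).2.2
  rw [expand]
  have hG : grad2 F x = ∑ i, u i ^ 2 := rfl
  rw [hG]
  have := (abs_le.1 h2).2
  have hG0 : 0 ≤ ∑ i, u i ^ 2 := Finset.sum_nonneg fun i _ => sq_nonneg _
  linarith

lemma generator_flow_comm (f : Cfg n → ℝ) (t : ℝ) :
    flow β g (generator β g f) t = generator β g (flow β g f t) := by
  have h := ((Commute.refl (generator β g)).smul_right t).exp_right
  exact (congrArg (fun L : (Cfg n → ℝ) →L[ℝ] (Cfg n → ℝ) => L f) h.eq).symm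

lemma flow_mono {f h : Cfg n → ℝ} (hfh : ∀ x, f x ≤ h x) {t : ℝ} (ht : 0 ≤ t) (x : Cfg n) :
    flow β g f t x ≤ flow β g h t x := by
  have hnn : ∀ φ : Cfg n → ℝ, (∀ y, 0 ≤ φ y) → 0 ≤ flow β g φ t x := by
    intro φ hφ
    refine le_of_forall_pos_le_add fun ε hε => ?_
    have h1 := flow_pos β g (f := φ + ε • fun _ => (1:ℝ)) (fun y => by
      simp only [Pi.add_apply, Pi.smul_apply, smul_eq_mul, mul_one]; linarith [hφ y]) ht x
    simp only [flow, map_add, map_smul, Pi.add_apply, Pi.smul_apply, smul_eq_mul] at h1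
    rw [show NormedSpace.exp (t • generator β g) (fun _ => (1:ℝ)) = fun _ => 1 from flow_one β g t, mul_one] at h1
    exact h1.le
  have h2 := hnn (h - f) fun y => sub_nonneg.2 (hfh y)
  simp only [flow, map_sub, Pi.sub_apply, sub_nonneg] at h2
  exact h2

/-- derivative of `P_s (Φ (P_{t-s} f))` for a quadratic `Φ` -/
lemma hasDerivAt_interp (f : Cfg n → ℝ) (Φ : (Cfg n → ℝ) → Cfg n → ℝ)
    (Ψ : (Cfg n → ℝ) → Cfg n → ℝ) (t s : ℝ) (x : Cfg n)
    (hΦ : HasDerivAt (fun r => Φ (flow β g f (t - r))) (Ψ (flow β g f (t - s))) s) :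
    HasDerivAt (fun r => flow β g (Φ (flow β g f (t - r))) r x)
      (flow β g (generator β g (Φ (flow β g f (t - s))) + Ψ (flow β g f (t - s))) s x) s := by
  have hA := hasDerivAt_exp_smul_const' (generator β g) s
  have h := hasDerivAt_pi.1 (hA.clm_apply hΦ) x
  refine h.congr_deriv ?_
  have e := congrFun (generator_flow_comm (β := β) (g := g) (Φ (flow β g f (t - s))) s) x
  simp only [flow] at e
  simp only [Pi.add_apply, mul_apply_eq_comp, flow, map_add, e]

lemma hasDerivAt_back (f : Cfg n → ℝ) (t s : ℝ) :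
    HasDerivAt (fun r => flow β g f (t - r)) (-generator β g (flow β g f (t - s))) s := by
  refine ((hasDerivAt_flow β g f (t - s)).scomp s ((hasDerivAt_id s).const_sub t)).congr_deriv ?_
  simp

/-- gradient bound along the semigroup -/
lemma grad_bound {Λ R : ℝ} (hJ : Good (cpl β g) Λ R) (hΛ : 0 ≤ Λ) (f : Cfg n → ℝ) {M : ℝ}
    (hM : ∀ x, grad2 f x ≤ M) {t : ℝ} (ht : 0 ≤ t) (x : Cfg n) :
    grad2 (flow β g f t) x ≤ Real.exp (42 * Λ * t) * M := by
  set C := 42 * Λ
  set Ψ := fun (F : Cfg n → ℝ) (y : Cfg n) => -(2 * ∑ i, dd i F y * dd i (generator β g F) y)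
  have hd : ∀ s, HasDerivAt (fun r => flow β g (grad2 (flow β g f (t - r))) r x)
      (flow β g (generator β g (grad2 (flow β g f (t - s))) + Ψ (flow β g f (t - s))) s x) s := fun s => by
    refine hasDerivAt_interp f grad2 Ψ t s x (hasDerivAt_pi.2 fun y => ?_)
    have hb := hasDerivAt_pi.1 (hasDerivAt_back (β := β) (g := g) f t s)
    refine (HasDerivAt.fun_sum fun i _ => (((hb (Function.update y i true)).sub (hb (Function.update y i false))).div_const 2).pow 2).congr_deriv ?_
    simp only [Ψ, dd, Finset.mul_sum, ← Finset.sum_neg_distrib, Pi.neg_apply]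
    exact Finset.sum_congr rfl fun i _ => by simp; ring
  set φ := fun r => flow β g (grad2 (flow β g f (t - r))) r x
  have hlow : ∀ s, 0 ≤ s → -(C * φ s) ≤ flow β g (generator β g (grad2 (flow β g f (t - s))) + Ψ (flow β g f (t - s))) s x := by
    intro s hs
    have h := flow_mono (β := β) (g := g) (f := (-C) • grad2 (flow β g f (t - s)))
      (h := generator β g (grad2 (flow β g f (t - s))) + Ψ (flow β g f (t - s))) (fun y => by
        have := grad_curvature hJ hΛ (flow β g f (t - s)) y
        simp only [Pi.smul_apply, Pi.add_apply, smul_eq_mul, Ψ, C]; linarith) hs x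
    simp only [φ]
    simp only [flow, map_smul, Pi.smul_apply, smul_eq_mul, neg_mul] at h ⊢
    exact h
  have hg : ∀ s, HasDerivAt (fun r => φ r * Real.exp (C * r))
      ((flow β g (generator β g (grad2 (flow β g f (t - s))) + Ψ (flow β g f (t - s))) s x) * Real.exp (C * s) +
        φ s * (Real.exp (C * s) * (C * 1))) s := fun s => (hd s).mul ((hasDerivAt_id s).const_mul C).exp
  have hm : MonotoneOn (fun r => φ r * Real.exp (C * r)) (Set.Ici 0) := by
    refine monotoneOn_of_hasDerivWithinAt_nonneg (convex_Ici 0)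
      (fun s _ => (hg s).continuousAt.continuousWithinAt) (fun s _ => (hg s).hasDerivWithinAt) fun s hs => ?_
    rw [interior_Ici] at hs
    have := mul_le_mul_of_nonneg_right (hlow s (le_of_lt hs)) (Real.exp_pos (C * s)).le
    linarith
  have h := hm Set.self_mem_Ici (Set.mem_Ici.2 ht) ht
  simp only [φ, mul_zero, Real.exp_zero, mul_one, sub_zero, sub_self, flow_zero] at h
  rw [mul_comm]
  refine h.trans (mul_le_mul_of_nonneg_right ?_ (Real.exp_pos _).le)
  refine (flow_mono (h := M • fun _ => (1:ℝ)) (fun y => by simpa using hM y) ht x).trans_eq ?_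
  simp only [flow, map_smul, Pi.smul_apply, smul_eq_mul]
  rw [show NormedSpace.exp (t • generator β g) (fun _ => (1:ℝ)) = fun _ => 1 from flow_one β g t, mul_one]

/-- variance from a fixed start -/
lemma variance_bound {Λ R : ℝ} (hJ : Good (cpl β g) Λ R) (hΛ : 0 ≤ Λ) (f : Cfg n → ℝ) {M : ℝ} (hM0 : 0 ≤ M)
    (hM : ∀ x, grad2 f x ≤ M) {t : ℝ} (ht : 0 ≤ t) (x : Cfg n) :
    flow β g (fun y => f y ^ 2) t x - flow β g f t x ^ 2 ≤ 4 * M * Real.exp (42 * Λ * t) * t := by
  set C := 42 * Λ
  set D := 4 * M * Real.exp (C * t)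
  set sqf := fun (F : Cfg n → ℝ) (y : Cfg n) => F y ^ 2
  set Ψ := fun (F : Cfg n → ℝ) (y : Cfg n) => -(2 * F y * generator β g F y)
  set φ := fun r => flow β g (sqf (flow β g f (t - r))) r x
  have hd : ∀ s, HasDerivAt φ (flow β g (generator β g (sqf (flow β g f (t - s))) + Ψ (flow β g f (t - s))) s x) s := fun s => by
    refine hasDerivAt_interp f sqf Ψ t s x (hasDerivAt_pi.2 fun y => ?_)
    refine ((hasDerivAt_pi.1 (hasDerivAt_back (β := β) (g := g) f t s) y).pow 2).congr_deriv ?_
    simp [Ψ]
  have hup : ∀ s, 0 ≤ s → s ≤ t →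
      flow β g (generator β g (sqf (flow β g f (t - s))) + Ψ (flow β g f (t - s))) s x ≤ D := by
    intro s hs hst
    refine (flow_mono (h := D • fun _ => (1:ℝ)) (fun y => ?_) hs x).trans_eq ?_
    · have h := generator_sq (β := β) (g := g) (flow β g f (t - s)) y
      simp only [Pi.add_apply, Pi.smul_apply, smul_eq_mul, mul_one, Ψ, sqf]
      have h2 : ∑ j, 2 * (1 - spin (y j) * mag (cpl β g) 0 j y) * dd j (flow β g f (t - s)) y ^ 2 ≤
          4 * grad2 (flow β g f (t - s)) y := by
        rw [grad2, Finset.mul_sum]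
        refine Finset.sum_le_sum fun j _ => mul_le_mul_of_nonneg_right ?_ (sq_nonneg _)
        have := abs_le.1 (tanh_abs_lt (fld (cpl β g) 0 j y)).le
        rcases spin_cases (y j) with h | h <;> simp only [mag, h] <;> linarith
      have h3 := grad_bound hJ hΛ f hM (by linarith : 0 ≤ t - s) y
      have h4 := mul_le_mul_of_nonneg_right
        (Real.exp_le_exp.2 (mul_le_mul_of_nonneg_left (by linarith : t - s ≤ t) (by positivity : (0:ℝ) ≤ C))) hM0
      simp only [D, C] at *
      linarith
    · simp only [flow, map_smul, Pi.smul_apply, smul_eq_mul]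
      rw [show NormedSpace.exp (s • generator β g) (fun _ => (1:ℝ)) = fun _ => 1 from flow_one β g s, mul_one]
  have hanti : AntitoneOn (fun r => φ r - D * r) (Set.Icc 0 t) := by
    refine antitoneOn_of_hasDerivWithinAt_nonpos (f' := fun s =>
        flow β g (generator β g (sqf (flow β g f (t - s))) + Ψ (flow β g f (t - s))) s x - D * 1) (convex_Icc 0 t)
      (fun s _ => ((hd s).sub ((hasDerivAt_id s).const_mul D)).continuousAt.continuousWithinAt)
      (fun s _ => ((hd s).sub ((hasDerivAt_id s).const_mul D)).hasDerivWithinAt) fun s hs => ?_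
    rw [interior_Icc] at hs
    linarith [hup s hs.1.le hs.2.le]
  have h := hanti (Set.left_mem_Icc.2 ht) (Set.right_mem_Icc.2 ht) ht
  simp only [φ, sqf, mul_zero, sub_zero, sub_self, flow_zero] at h
  linarith

/-- the chain is not mixed while `4 n exp (42Λt) t` is small against `(n exp (-t))^2` -/
lemma not_mixed {Λ R : ℝ} (hJ : Good (cpl β g) Λ R) (hΛ : 0 ≤ Λ) (hn : 0 < n) {t : ℝ} (ht : 0 ≤ t)
    (hsmall : 4 * (4 * n * Real.exp (42 * Λ * t) * t) < 1 / 8 * ((n:ℝ) * Real.exp (-t)) ^ 2) :
    ¬ MixedAt β g t := by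
  intro hmix
  have hn' : (0:ℝ) < n := by exact_mod_cast hn
  set S := fun y z : Cfg n => ∑ i, spin (z i) * spin (y i)
  -- averaged correlation
  have hcorr : (n:ℝ) * Real.exp (-t) ≤ ∑ y, gibbs β g y * flow β g (S y) t y := by
    have e : ∑ y, gibbs β g y * flow β g (S y) t y = ∑ i, ip β g (fun y => spin (y i)) (flow β g (fun z => spin (z i)) t) := by
      simp only [ip, flow_apply, S, Finset.mul_sum]
      rw [Finset.sum_congr rfl fun x _ => Finset.sum_comm, Finset.sum_comm]
      exact Finset.sum_congr rfl fun i _ => Finset.sum_congr rfl fun x _ => Finset.sum_congr rfl fun z _ => by ring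
    rw [e]
    have h : ∀ i : Fin n, Real.exp (-t) ≤ ip β g (fun y => spin (y i)) (flow β g (fun z => spin (z i)) t) := by
      intro i
      set f : Cfg n → ℝ := fun y => spin (y i)
      have hf : f ≠ 0 := fun h => by
        have := congrFun h (fun _ => true); simp [f, spin] at this
      have hff : ip β g f f = 1 := by simp [ip, f, spin_mul_self, gibbs_sum]
      have hdir : dirichlet β g f ≤ 1 := by
        have e2 : dirichlet β g f = dir (cpl β g) 0 f := by
          have h2 := inner_gen (0 : Fin n → ℝ) hJ.symm hJ.diag f f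
          simp only [dirichlet, generator_gen, mul_neg, Finset.sum_neg_distrib, neg_neg, ← wt_cpl, h2, dir, sq]
        rw [e2, dir, Finset.sum_eq_single i]
        · refine (Finset.sum_le_sum fun x _ => mul_le_mul_of_nonneg_left (?_ : _ ≤ (1:ℝ)) (wt_pos _ _ x).le).trans_eq (by simp [wt_sum])
          simp only [dd, f, Function.update_self, spin, if_true, Bool.false_eq_true, if_false]
          linarith [(mag_sq (cpl β g) 0 i x).2]
        · intro j _ hj; simp [dd, f, Function.update_of_ne (Ne.symm hj)]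
        · simp
      have hsym : ∀ r, ip β g f (flow β g f r) = ip β g (flow β g f (r / 2)) (flow β g f (r / 2)) := fun r => by
        have hd : ∀ s, HasDerivAt (fun u => ip β g (flow β g f u) (flow β g f (r - u))) 0 s := fun s => by
          refine (hasDerivAt_ip β g (hasDerivAt_flow β g f s) (hasDerivAt_back f r s)).congr_deriv ?_
          have : ∀ u v : Cfg n → ℝ, ip β g u (-v) = -ip β g u v := fun u v => by simp [ip]
          rw [this, ip_selfAdjoint]; ring
        have h := is_const_of_deriv_eq_zero (fun s => (hd s).differentiableAt) (fun s => (hd s).deriv) 0 (r / 2)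
        simp only [flow_zero, sub_zero] at h
        rwa [show r - r / 2 = r / 2 by ring] at h
      rw [hsym]
      refine le_trans ?_ (norm_lower β g hf (by linarith : 0 ≤ t / 2))
      rw [hff, one_mul, div_one]
      refine Real.exp_le_exp.2 ?_
      have := mul_le_mul_of_nonneg_right hdir ht
      linarith
    refine le_trans (le_of_eq ?_) (Finset.sum_le_sum fun i _ => h i)
    simp
  obtain ⟨y, hy⟩ : ∃ y, (n:ℝ) * Real.exp (-t) ≤ flow β g (S y) t y := by
    by_contra hcon
    push Not at hcon
    have := Finset.sum_lt_sum_of_nonempty (s := (Finset.univ : Finset (Cfg n))) Finset.univ_nonempty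
      fun y _ => mul_lt_mul_of_pos_left (hcon y) (gibbs_pos β g y)
    rw [← Finset.sum_mul, gibbs_sum, one_mul] at this
    linarith
  set a := (n:ℝ) * Real.exp (-t)
  have ha : 0 < a := by positivity
  set V := 4 * n * Real.exp (42 * Λ * t) * t
  have hgrad : ∀ z, grad2 (S y) z ≤ (n:ℝ) := fun z => by
    have hdd : ∀ i, dd i (S y) z ^ 2 = 1 := fun i => by
      have : dd i (S y) z = spin (y i) := by
        simp only [dd, S, ← Finset.sum_sub_distrib]
        rw [Finset.sum_eq_single i (fun j _ hj => by simp [Function.update_of_ne hj]) (by simp)]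
        cases y i <;> norm_num [spin]
      rw [this, sq, spin_mul_self]
    simp [grad2, hdd]
  have hvar := variance_bound hJ hΛ (S y) hn'.le hgrad ht y
  set m := flow β g (S y) t y
  set hi := fun z : Cfg n => if a / 2 ≤ S y z then (1:ℝ) else 0
  -- under the chain the statistic is large
  have hlarge : 1 - 4 * V / a ^ 2 ≤ ∑ z, kernel β g t y z * hi z := by
    set p := fun z => 1 - (S y z - m) ^ 2 * (4 / a ^ 2)
    have hp : ∀ z, p z ≤ hi z := fun z => by
      simp only [hi]; split
      · simp only [p]; linarith [mul_nonneg (sq_nonneg (S y z - m)) (show (0:ℝ) ≤ 4 / a ^ 2 by positivity)]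
      · next h =>
        push Not at h
        have h2 : a / 2 ≤ m - S y z := by linarith
        have h3 := pow_le_pow_left₀ (by positivity) h2 2
        have e : 1 - (S y z - m) ^ 2 * (4 / a ^ 2) = ((a / 2) ^ 2 - (m - S y z) ^ 2) * (4 / a ^ 2) := by
          field_simp; ring
        simp only [p]; rw [e]
        exact mul_nonpos_of_nonpos_of_nonneg (by linarith) (by positivity)
    rw [← flow_apply]
    refine le_trans ?_ (flow_mono hp ht y)
    have e : p = (fun _ => (1:ℝ)) - (4 / a ^ 2) • ((fun z => S y z ^ 2) - (2 * m) • S y + (m ^ 2) • fun _ => (1:ℝ)) := by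
      funext z; simp [p]; ring
    rw [e]
    simp only [flow, map_sub, map_add, map_smul, Pi.sub_apply, Pi.add_apply, Pi.smul_apply, smul_eq_mul]
    rw [show NormedSpace.exp (t • generator β g) (fun _ => (1:ℝ)) = fun _ => 1 from flow_one β g t]
    have hm : NormedSpace.exp (t • generator β g) (S y) y = m := rfl
    have hv : NormedSpace.exp (t • generator β g) (fun z => S y z ^ 2) y - m ^ 2 ≤ V := hvar
    rw [hm, mul_one]
    have := mul_le_mul_of_nonneg_left hv (show (0:ℝ) ≤ 4 / a ^ 2 by positivity)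
    have e2 : 4 / a ^ 2 * V = 4 * V / a ^ 2 := by ring
    linarith
  -- at equilibrium it is large with probability at most one half
  have hhalf : ∑ z, gibbs β g z * hi z ≤ 1 / 2 := by
    have h := Equiv.sum_comp (Function.Involutive.toPerm negCfg negCfg_negCfg) (fun z => gibbs β g z * hi z)
    have hneg : ∀ z, hi z + hi (negCfg z) ≤ 1 := fun z => by
      have e : S y (negCfg z) = -S y z := by simp [S, negCfg, spin_not]
      simp only [hi, e]
      split_ifs <;> linarith
    have h' : ∑ z, gibbs β g z * hi (negCfg z) = ∑ z, gibbs β g z * hi z := by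
      rw [← h]; exact Finset.sum_congr rfl fun z _ => by
        show gibbs β g z * hi (negCfg z) = gibbs β g (negCfg z) * hi (negCfg z)
        rw [gibbs_negCfg]
    have := Finset.sum_le_sum (s := (Finset.univ : Finset (Cfg n))) fun z _ =>
      mul_le_mul_of_nonneg_left (hneg z) (gibbs_pos β g z).le
    simp only [mul_add, mul_one, Finset.sum_add_distrib, gibbs_sum, h'] at this
    linarith
  have htv : ∑ z, (kernel β g t y z - gibbs β g z) * (2 * hi z - 1) ≤ 1 / 2 := by
    refine (Finset.sum_le_sum fun z _ => (le_abs_self _).trans ?_).trans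
      (show ∑ z, |kernel β g t y z - gibbs β g z| ≤ 1 / 2 by have := hmix y; linarith)
    rw [abs_mul]
    refine mul_le_of_le_one_right (abs_nonneg _) ?_
    simp only [hi]; split <;> norm_num
  have hk1 : ∑ z, kernel β g t y z = 1 := by
    have h := flow_apply β g (fun _ => (1:ℝ)) t y
    simpa [flow_one] using h.symm
  have e : ∑ z, (kernel β g t y z - gibbs β g z) * (2 * hi z - 1) =
      2 * (∑ z, kernel β g t y z * hi z) - 2 * (∑ z, gibbs β g z * hi z) := by
    simp only [sub_mul, mul_sub, mul_one, Finset.sum_sub_distrib, hk1, gibbs_sum, Finset.mul_sum]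
    rw [sub_self, sub_zero]
    congr 1 <;> exact Finset.sum_congr rfl fun z _ => by ring
  rw [e] at htv
  have h8 : 4 * V / a ^ 2 < 1 / 8 := by rw [div_lt_iff₀ (pow_pos ha 2)]; exact hsmall
  linarith

/-- logarithmic lower bound at every temperature -/
theorem log_lower (β : ℝ) (hβ : 0 ≤ β) :
    ∃ c : ℝ, 0 < c ∧ Tendsto (fun n : ℕ => (disorder n).real
      {g | ¬ (∀ t : ℝ, 0 ≤ t → t ≤ c * Real.log n → ¬ MixedAt β g t)}) atTop (𝓝 0) := by
  obtain ⟨c₀, hc₀, hop⟩ := opnorm_bound (ε := 1 / 4) (δ := 1 / 4) (by norm_num) le_rfl (by norm_num) le_rfl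
  set Λ := 7 * β + 4 * β ^ 2 + 1 with hΛ
  have hΛ0 : 0 < Λ := by positivity
  set c := 1 / (4 * (β + 1)) with hc
  have hc0 : 0 < c := by positivity
  set γ := 1 / (2 * (42 * Λ + 4)) with hγ
  have hγ0 : 0 < γ := by positivity
  set c₁ := (1 - Real.log 2) / 2
  have hc₁ : 0 < c₁ := by
    have := Real.log_lt_sub_one_of_pos two_pos (by norm_num)
    simp only [c₁]; linarith
  set c₂ := c ^ 2 / 4 with hc₂
  set bad := fun n : ℕ => 2 * Real.exp (-(c₀ * n)) + (n:ℝ) * Real.exp (-(c₁ * n)) +
    Real.exp (Real.log 2 / 2) * ((n:ℝ) ^ 2 * Real.exp (-(c₂ * n)))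
  have hbad : Tendsto bad atTop (𝓝 0) := by
    have := (((tendsto_exp_nat hc₀).const_mul 2).add (tendsto_pow_exp_nat 1 hc₁)).add
      ((tendsto_pow_exp_nat 2 (show 0 < c₂ by positivity)).const_mul (Real.exp (Real.log 2 / 2)))
    simpa [bad] using this
  obtain ⟨N, hN⟩ : ∃ N : ℕ, ∀ n ≥ N, 128 * (n:ℝ) ^ (1 / 2 : ℝ) < n := by
    obtain ⟨N, hN⟩ := exists_nat_gt ((128:ℝ) ^ 2)
    refine ⟨N, fun n hn => ?_⟩
    have h : (128:ℝ) ^ 2 < n := hN.trans_le (by exact_mod_cast hn)
    have hn0 : (0:ℝ) < n := lt_trans (by norm_num) h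
    rw [← Real.sqrt_eq_rpow]
    have h2 : (128:ℝ) < Real.sqrt n := (Real.lt_sqrt (by norm_num)).2 h
    have := mul_lt_mul_of_pos_right h2 (Real.sqrt_pos.2 hn0)
    rwa [Real.mul_self_sqrt hn0.le] at this
  have key : ∀ n, max N 2 ≤ n → (disorder n).real {g | ¬ (∀ t : ℝ, 0 ≤ t → t ≤ γ * Real.log n → ¬ MixedAt β g t)} ≤ bad n := by
    intro n hn
    have hn0 : 0 < n := by omega
    have hnR : (0:ℝ) < n := by exact_mod_cast hn0
    set rn := Real.sqrt (n:ℝ)
    have hrn : 0 < rn := Real.sqrt_pos.2 hnR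
    have hrn2 : rn * rn = n := Real.mul_self_sqrt hnR.le
    set E := {g : Edge n → ℝ | ∀ t : ℝ, 0 ≤ t → t ≤ γ * Real.log n → ¬ MixedAt β g t}
    set B1 := {g : Edge n → ℝ | ∃ v : Fin n → ℝ, (2 + 5 * (1 / 4)) / (1 - 2 * (1 / 4)) * Real.sqrt n * ∑ i, v i ^ 2 <
        |∑ i, ∑ j, coupling g i j * (v i * v j)|}
    set B2 := ⋃ i : Fin n, {g : Edge n → ℝ | 2 * (n:ℝ) ≤ ∑ j, coupling g i j ^ 2}
    set B3 := ⋃ e : Edge n, {g : Edge n → ℝ | c * rn < |g e|}
    have hsub : Eᶜ ⊆ B1 ∪ B2 ∪ B3 := fun g hgE => by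
      by_contra hg
      refine hgE ?_
      simp only [B1, B2, B3, Set.mem_union, Set.mem_iUnion, Set.mem_ofPred_eq, not_or, not_exists, not_lt, not_le] at hg
      obtain ⟨⟨h1, h2⟩, h3⟩ := hg
      have hk0 : 0 ≤ β / rn := by positivity
      have hent : ∀ i j, |coupling g i j| ≤ c * rn := fun i j => by
        unfold coupling
        split_ifs
        · exact h3 _
        · exact h3 _
        · simp only [abs_zero]; positivity
      have hsm : ∀ i j, |cpl β g i j| ≤ 1 / 4 := fun i j => by
        simp only [cpl]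
        rw [abs_mul, abs_of_nonneg hk0]
        refine (mul_le_mul_of_nonneg_left (hent i j) hk0).trans ?_
        rw [show β / rn * (c * rn) = β * c by field_simp, hc, mul_one_div, div_le_iff₀ (by positivity)]
        linarith
      have hr2 : ∀ i, ∑ j, cpl β g i j ^ 2 ≤ Λ / 2 := fun i => by
        simp only [cpl, mul_pow, ← Finset.mul_sum, div_pow, sq rn, show Real.sqrt (n:ℝ) = rn from rfl, hrn2]
        refine (mul_le_mul_of_nonneg_left (h2 i).le (by positivity)).trans ?_
        rw [show β ^ 2 / (n:ℝ) * (2 * n) = 2 * β ^ 2 by field_simp, hΛ]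
        linarith
      have hJ : Ising.Good (cpl β g) Λ (Λ / 8) := by
        refine ⟨fun i j => by simp only [cpl, coupling_symm g i j], fun i => by simp [cpl, coupling_self], fun v => ?_, hr2,
          hsm, fun i => ?_⟩
        · have hS : 0 ≤ ∑ i, v i ^ 2 := Finset.sum_nonneg fun i _ => sq_nonneg _
          simp only [cpl, mul_assoc, ← Finset.mul_sum, abs_mul, abs_of_nonneg hk0, show Real.sqrt (n:ℝ) = rn from rfl]
          refine (mul_le_mul_of_nonneg_left (h1 v) hk0).trans ?_
          rw [← mul_assoc]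
          refine mul_le_mul_of_nonneg_right ?_ hS
          rw [show β / rn * ((2 + 5 * (1 / 4)) / (1 - 2 * (1 / 4)) * Real.sqrt n) = 13 / 2 * β by
            simp only [show Real.sqrt (n:ℝ) = rn from rfl]; field_simp; ring]
          rw [hΛ]
          linarith [sq_nonneg β]
        · calc ∑ j, |cpl β g i j| ^ 3 ≤ ∑ j, 1 / 4 * cpl β g i j ^ 2 := Finset.sum_le_sum fun j _ => by
                rw [pow_succ' |cpl β g i j| 2, sq_abs]
                exact mul_le_mul_of_nonneg_right (hsm i j) (sq_nonneg _)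
            _ ≤ 1 / 4 * (Λ / 2) := by rw [← Finset.mul_sum]; exact mul_le_mul_of_nonneg_left (hr2 i) (by norm_num)
            _ = Λ / 8 := by ring
      intro t ht htle
      refine not_mixed hJ hΛ0.le hn0 ht ?_
      -- exp ((42Λ+4) t) ≤ √n
      have hexp : Real.exp ((42 * Λ + 4) * t) ≤ (n:ℝ) ^ (1 / 2 : ℝ) := by
        rw [Real.rpow_def_of_pos hnR]
        refine Real.exp_le_exp.2 ?_
        calc (42 * Λ + 4) * t ≤ (42 * Λ + 4) * (γ * Real.log n) := mul_le_mul_of_nonneg_left htle (by positivity)
          _ = Real.log n * (1 / 2) := by rw [hγ]; field_simp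
      have ht2 : t ≤ Real.exp (2 * t) := le_trans (by linarith) (Real.add_one_le_exp (2 * t))
      have hN' := hN n (le_trans (le_max_left _ _) hn)
      calc 4 * (4 * n * Real.exp (42 * Λ * t) * t) ≤ 4 * (4 * n * Real.exp (42 * Λ * t) * Real.exp (2 * t)) := by
            exact mul_le_mul_of_nonneg_left (mul_le_mul_of_nonneg_left ht2 (by positivity)) (by norm_num)
        _ = 16 * n * (Real.exp ((42 * Λ + 4) * t) * Real.exp (-(2 * t))) := by
            rw [← Real.exp_add, mul_assoc (4 * (n:ℝ)), ← Real.exp_add]; ring_nf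
        _ ≤ 16 * n * ((n:ℝ) ^ (1 / 2 : ℝ) * Real.exp (-(2 * t))) :=
            mul_le_mul_of_nonneg_left (mul_le_mul_of_nonneg_right hexp (Real.exp_pos _).le) (by positivity)
        _ < 1 / 8 * ((n:ℝ) * Real.exp (-t)) ^ 2 := by
            rw [mul_pow, ← Real.exp_nat_mul, show ((2:ℕ):ℝ) * -t = -(2 * t) by push_cast; ring]
            have := mul_lt_mul_of_pos_right hN' (mul_pos hnR (Real.exp_pos (-(2 * t))))
            linarith
    have p1 : (disorder n).real B1 ≤ 2 * Real.exp (-(c₀ * n)) := hop n hn0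
    have p2 : (disorder n).real B2 ≤ (n:ℝ) * Real.exp (-(c₁ * n)) := by
      refine (measureReal_iUnion_fintype_le _).trans ((Finset.sum_le_sum fun i _ => row_bound i).trans_eq ?_)
      rw [Finset.sum_const, Finset.card_univ, Fintype.card_fin, nsmul_eq_mul]
    have p3 : (disorder n).real B3 ≤ Real.exp (Real.log 2 / 2) * ((n:ℝ) ^ 2 * Real.exp (-(c₂ * n))) := by
      refine (measureReal_iUnion_fintype_le _).trans ((Finset.sum_le_sum fun e _ => entry_bound e (by positivity)).trans ?_)
      rw [Finset.sum_const, nsmul_eq_mul, Finset.card_univ]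
      have hcard : (Fintype.card (Edge n) : ℝ) ≤ (n:ℝ) ^ 2 := by
        have := Fintype.card_subtype_le (fun p : Fin n × Fin n => p.1 < p.2)
        rw [Fintype.card_prod, Fintype.card_fin, ← sq] at this
        exact_mod_cast this
      refine (mul_le_mul_of_nonneg_right hcard (Real.exp_pos _).le).trans (le_of_eq ?_)
      rw [mul_pow, sq rn, hrn2, sub_eq_add_neg, Real.exp_add, hc₂]
      ring_nf
    have h := (measureReal_mono (μ := disorder n) hsub).trans
      ((measureReal_union_le _ _).trans (add_le_add (measureReal_union_le _ _) le_rfl))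
    show (disorder n).real Eᶜ ≤ bad n
    simp only [bad]
    linarith
  exact ⟨γ, hγ0, squeeze_zero' (Eventually.of_forall fun n => measureReal_nonneg)
    (eventually_atTop.2 ⟨max N 2, key⟩) hbad⟩

end Vale.Agent.P150
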