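import Vale.Agent.P150.Mixing

/-! The complex resolvent of the interaction matrix and its derivatives in the couplings. -/

open Filter Matrix
open scoped Topology ComplexConjugate

namespace Vale.Agent.P150

variable {n : ℕ}

/-- spins as complex numbers -/
def cspin (x : Cfg n) (i : Fin n) : ℂ := (spin (x i) : ℂ)

/-- the interaction matrix `g_{ij}/√n` -/
noncomputable def jmat (g : Edge n → ℝ) : Matrix (Fin n) (Fin n) ℂ :=
  Matrix.of fun i j => ((coupling g i j / Real.sqrt n : ℝ) : ℂ)

/-- `z - J` -/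
noncomputable def shifted (z : ℂ) (g : Edge n → ℝ) : Matrix (Fin n) (Fin n) ℂ := z • 1 - jmat g

/-- the resolvent -/
noncomputable def res (z : ℂ) (g : Edge n → ℝ) : Matrix (Fin n) (Fin n) ℂ := (shifted z g)⁻¹

/-- resolvent applied to a configuration -/
noncomputable def kx (z : ℂ) (g : Edge n → ℝ) (x : Cfg n) : Fin n → ℂ := res z g *ᵥ cspin x

lemma jmat_symm (g : Edge n → ℝ) (i j : Fin n) : jmat g i j = jmat g j i := by
  simp only [jmat, Matrix.of_apply, coupling_symm g i j]

lemma jmat_diag (g : Edge n → ℝ) (i : Fin n) : jmat g i i = 0 := by simp [jmat, coupling_self]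

lemma shifted_mulVec (z : ℂ) (g : Edge n → ℝ) (w : Fin n → ℂ) (i : Fin n) :
    (shifted z g *ᵥ w) i = z * w i - ∑ j, jmat g i j * w j := by
  rw [shifted, Matrix.sub_mulVec, Matrix.smul_mulVec, Matrix.one_mulVec]
  rfl

lemma im_form (z : ℂ) (g : Edge n → ℝ) (w : Fin n → ℂ) :
    (∑ i, conj (w i) * (shifted z g *ᵥ w) i).im = z.im * ∑ i, Complex.normSq (w i) := by
  simp only [shifted_mulVec, mul_sub, Finset.sum_sub_distrib, Complex.sub_im, Finset.mul_sum]
  have h : (∑ i, ∑ j, conj (w i) * (jmat g i j * w j)).im = 0 := by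
    rw [← Complex.conj_eq_iff_im, map_sum]
    simp only [map_sum, map_mul, Complex.conj_conj]
    rw [Finset.sum_comm]
    refine Finset.sum_congr rfl fun i _ => Finset.sum_congr rfl fun j _ => ?_
    rw [jmat_symm g j i, show conj (jmat g i j) = jmat g i j from Complex.conj_ofReal _]
    ring
  rw [h, sub_zero, Complex.im_sum]
  refine Finset.sum_congr rfl fun i _ => ?_
  rw [mul_left_comm, ← Complex.normSq_eq_conj_mul_self, Complex.mul_im]
  simp

variable {z : ℂ}

lemma isUnit_shifted (hz : 0 < z.im) (g : Edge n → ℝ) : IsUnit (shifted z g).det := by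
  rw [← Matrix.isUnit_iff_isUnit_det, ← Matrix.mulVec_injective_iff_isUnit]
  intro v w hvw
  have h0 : shifted z g *ᵥ (v - w) = 0 := by rw [Matrix.mulVec_sub]; exact sub_eq_zero.2 hvw
  have h := im_form z g (v - w)
  rw [h0] at h
  simp only [Pi.zero_apply, mul_zero, Finset.sum_const_zero, Complex.zero_im, zero_eq_mul, hz.ne', false_or] at h
  funext i
  have := (Finset.sum_eq_zero_iff_of_nonneg fun i _ => Complex.normSq_nonneg _).1 h i (Finset.mem_univ i)
  exact sub_eq_zero.1 (Complex.normSq_eq_zero.1 this)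

lemma shifted_mul_res (hz : 0 < z.im) (g : Edge n → ℝ) : shifted z g * res z g = 1 :=
  Matrix.mul_nonsing_inv _ (isUnit_shifted hz g)

lemma res_mul_shifted (hz : 0 < z.im) (g : Edge n → ℝ) : res z g * shifted z g = 1 :=
  Matrix.nonsing_inv_mul _ (isUnit_shifted hz g)

lemma res_symm (g : Edge n → ℝ) (i j : Fin n) : res z g i j = res z g j i := by
  have hs : (shifted z g)ᵀ = shifted z g := by
    ext a b
    simp only [shifted, Matrix.transpose_apply, Matrix.sub_apply, Matrix.smul_apply, jmat_symm g a b]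
    by_cases h : a = b
    · subst h; rfl
    · simp [h, Ne.symm h]
  have h := congrFun (congrFun (Matrix.transpose_nonsing_inv (shifted z g)) i) j
  rw [hs] at h
  exact h.symm

lemma shifted_res_mulVec (hz : 0 < z.im) (g : Edge n → ℝ) (v : Fin n → ℂ) :
    shifted z g *ᵥ (res z g *ᵥ v) = v := by
  rw [Matrix.mulVec_mulVec, shifted_mul_res hz, Matrix.one_mulVec]

lemma im_res_form (hz : 0 < z.im) (g : Edge n → ℝ) (v : Fin n → ℂ) :
    (∑ i, conj ((res z g *ᵥ v) i) * v i).im = z.im * ∑ i, Complex.normSq ((res z g *ᵥ v) i) := by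
  conv_lhs => enter [1, 2, i]; rw [show v i = (shifted z g *ᵥ (res z g *ᵥ v)) i by rw [shifted_res_mulVec hz]]
  exact im_form z g _

lemma res_mulVec_le (hz : 0 < z.im) (g : Edge n → ℝ) (v : Fin n → ℂ) :
    z.im ^ 2 * ∑ i, Complex.normSq ((res z g *ᵥ v) i) ≤ ∑ i, Complex.normSq (v i) := by
  set w := res z g *ᵥ v
  have h1 : z.im * (z.im * ∑ i, Complex.normSq (w i)) ≤ ∑ i, z.im * (‖w i‖ * ‖v i‖) := by
    rw [← im_res_form hz, ← Finset.mul_sum]
    refine mul_le_mul_of_nonneg_left ((le_abs_self _).trans ((Complex.abs_im_le_norm _).trans ?_)) hz.le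
    exact (norm_sum_le _ _).trans_eq (Finset.sum_congr rfl fun i _ => by rw [norm_mul, Complex.norm_conj])
  have h2 : ∑ i, z.im * (‖w i‖ * ‖v i‖) ≤ (∑ i, (z.im ^ 2 * Complex.normSq (w i) + Complex.normSq (v i))) / 2 := by
    rw [Finset.sum_div]
    refine Finset.sum_le_sum fun i _ => ?_
    rw [Complex.normSq_eq_norm_sq, Complex.normSq_eq_norm_sq]
    linarith [sq_nonneg (z.im * ‖w i‖ - ‖v i‖)]
  rw [Finset.sum_add_distrib, ← Finset.mul_sum, ← Finset.mul_sum] at h2
  rw [← Finset.mul_sum] at h1
  linarith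

lemma res_col (hz : 0 < z.im) (g : Edge n → ℝ) (k : Fin n) :
    ∑ i, ‖res z g i k‖ ^ 2 ≤ 1 / z.im ^ 2 := by
  have h := res_mulVec_le hz g (Pi.single k 1)
  rw [le_div_iff₀ (pow_pos hz 2), mul_comm]
  simpa [Matrix.mulVec_single_one, Pi.single_apply, Complex.normSq_eq_norm_sq, apply_ite] using h

lemma res_entry (hz : 0 < z.im) (g : Edge n → ℝ) (i k : Fin n) : ‖res z g i k‖ ≤ 1 / z.im := by
  refine (pow_le_pow_iff_left₀ (norm_nonneg _) (by positivity) two_ne_zero).1 ?_
  rw [div_pow, one_pow]
  exact (Finset.single_le_sum (f := fun i => ‖res z g i k‖ ^ 2) (fun _ _ => sq_nonneg _) (Finset.mem_univ i)).trans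
    (res_col hz g k)

lemma res_sq_col (hz : 0 < z.im) (g : Edge n → ℝ) (k : Fin n) :
    ∑ i, ‖(res z g * res z g) i k‖ ^ 2 ≤ 1 / z.im ^ 4 := by
  have e : ∀ i, (res z g *ᵥ fun j => res z g j k) i = (res z g * res z g) i k := fun i => by
    simp [Matrix.mulVec, dotProduct, Matrix.mul_apply]
  have h := res_mulVec_le hz g fun j => res z g j k
  simp only [e, Complex.normSq_eq_norm_sq] at h
  have h2 := res_col hz g k
  rw [le_div_iff₀ (by positivity)]
  have h3 := mul_le_mul_of_nonneg_left (h.trans h2) (sq_nonneg z.im)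
  have e2 : z.im ^ 2 * (1 / z.im ^ 2) = 1 := by field_simp
  rw [e2] at h3
  linarith

lemma kx_norm (hz : 0 < z.im) (g : Edge n → ℝ) (x : Cfg n) : ∑ i, ‖kx z g x i‖ ^ 2 ≤ n / z.im ^ 2 := by
  have h := res_mulVec_le hz g (cspin x)
  rw [le_div_iff₀ (pow_pos hz 2), mul_comm]
  refine le_of_le_of_eq (by simpa [kx, Complex.normSq_eq_norm_sq] using h) ?_
  have hs : ∀ b : Bool, ‖((spin b : ℝ) : ℂ)‖ = 1 := fun b => by cases b <;> simp [spin]
  simp [cspin, sq, spin_mul_self]

lemma continuous_res (hz : 0 < z.im) (i j : Fin n) : Continuous fun g : Edge n → ℝ => res z g i j := by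
  have hS : Continuous fun g : Edge n → ℝ => shifted z g := by
    refine continuous_matrix fun a b => ?_
    simp only [shifted, jmat, Matrix.sub_apply, Matrix.smul_apply, Matrix.of_apply]
    unfold coupling
    split_ifs <;> fun_prop
  have hd : Continuous fun g : Edge n → ℝ => ((shifted z g).det)⁻¹ :=
    hS.matrix_det.inv₀ fun g => (isUnit_shifted hz g).ne_zero
  have : Continuous fun g : Edge n → ℝ => ((shifted z g).det)⁻¹ * (shifted z g).adjugate i j :=
    hd.mul (hS.matrix_adjugate.matrix_elem i j)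
  refine this.congr fun g => ?_
  simp [res, Matrix.inv_def]

lemma coupling_update (g : Edge n → ℝ) (e : Edge n) (s t : ℝ) (i j : Fin n) :
    coupling (Function.update g e t) i j - coupling (Function.update g e s) i j =
      (if i = e.1.1 ∧ j = e.1.2 then t - s else 0) + if i = e.1.2 ∧ j = e.1.1 then t - s else 0 := by
  have h : ∀ a b, upper (Function.update g e t) a b - upper (Function.update g e s) a b =
      if a = e.1.1 ∧ b = e.1.2 then t - s else 0 := by
    intro a b
    unfold upper
    by_cases hab : a < b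
    · simp only [dif_pos hab]
      by_cases he : (⟨(a, b), hab⟩ : Edge n) = e
      · subst he; simp
      · rw [Function.update_of_ne he, Function.update_of_ne he, sub_self, if_neg]
        exact fun ⟨h1, h2⟩ => he (Subtype.ext (Prod.ext h1 h2))
    · simp only [dif_neg hab, sub_self]
      rw [if_neg]
      exact fun ⟨h1, h2⟩ => hab (by rw [h1, h2]; exact e.2)
  rw [coupling_eq, coupling_eq, ← h i j]
  have := h j i
  rw [show (if i = e.1.2 ∧ j = e.1.1 then t - s else 0) = if j = e.1.1 ∧ i = e.1.2 then t - s else 0 by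
    simp only [and_comm], ← this]
  ring

/-- derivative of the resolvent in one coupling -/
lemma hasDerivAt_res (hz : 0 < z.im) (g : Edge n → ℝ) (e : Edge n) (t : ℝ) (i j : Fin n) :
    HasDerivAt (fun s => res z (Function.update g e s) i j)
      ((res z (Function.update g e t) i e.1.1 * res z (Function.update g e t) e.1.2 j +
        res z (Function.update g e t) i e.1.2 * res z (Function.update g e t) e.1.1 j) / (Real.sqrt n : ℂ)) t := by
  rw [hasDerivAt_iff_tendsto_slope]
  set G := fun s => Function.update g e s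
  have key : ∀ s, res z (G s) i j - res z (G t) i j = ((s - t : ℝ) : ℂ) *
      ((res z (G s) i e.1.1 * res z (G t) e.1.2 j + res z (G s) i e.1.2 * res z (G t) e.1.1 j) / (Real.sqrt n : ℂ)) := by
    intro s
    have h : res z (G s) - res z (G t) = res z (G s) * (shifted z (G t) - shifted z (G s)) * res z (G t) := by
      rw [Matrix.mul_sub, Matrix.sub_mul, res_mul_shifted hz, Matrix.mul_assoc, shifted_mul_res hz]
      simp
    rw [← Matrix.sub_apply, h, Matrix.mul_apply]
    have hD : ∀ p q, (shifted z (G t) - shifted z (G s)) p q =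
        ((if p = e.1.1 ∧ q = e.1.2 then ((s - t : ℝ) : ℂ) else 0) + if p = e.1.2 ∧ q = e.1.1 then ((s - t : ℝ) : ℂ) else 0) / (Real.sqrt n : ℂ) := by
      intro p q
      have := coupling_update g e t s p q
      simp only [shifted, jmat, Matrix.sub_apply, Matrix.smul_apply, Matrix.of_apply, sub_sub_sub_cancel_left]
      rw [← Complex.ofReal_sub, ← sub_div, this]
      split_ifs <;> push_cast <;> ring
    have h1 : e.1.1 ≠ e.1.2 := e.2.ne
    simp only [Matrix.mul_apply, hD, mul_add, add_mul, add_div, mul_div_assoc', div_mul_eq_mul_div,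
      Finset.sum_add_distrib, mul_ite, ite_mul, mul_zero, zero_mul, ite_div, zero_div, ite_and,
      Finset.sum_ite_eq', Finset.mem_univ, if_true]
    ring
  have hc : ∀ a b, Continuous fun s => res z (G s) a b := fun a b =>
    (continuous_res hz a b).comp (continuous_const.update e continuous_id)
  have hlim : Tendsto (fun s => (res z (G s) i e.1.1 * res z (G t) e.1.2 j + res z (G s) i e.1.2 * res z (G t) e.1.1 j) / (Real.sqrt n : ℂ))
      (𝓝[≠] t) (𝓝 ((res z (G t) i e.1.1 * res z (G t) e.1.2 j + res z (G t) i e.1.2 * res z (G t) e.1.1 j) / (Real.sqrt n : ℂ))) :=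
    ((((hc i e.1.1).mul continuous_const).add ((hc i e.1.2).mul continuous_const)).div_const _).continuousWithinAt
  refine hlim.congr' ?_
  filter_upwards [self_mem_nhdsWithin] with s hs
  have hst : ((s - t : ℝ) : ℂ) ≠ 0 := Complex.ofReal_ne_zero.2 (sub_ne_zero.2 hs)
  rw [slope, vsub_eq_sub, key s, Complex.real_smul, Complex.ofReal_inv, inv_mul_cancel_left₀ hst]

end Vale.Agent.P150
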