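import Vale.Agent.P150.LowerLog

/-! Exact orders of the mixing time and of the relaxation time for `β < 1/2`. -/

open MeasureTheory Filter
open scoped Topology

namespace Vale.Agent.P150

open Ising

variable {n : ℕ}

lemma gap_le_one (β : ℝ) (g : Edge n → ℝ) (hn : 0 < n) {d : ℝ} (hd : GapAtLeast β g d) : d ≤ 1 := by
  set i : Fin n := ⟨0, hn⟩
  set f : Cfg n → ℝ := fun y => spin (y i) with hf
  have hmean : ∑ x, gibbs β g x * f x = 0 := by
    have h : ∑ x, gibbs β g (negCfg x) * f (negCfg x) = ∑ x, gibbs β g x * f x :=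
      Equiv.sum_comp (Function.Involutive.toPerm negCfg negCfg_negCfg) (fun x => gibbs β g x * f x)
    simp only [gibbs_negCfg, hf, negCfg, spin_not, mul_neg, Finset.sum_neg_distrib] at h
    simp only [hf]; linarith
  have hvar : gibbsVariance β g f = 1 := by
    unfold gibbsVariance
    rw [hmean]
    simp [hf, sq, spin_mul_self, gibbs_sum]
  have hs : ∀ a b, cpl β g a b = cpl β g b a := fun a b => by simp only [cpl, coupling_symm g a b]
  have hz : ∀ a, cpl β g a a = 0 := fun a => by simp [cpl, coupling_self]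
  have hdir : dirichlet β g f ≤ 1 := by
    have h2 := inner_gen (0 : Fin n → ℝ) hs hz f f
    simp only [dirichlet, generator_gen, mul_neg, Finset.sum_neg_distrib, neg_neg, ← wt_cpl, h2]
    rw [Finset.sum_eq_single i]
    · refine (Finset.sum_le_sum fun x _ => mul_le_mul_of_nonneg_left (?_ : _ ≤ (1:ℝ)) (wt_pos _ _ x).le).trans_eq (by simp [wt_sum])
      simp only [dd, hf, Function.update_self, spin, if_true, Bool.false_eq_true, if_false]
      linarith [(mag_sq (cpl β g) 0 i x).2]
    · intro j _ hj; simp [dd, hf, Function.update_of_ne (Ne.symm hj)]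
    · simp
  have := hd f
  rw [hvar, mul_one] at this
  linarith

lemma whp_of_fail {P : ∀ n, (Edge n → ℝ) → Prop}
    (h : Tendsto (fun n : ℕ => (disorder n).real {g | ¬ P n g}) atTop (𝓝 0)) :
    Tendsto (fun n : ℕ => (disorder n).real {g | P n g}) atTop (𝓝 1) := by
  refine tendsto_of_tendsto_of_tendsto_of_le_of_le (g := fun n => 1 - (disorder n).real {g | ¬ P n g})
    (h := fun _ => (1:ℝ)) (by simpa using h.const_sub 1) tendsto_const_nhds (fun n => ?_) fun n => measureReal_le_one
  have := (measureReal_mono (μ := disorder n) (show Set.univ ⊆ {g | P n g} ∪ {g | ¬ P n g} from fun g _ => em _)).trans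
    (measureReal_union_le _ _)
  rw [probReal_univ] at this
  linarith

theorem order_theorem :
    (∀ β : ℝ, 0 ≤ β → β < 1 / 2 → ∃ δ c C : ℝ, 0 < δ ∧ 0 < c ∧ 0 < C ∧
      Tendsto (fun n : ℕ => (disorder n).real
        {g | GapAtLeast β g δ ∧ (∀ d : ℝ, GapAtLeast β g d → d ≤ 1) ∧ MixedAt β g (C * Real.log n) ∧
          ∀ t : ℝ, 0 ≤ t → t ≤ c * Real.log n → ¬ MixedAt β g t}) atTop (𝓝 1)) ∧
    ∀ β : ℝ, 0 ≤ β → ∃ c : ℝ, 0 < c ∧ Tendsto (fun n : ℕ => (disorder n).real
        {g | ∀ t : ℝ, 0 ≤ t → t ≤ c * Real.log n → ¬ MixedAt β g t}) atTop (𝓝 1) := by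
  refine ⟨fun β h0 h1 => ?_, fun β h0 => ?_⟩
  · obtain ⟨δ, C, hδ, hC, hU⟩ := fast_mixing β h0 h1
    obtain ⟨c, hc, hL⟩ := log_lower β h0
    refine ⟨δ, c, C, hδ, hc, hC, whp_of_fail ?_⟩
    refine squeeze_zero' (Eventually.of_forall fun n => measureReal_nonneg) (eventually_atTop.2 ⟨1, fun n hn => ?_⟩)
      (by simpa using hU.add hL)
    refine (measureReal_mono fun g hg => ?_).trans (measureReal_union_le _ _)
    by_contra hcon
    rw [Set.mem_union, not_or] at hcon
    obtain ⟨h2, h3⟩ := hcon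
    have h4 : GapAtLeast β g δ ∧ MixedAt β g (C * Real.log n) := by
      simpa using h2
    exact hg ⟨h4.1, fun d hd => gap_le_one β g (by omega) hd, h4.2, by simpa using h3⟩
  · obtain ⟨c, hc, hL⟩ := log_lower β h0
    exact ⟨c, hc, whp_of_fail hL⟩

end Vale.Agent.P150
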