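import Vale.Agent.P150.Slepian
import Vale.Agent.P150.Slow

/-! The replica-symmetric upper bound on the Sherrington-Kirkpatrick free energy. -/

open MeasureTheory ProbabilityTheory

namespace Vale.Agent.P150

variable {n : ℕ}

lemma gauss_edge (n : ℕ) : disorder n = gauss (Edge n) := rfl

lemma abs_energy_le_l1 (hn : 0 < n) (g : Edge n → ℝ) (x : Cfg n) : |energy g x| ≤ l1 g := by
  rw [energy_coef]
  have h : ∀ e, |coef x e| ≤ 1 := fun e => by
    have h1 : (1:ℝ) ≤ Real.sqrt n := Real.one_le_sqrt.2 (by exact_mod_cast hn)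
    have hs : ∀ b, |spin b| = 1 := fun b => by cases b <;> simp [spin]
    rw [coef, abs_div, abs_mul, hs, hs, abs_of_nonneg (Real.sqrt_nonneg (n:ℝ)), one_mul]
    exact (div_le_one (by linarith)).2 h1
  simpa [dot] using abs_dot_le h g

lemma abs_log_Zfun_le (hn : 0 < n) {β : ℝ} (hβ : 0 ≤ β) (g : Edge n → ℝ) :
    |Real.log (Zfun β g)| ≤ n + β * l1 g := by
  have hb : ∀ x, |β * energy g x| ≤ β * l1 g := fun x => by
    rw [abs_mul, abs_of_nonneg hβ]; exact mul_le_mul_of_nonneg_left (abs_energy_le_l1 hn g x) hβ
  have hcard : (Finset.univ : Finset (Cfg n)).card = 2 ^ n := by simp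
  have hup : Zfun β g ≤ (2:ℝ) ^ n * Real.exp (β * l1 g) := by
    refine (Finset.sum_le_card_nsmul _ _ (Real.exp (β * l1 g)) fun x _ =>
      Real.exp_le_exp.2 (abs_le.1 (hb x)).2).trans (le_of_eq ?_)
    rw [nsmul_eq_mul, hcard]; push_cast; rfl
  have hlo : Real.exp (-(β * l1 g)) ≤ Zfun β g :=
    (Real.exp_le_exp.2 (abs_le.1 (hb fun _ => true)).1).trans
      (Finset.single_le_sum (f := fun x : Cfg n => Real.exp (β * energy g x)) (fun _ _ => (Real.exp_pos _).le)
        (Finset.mem_univ fun _ => true))
  have hpos : 0 < Zfun β g := partition_pos β g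
  rw [abs_le]
  constructor
  · have := (Real.le_log_iff_exp_le hpos).2 hlo
    linarith [Nat.cast_nonneg (α := ℝ) n]
  · have h := Real.log_le_log hpos hup
    rw [Real.log_mul (by positivity) (Real.exp_pos _).ne', Real.log_exp, Real.log_pow] at h
    have : (n:ℝ) * Real.log 2 ≤ n * 1 := mul_le_mul_of_nonneg_left
      (by linarith [Real.log_le_sub_one_of_pos (two_pos (α := ℝ))]) (Nat.cast_nonneg n)
    linarith

lemma continuous_energy' (x : Cfg n) : Continuous fun g : Edge n → ℝ => energy g x := by
  unfold energy; fun_prop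

lemma continuous_logZfun (β : ℝ) : Continuous fun g : Edge n → ℝ => Real.log (Zfun β g) :=
  Continuous.log (continuous_finsetSum _ fun x _ => ((continuous_energy' x).const_mul β).rexp)
    fun g => (partition_pos β g).ne'

lemma integrable_logZfun (hn : 0 < n) {β : ℝ} (hβ : 0 ≤ β) :
    Integrable (fun g : Edge n → ℝ => Real.log (Zfun β g)) (disorder n) := by
  rw [gauss_edge]
  refine integrable_of_bound (C := n + β) (M := 1) (continuous_logZfun β) fun g => (abs_log_Zfun_le hn hβ g).trans ?_
  rw [one_mul, add_mul]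
  exact add_le_add (le_mul_of_one_le_right (Nat.cast_nonneg n) (Real.one_le_exp (l1_nonneg g)))
    (mul_le_mul_of_nonneg_left ((le_add_of_nonneg_right zero_le_one).trans (Real.add_one_le_exp _)) hβ)

lemma jensen_log {α : Type*} [MeasurableSpace α] {μ : Measure α} [IsProbabilityMeasure μ] {U : α → ℝ}
    (hU : ∀ a, 0 < U a) {m : ℝ} (hm : 0 < m) (hi : Integrable U μ) (hmU : ∫ a, U a ∂μ ≤ m)
    (hl : Integrable (fun a => Real.log (U a)) μ) : ∫ a, Real.log (U a) ∂μ ≤ Real.log m := by
  have pt : ∀ a, Real.log (U a) ≤ Real.log m + (U a / m - 1) := fun a => by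
    have h := Real.log_le_sub_one_of_pos (div_pos (hU a) hm)
    rw [Real.log_div (hU a).ne' hm.ne'] at h
    linarith
  refine (integral_mono hl ((integrable_const _).add ((hi.div_const m).sub (integrable_const _))) pt).trans ?_
  have e1 : ∫ a, (Real.log m + (U a / m - 1)) ∂μ = Real.log m + ((∫ a, U a ∂μ) / m - 1) := by
    have iUm : Integrable (fun a => U a / m - 1) μ := (hi.div_const m).sub (integrable_const _)
    rw [integral_add (integrable_const _) iUm, integral_sub (hi.div_const m) (integrable_const _), integral_div]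
    simp
  show ∫ a, (Real.log m + (U a / m - 1)) ∂μ ≤ _
  rw [e1]
  have := (div_le_one hm).2 hmU
  linarith

lemma sum_exp_spin (w : Fin n → ℝ) :
    ∑ x : Cfg n, Real.exp (∑ i, w i * spin (x i)) = ∏ i, (2 * Real.cosh (w i)) := by
  simp only [Real.exp_sum]
  rw [← Fintype.piFinset_univ, ← Finset.prod_univ_sum (t := fun _ => (Finset.univ : Finset Bool))
    (f := fun i b => Real.exp (w i * spin b))]
  refine Finset.prod_congr rfl fun i _ => ?_
  simp only [Fintype.sum_bool, spin, if_true, Bool.false_eq_true, if_false]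
  rw [Real.cosh_eq, mul_one, mul_neg_one]; ring

/-- the replica-symmetric bound, for every overlap parameter and every exponent in `(0,1]` -/
theorem rs_bound (hn : 0 < n) {β q r : ℝ} (hβ : 0 ≤ β) (hq : 0 ≤ q) (hr : 0 < r) (hr1 : r ≤ 1)
    {m : ℝ} (hm : 0 < m) (hint : Integrable (fun t : ℝ => (2 * Real.cosh (β * Real.sqrt q * t)) ^ r) (gaussianReal 0 1))
    (hM : ∫ t, (2 * Real.cosh (β * Real.sqrt q * t)) ^ r ∂gaussianReal 0 1 ≤ m) :
    ∫ g, Real.log (Zfun β g) ∂disorder n ≤ n * (β ^ 2 * (1 - q) ^ 2 / 4 + Real.log m / r) := by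
  classical
  have hn' : (0:ℝ) < n := by exact_mod_cast hn
  set k₁ := β * Real.sqrt ((q ^ 2 * n + 1) / 2) with hk₁
  have hk : k₁ * k₁ = β ^ 2 * ((q ^ 2 * n + 1) / 2) := by
    rw [hk₁]; linear_combination (β ^ 2) * Real.mul_self_sqrt (show 0 ≤ (q ^ 2 * n + 1) / 2 by positivity)
  set V := β ^ 2 * (1 - q) ^ 2 * n / 2
  have hV : 0 ≤ V := by positivity
  set a := fun (x : Cfg n) => Sum.elim (fun e => β * coef x e) (fun _ : Unit => k₁) with ha
  set c := fun (x : Cfg n) => Sum.elim (fun i => β * Real.sqrt q * spin (x i)) (fun y : Cfg n => if y = x then Real.sqrt V else 0) with hc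
  have hcoef : ∀ x y, ∑ e, β * coef x e * (β * coef y e) = β ^ 2 * ((n * qsq x y - 1) / 2) := fun x y => by
    rw [← sum_coef_mul hn x y, mul_div_cancel_left₀ _ two_ne_zero, Finset.mul_sum]
    exact Finset.sum_congr rfl fun e _ => by ring
  have hspins : ∀ x y : Cfg n, ∑ i, β * Real.sqrt q * spin (x i) * (β * Real.sqrt q * spin (y i)) =
      β ^ 2 * q * ∑ i, spin (x i) * spin (y i) := fun x y => by
    rw [Finset.mul_sum]
    exact Finset.sum_congr rfl fun i _ => by linear_combination (β ^ 2 * (spin (x i) * spin (y i))) * Real.mul_self_sqrt hq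
  have hcomp := slepian a c hr hr1 (fun x => by
      simp only [ha, hc, Fintype.sum_sum_type, Sum.elim_inl, Sum.elim_inr, hcoef, hspins, qsq_self hn, spin_mul_self,
        Finset.univ_unique, Finset.card_singleton, Nat.cast_one, one_mul, hk, ite_mul, zero_mul, mul_ite, mul_zero, Finset.sum_ite_eq', Finset.mem_univ, if_true,
        Real.mul_self_sqrt hV, Finset.sum_const, Finset.card_univ, Fintype.card_fin, nsmul_eq_mul, mul_one, V]
      ring) (fun x y => by
      simp only [ha, hc, Fintype.sum_sum_type, Sum.elim_inl, Sum.elim_inr, hcoef, hspins]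
      simp only [Finset.univ_unique, Finset.sum_singleton, hk]
      by_cases hxy : x = y
      · subst hxy
        simp only [qsq_self hn, spin_mul_self, ite_mul, zero_mul, mul_ite, mul_zero, Finset.sum_ite_eq', Finset.mem_univ, if_true,
          Real.mul_self_sqrt hV, Finset.sum_const, Finset.card_univ, Fintype.card_fin, nsmul_eq_mul, mul_one, V]
        linarith
      · have hz : ∑ z : Cfg n, (if z = x then Real.sqrt V else 0) * (if z = y then Real.sqrt V else 0) = 0 :=
          Finset.sum_eq_zero fun z _ => by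
            by_cases h1 : z = x
            · subst h1; simp [hxy]
            · simp [h1]
        rw [hz, qsq]
        have h1 := mul_nonneg (mul_nonneg (sq_nonneg β) hn'.le) (sq_nonneg ((∑ i, spin (x i) * spin (y i)) / n - q))
        have e : β ^ 2 * (n:ℝ) * ((∑ i, spin (x i) * spin (y i)) / n - q) ^ 2 =
            β ^ 2 * n * ((∑ i, spin (x i) * spin (y i)) / n) ^ 2 - 2 * (β ^ 2 * q * ∑ i, spin (x i) * spin (y i)) +
              β ^ 2 * n * q ^ 2 := by field_simp; ring
        rw [e] at h1
        linarith)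
  -- right side
  have hR : ∫ z, esum c z ^ r ∂gauss (Fin n ⊕ Cfg n) ≤ Real.exp (r * V / 2) * m ^ n := by
    have hmp : MeasurePreserving (MeasurableEquiv.sumPiEquivProdPi fun _ : Fin n ⊕ Cfg n => ℝ)
        (gauss (Fin n ⊕ Cfg n)) ((gauss (Fin n)).prod (gauss (Cfg n))) :=
      measurePreserving_sumPiEquivProdPi (X := fun _ : Fin n ⊕ Cfg n => ℝ) fun _ => gaussianReal 0 1
    set F := fun p : (Fin n → ℝ) × (Cfg n → ℝ) => esum c (Sum.elim p.1 p.2) ^ r
    have hcomp' : ∀ z, F (MeasurableEquiv.sumPiEquivProdPi (fun _ : Fin n ⊕ Cfg n => ℝ) z) = esum c z ^ r := fun z => by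
      have e : Sum.elim (fun e => z (Sum.inl e)) (fun o => z (Sum.inr o)) = z := funext fun k => by cases k <;> rfl
      show esum c (Sum.elim (fun e => z (Sum.inl e)) (fun o => z (Sum.inr o))) ^ r = _
      rw [e]
    have hiF : Integrable F ((gauss (Fin n)).prod (gauss (Cfg n))) := by
      rw [← hmp.integrable_comp_emb (MeasurableEquiv.measurableEmbedding _)]
      exact (esum_rpow_integrable c hr.le hr1).congr (Filter.Eventually.of_forall fun z => (hcomp' z).symm)
    rw [← integral_congr_ae (Filter.Eventually.of_forall hcomp'), hmp.integral_comp' (g := F), integral_prod F hiF]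
    set W := fun h : Fin n → ℝ => ∏ i, (2 * Real.cosh (β * Real.sqrt q * h i))
    have hW : ∀ h, 0 < W h := fun h => Finset.prod_pos fun i _ => by positivity
    have hsplit : ∀ h η, esum c (Sum.elim h η) =
        ∑ x : Cfg n, Real.exp (∑ i, β * Real.sqrt q * h i * spin (x i)) * Real.exp (dot (fun y => if y = x then Real.sqrt V else 0) η) :=
      fun h η => Finset.sum_congr rfl fun x _ => by
        rw [← Real.exp_add]
        congr 1
        simp only [dot, hc, Fintype.sum_sum_type, Sum.elim_inl, Sum.elim_inr]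
        congr 1
        exact Finset.sum_congr rfl fun i _ => by ring
    have hinner : ∀ h, (Integrable (fun η => esum c (Sum.elim h η)) (gauss (Cfg n))) ∧
        ∫ η, esum c (Sum.elim h η) ∂gauss (Cfg n) = Real.exp (V / 2) * W h := fun h => by
      have hi : ∀ x : Cfg n, Integrable (fun η : Cfg n → ℝ => Real.exp (dot (fun y => if y = x then Real.sqrt V else 0) η)) (gauss (Cfg n)) :=
        fun x => integrable_of_bound (C := 1) (M := Real.sqrt V) (by unfold dot; fun_prop) fun η => by
          rw [Real.abs_exp, one_mul]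
          exact Real.exp_le_exp.2 ((le_abs_self _).trans (abs_dot_le (fun y => by split <;> simp [abs_of_nonneg (Real.sqrt_nonneg V), Real.sqrt_nonneg]) η))
      simp only [hsplit]
      refine ⟨integrable_finsetSum _ fun x _ => (hi x).const_mul _, ?_⟩
      rw [integral_finsetSum _ fun x _ => (hi x).const_mul _]
      simp only [integral_const_mul, mgf_dot, ite_pow, Real.sq_sqrt hV, ne_eq, OfNat.ofNat_ne_zero, not_false_eq_true,
        zero_pow, Finset.sum_ite_eq', Finset.mem_univ, if_true, ← Finset.sum_mul, W]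
      rw [sum_exp_spin]; ring
    have hWi : Integrable (fun h => W h ^ r) (gauss (Fin n)) := by
      simp only [W, fun h : Fin n → ℝ => (Real.finsetProd_rpow Finset.univ (fun i => 2 * Real.cosh (β * Real.sqrt q * h i)) (fun i _ => by positivity) r).symm]
      exact Integrable.fintype_prod (f := fun _ (t : ℝ) => (2 * Real.cosh (β * Real.sqrt q * t)) ^ r) fun _ => hint
    refine (integral_mono_ae hiF.integral_prod_left (hWi.const_mul (Real.exp (r * V / 2))) (hiF.prod_right_ae.mono fun h hh => ?_)).trans ?_
    · obtain ⟨hi, he⟩ := hinner h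
      set M := Real.exp (V / 2) * W h with hMdef
      have hM0 : 0 < M := mul_pos (Real.exp_pos _) (hW h)
      have pt : ∀ η, F (h, η) ≤ M ^ r * (1 + r * (esum c (Sum.elim h η) / M - 1)) := fun η => by
        have hU := esum_pos c (Sum.elim h η)
        have h2 := rpow_one_add_le_one_add_mul_self (s := esum c (Sum.elim h η) / M - 1) (p := r)
          (by have := div_pos hU hM0; linarith) hr.le hr1
        rw [add_sub_cancel, Real.div_rpow hU.le hM0.le, div_le_iff₀ (Real.rpow_pos_of_pos hM0 r), mul_comm] at h2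
        exact h2
      have hi2 : Integrable (fun η => M ^ r * (1 + r * (esum c (Sum.elim h η) / M - 1))) (gauss (Cfg n)) :=
        (((integrable_const 1).add (((hi.div_const M).sub (integrable_const 1)).const_mul r))).const_mul _
      refine (integral_mono hh hi2 pt).trans (le_of_eq ?_)
      have iUM : Integrable (fun η => r * (esum c (Sum.elim h η) / M - 1)) (gauss (Cfg n)) :=
        ((hi.div_const M).sub (integrable_const 1)).const_mul r
      rw [integral_const_mul, integral_add (integrable_const 1) iUM,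
        integral_const_mul, integral_sub (hi.div_const M) (integrable_const 1), integral_div, he, div_self hM0.ne']
      simp only [integral_const, probReal_univ, one_smul, sub_self, mul_zero, add_zero, mul_one, hMdef]
      rw [Real.mul_rpow (Real.exp_pos _).le (hW h).le, ← Real.exp_mul]
      ring_nf
    · rw [integral_const_mul]
      refine mul_le_mul_of_nonneg_left ?_ (Real.exp_pos _).le
      simp only [W, fun h : Fin n → ℝ => (Real.finsetProd_rpow Finset.univ (fun i => 2 * Real.cosh (β * Real.sqrt q * h i)) (fun i _ => by positivity) r).symm]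
      unfold gauss
      rw [integral_fintype_prod_eq_pow (fun t : ℝ => (2 * Real.cosh (β * Real.sqrt q * t)) ^ r), Fintype.card_fin]
      exact pow_le_pow_left₀ (integral_nonneg fun t => by positivity) hM n
  -- left side
  have hL : r * ∫ g, Real.log (Zfun β g) ∂disorder n ≤ Real.log (Real.exp (r * V / 2) * m ^ n) := by
    have hmp : MeasurePreserving (MeasurableEquiv.sumPiEquivProdPi fun _ : Edge n ⊕ Unit => ℝ)
        (gauss (Edge n ⊕ Unit)) ((gauss (Edge n)).prod (gauss Unit)) :=
      measurePreserving_sumPiEquivProdPi (X := fun _ : Edge n ⊕ Unit => ℝ) fun _ => gaussianReal 0 1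
    have hlog : ∀ z, Real.log (esum a z ^ r) =
        r * (k₁ * z (Sum.inr ()) + Real.log (Zfun β fun e => z (Sum.inl e))) := fun z => by
      rw [Real.log_rpow (esum_pos a z)]
      congr 1
      have e : esum a z = Real.exp (k₁ * z (Sum.inr ())) * Zfun β fun e => z (Sum.inl e) := by
        rw [esum, Zfun, Finset.mul_sum]
        refine Finset.sum_congr rfl fun x _ => ?_
        rw [← Real.exp_add]
        congr 1
        simp [dot, ha, energy_coef, Fintype.sum_sum_type, Finset.mul_sum]
        rw [add_comm]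
        congr 1
        exact Finset.sum_congr rfl fun e _ => by ring
      have hp : 0 < Zfun β fun e => z (Sum.inl e) := partition_pos β _
      rw [e, Real.log_mul (Real.exp_pos _).ne' hp.ne', Real.log_exp]
    have i1 : Integrable (fun z : Edge n ⊕ Unit → ℝ => k₁ * z (Sum.inr ())) (gauss (Edge n ⊕ Unit)) :=
      integrable_of_bound (C := |k₁|) (M := 1) (by fun_prop) fun z => by
        rw [abs_mul, one_mul]
        exact mul_le_mul_of_nonneg_left ((abs_le_l1 z _).trans ((le_add_of_nonneg_right zero_le_one).trans (Real.add_one_le_exp _))) (abs_nonneg _)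
    have i2 : Integrable (fun z : Edge n ⊕ Unit → ℝ => Real.log (Zfun β fun e => z (Sum.inl e))) (gauss (Edge n ⊕ Unit)) :=
      hmp.integrable_comp_of_integrable (g := fun p : (Edge n → ℝ) × (Unit → ℝ) => Real.log (Zfun β p.1))
        ((gauss_edge n ▸ integrable_logZfun hn hβ : Integrable _ (gauss (Edge n))).comp_fst _)
    have il : Integrable (fun z => Real.log (esum a z ^ r)) (gauss (Edge n ⊕ Unit)) := by
      simp only [hlog]; exact (i1.add i2).const_mul r
    have h := jensen_log (fun z => Real.rpow_pos_of_pos (esum_pos a z) r) (mul_pos (Real.exp_pos _) (pow_pos hm n))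
      (esum_rpow_integrable a hr.le hr1) (hcomp.trans hR) il
    simp only [hlog] at h
    rw [integral_const_mul, integral_add i1 i2] at h
    have e1 : ∫ z : Edge n ⊕ Unit → ℝ, k₁ * z (Sum.inr ()) ∂gauss (Edge n ⊕ Unit) = 0 := by
      rw [integral_const_mul]
      have := gauss_ibp (ι := Edge n ⊕ Unit) (Sum.inr ()) (φ := fun _ => 1) (φ' := fun _ => 0) (C := 1) le_rfl continuous_const continuous_const
        (fun z => by simp) (fun z => by simp) (fun z t => hasDerivAt_const t 1)
      simp only [mul_one, integral_zero] at this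
      rw [this, mul_zero]
    have e2 : ∫ z : Edge n ⊕ Unit → ℝ, Real.log (Zfun β fun e => z (Sum.inl e)) ∂gauss (Edge n ⊕ Unit) =
        ∫ g, Real.log (Zfun β g) ∂disorder n := by
      rw [show (fun z : Edge n ⊕ Unit → ℝ => Real.log (Zfun β fun e => z (Sum.inl e))) = fun z =>
        (fun p : (Edge n → ℝ) × (Unit → ℝ) => Real.log (Zfun β p.1)) (MeasurableEquiv.sumPiEquivProdPi (fun _ : Edge n ⊕ Unit => ℝ) z) from rfl,
        hmp.integral_comp' (g := fun p : (Edge n → ℝ) × (Unit → ℝ) => Real.log (Zfun β p.1)),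
        integral_fun_fst (fun g : Edge n → ℝ => Real.log (Zfun β g)), gauss_edge]
      simp
    rwa [e1, e2, zero_add] at h
  rw [Real.log_mul (Real.exp_pos _).ne' (pow_pos hm n).ne', Real.log_exp, Real.log_pow] at hL
  have h2 := div_le_div_of_nonneg_right hL hr.le
  rw [mul_div_cancel_left₀ _ hr.ne'] at h2
  refine h2.trans (le_of_eq ?_)
  simp only [V]; field_simp; ring

end Vale.Agent.P150
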