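import Vale.Agent.P150.Resolvent
import Vale.Agent.P150.MeanEnergy

/-! Self-consistent equations for the resolvent trace and for the Gibbs resolvent form. -/

open MeasureTheory ProbabilityTheory Filter Matrix
open scoped ComplexConjugate

namespace Vale.Agent.P150

variable {n : ℕ}

/-- normalised trace of the resolvent -/
noncomputable def rtr (z : ℂ) (g : Edge n → ℝ) : ℂ := (∑ i, res z g i i) / n

/-- normalised resolvent form at a configuration -/
noncomputable def rform (z : ℂ) (g : Edge n → ℝ) (x : Cfg n) : ℂ := (∑ i, cspin x i * kx z g x i) / n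

/-- defect in the semicircle equation -/
noncomputable def trDefect (z : ℂ) (g : Edge n → ℝ) : ℂ := z * rtr z g - 1 - rtr z g ^ 2

/-- defect in the equation of the Gibbs resolvent form -/
noncomputable def formDefect (β : ℝ) (z : ℂ) (g : Edge n → ℝ) (x : Cfg n) : ℂ :=
  z * rform z g x - 1 - (rtr z g + β) * rform z g x

lemma csum_edge (g : Edge n → ℝ) (F : Fin n → Fin n → ℂ) :
    ∑ i, ∑ j, (coupling g i j : ℂ) * F i j = ∑ e : Edge n, (g e : ℂ) * (F e.1.1 e.1.2 + F e.1.2 e.1.1) := by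
  apply Complex.ext
  · simp only [Complex.re_sum, Complex.re_ofReal_mul, coupling_eq, add_mul, Finset.sum_add_distrib, Complex.add_re, mul_add]
    rw [Finset.sum_comm (f := fun i j => upper g j i * (F i j).re), ← sum_edge_eq g fun a b => (F a b).re, ← sum_edge_eq g fun a b => (F b a).re]
  · simp only [Complex.im_sum, Complex.im_ofReal_mul, coupling_eq, add_mul, Finset.sum_add_distrib, Complex.add_im, mul_add]
    rw [Finset.sum_comm (f := fun i j => upper g j i * (F i j).im), ← sum_edge_eq g fun a b => (F a b).im, ← sum_edge_eq g fun a b => (F b a).im]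

lemma csum_edge_all (F : Fin n → Fin n → ℂ) :
    ∑ e : Edge n, (F e.1.1 e.1.2 + F e.1.2 e.1.1) = (∑ i, ∑ j, F i j) - ∑ i, F i i := by
  have h := csum_edge (fun _ => 1) F
  simp only [Complex.ofReal_one, one_mul] at h
  rw [← h, ← Finset.sum_sub_distrib]
  refine Finset.sum_congr rfl fun i _ => ?_
  have e : ∀ j, ((coupling (fun _ : Edge n => (1:ℝ)) i j : ℝ) : ℂ) * F i j = F i j - if i = j then F i j else 0 := by
    intro j
    rcases lt_trichotomy i j with h | h | h
    · simp [coupling, h, h.ne]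
    · subst h; simp [coupling]
    · simp [coupling, h, h.not_gt, h.ne']
  simp only [e, Finset.sum_sub_distrib, Finset.sum_ite_eq, Finset.mem_univ, if_true]

lemma rsum_edge_le (F : Fin n → Fin n → ℝ) (h : ∀ i, 0 ≤ F i i) :
    ∑ e : Edge n, (F e.1.1 e.1.2 + F e.1.2 e.1.1) ≤ ∑ i, ∑ j, F i j := by
  have h1 := congrArg Complex.re (csum_edge_all fun i j => (F i j : ℂ))
  simp only [← Complex.ofReal_add, ← Complex.ofReal_sum, ← Complex.ofReal_sub, Complex.ofReal_re] at h1
  linarith [Finset.sum_nonneg fun i (_ : i ∈ (Finset.univ : Finset (Fin n))) => h i]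

/-- real part of Gaussian integration by parts for a bounded complex function -/
lemma ibp_re {ι : Type*} [Fintype ι] [DecidableEq ι] (k : ι) {φ φ' : (ι → ℝ) → ℂ} {C : ℝ}
    (hφ : Continuous φ) (hφ' : Continuous φ') (hb : ∀ z, ‖φ z‖ ≤ C) (hb' : ∀ z, ‖φ' z‖ ≤ C)
    (hd : ∀ z t, HasDerivAt (fun s => φ (Function.update z k s)) (φ' (Function.update z k t)) t) :
    Integrable (fun z => z k * (φ z).re) (gauss ι) ∧ Integrable (fun z => (φ' z).re) (gauss ι) ∧
      ∫ z, z k * (φ z).re ∂gauss ι = ∫ z, (φ' z).re ∂gauss ι := by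
  have hC : 0 ≤ C := (norm_nonneg _).trans (hb 0)
  have b1 : ∀ z, |(φ z).re| ≤ C * Real.exp (0 * l1 z) := fun z => by simpa using (Complex.abs_re_le_norm _).trans (hb z)
  have b2 : ∀ z, |(φ' z).re| ≤ C * Real.exp (0 * l1 z) := fun z => by simpa using (Complex.abs_re_le_norm _).trans (hb' z)
  refine ⟨integrable_of_bound (C := C) (M := 1) ((continuous_apply k).mul (Complex.continuous_re.comp hφ)) fun z => ?_,
    integrable_of_bound (Complex.continuous_re.comp hφ') b2,
    gauss_ibp k le_rfl (Complex.continuous_re.comp hφ) (Complex.continuous_re.comp hφ') b1 b2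
      fun z t => Complex.reCLM.hasFDerivAt.comp_hasDerivAt t (hd z t)⟩
  rw [abs_mul, one_mul, mul_comm]
  exact mul_le_mul ((Complex.abs_re_le_norm _).trans (hb z))
    ((abs_le_l1 z k).trans ((le_add_of_nonneg_right zero_le_one).trans (Real.add_one_le_exp _))) (abs_nonneg _) hC

lemma cspin_norm (x : Cfg n) (i : Fin n) : ‖cspin x i‖ = 1 := by
  cases h : x i <;> simp [cspin, spin, h]

lemma cspin_sq (x : Cfg n) (i : Fin n) : cspin x i * cspin x i = 1 := by
  rw [cspin, ← Complex.ofReal_mul, spin_mul_self, Complex.ofReal_one]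

variable {z : ℂ}

lemma rtr_eq (hn : 0 < n) (hz : 0 < z.im) (g : Edge n → ℝ) :
    z * rtr z g - 1 = ∑ e : Edge n, (g e : ℂ) * (2 / ((n:ℂ) * (Real.sqrt n : ℂ)) * res z g e.1.1 e.1.2) := by
  have hn' : (n:ℂ) ≠ 0 := Nat.cast_ne_zero.2 hn.ne'
  have h : ∀ i, z * res z g i i - ∑ j, jmat g i j * res z g j i = 1 := fun i => by
    have := congrFun (congrFun (shifted_mul_res hz g) i) i
    rw [shifted, Matrix.sub_mul, Matrix.smul_mul, Matrix.one_mul, Matrix.sub_apply, Matrix.smul_apply, smul_eq_mul,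
      Matrix.one_apply_eq, Matrix.mul_apply] at this
    exact this
  have h2 := Finset.sum_congr (s₁ := (Finset.univ : Finset (Fin n))) rfl fun i _ => h i
  rw [Finset.sum_sub_distrib, ← Finset.mul_sum, Finset.sum_const, Finset.card_univ, Fintype.card_fin, nsmul_eq_mul, mul_one,
    show ∑ i, ∑ j, jmat g i j * res z g j i = ∑ i, ∑ j, (coupling g i j : ℂ) * (res z g j i / (Real.sqrt n : ℂ)) from
      Finset.sum_congr rfl fun i _ => Finset.sum_congr rfl fun j _ => by simp [jmat]; ring,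
    csum_edge] at h2
  have e : z * rtr z g - 1 = (∑ e : Edge n, (g e : ℂ) * (res z g e.1.2 e.1.1 / (Real.sqrt n : ℂ) + res z g e.1.1 e.1.2 / (Real.sqrt n : ℂ))) / n := by
    rw [rtr, eq_div_iff hn', sub_mul, mul_div_assoc', div_mul_cancel₀ _ hn']
    linear_combination h2
  rw [e, Finset.sum_div]
  exact Finset.sum_congr rfl fun e _ => by rw [res_symm g e.1.2 e.1.1]; ring

lemma rform_eq (hn : 0 < n) (hz : 0 < z.im) (g : Edge n → ℝ) (x : Cfg n) :
    z * rform z g x - 1 = ∑ e : Edge n, (g e : ℂ) * (1 / ((n:ℂ) * (Real.sqrt n : ℂ)) *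
      (cspin x e.1.1 * kx z g x e.1.2 + cspin x e.1.2 * kx z g x e.1.1)) := by
  have hn' : (n:ℂ) ≠ 0 := Nat.cast_ne_zero.2 hn.ne'
  have h : ∀ i, cspin x i * (z * kx z g x i) - ∑ j, jmat g i j * (cspin x i * kx z g x j) = 1 := fun i => by
    have h1 := congrFun (shifted_res_mulVec hz g (cspin x)) i
    rw [shifted_mulVec] at h1
    rw [← cspin_sq x i]
    conv_rhs => arg 2; rw [← h1]
    rw [mul_sub, Finset.mul_sum]
    exact congrArg₂ (· - ·) rfl (Finset.sum_congr rfl fun j _ => by simp only [kx]; ring)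
  have h2 := Finset.sum_congr (s₁ := (Finset.univ : Finset (Fin n))) rfl fun i _ => h i
  rw [Finset.sum_sub_distrib, show ∑ i, cspin x i * (z * kx z g x i) = z * ∑ i, cspin x i * kx z g x i by
      rw [Finset.mul_sum]; exact Finset.sum_congr rfl fun i _ => by ring,
    Finset.sum_const, Finset.card_univ, Fintype.card_fin, nsmul_eq_mul, mul_one,
    show ∑ i, ∑ j, jmat g i j * (cspin x i * kx z g x j) = ∑ i, ∑ j, (coupling g i j : ℂ) * (cspin x i * kx z g x j / (Real.sqrt n : ℂ)) from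
      Finset.sum_congr rfl fun i _ => Finset.sum_congr rfl fun j _ => by simp [jmat]; ring,
    csum_edge] at h2
  have e : z * rform z g x - 1 = (∑ e : Edge n, (g e : ℂ) * (cspin x e.1.1 * kx z g x e.1.2 / (Real.sqrt n : ℂ) +
      cspin x e.1.2 * kx z g x e.1.1 / (Real.sqrt n : ℂ))) / n := by
    rw [rform, eq_div_iff hn', sub_mul, mul_div_assoc', div_mul_cancel₀ _ hn']
    linear_combination h2
  rw [e, Finset.sum_div]
  exact Finset.sum_congr rfl fun e _ => by ring

lemma hasDerivAt_rtr (hz : 0 < z.im) (g : Edge n → ℝ) (e : Edge n) (t : ℝ) :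
    HasDerivAt (fun s => rtr z (Function.update g e s))
      (2 / ((n:ℂ) * (Real.sqrt n : ℂ)) * (res z (Function.update g e t) * res z (Function.update g e t)) e.1.1 e.1.2) t := by
  refine ((HasDerivAt.fun_sum fun i (_ : i ∈ Finset.univ) => hasDerivAt_res hz g e t i i).div_const (n:ℂ)).congr_deriv ?_
  rw [Matrix.mul_apply, Finset.mul_sum, Finset.sum_div]
  exact Finset.sum_congr rfl fun i _ => by
    rw [res_symm (Function.update g e t) e.1.2 i, res_symm (Function.update g e t) e.1.1 i]; ring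

lemma hasDerivAt_kx (hz : 0 < z.im) (g : Edge n → ℝ) (x : Cfg n) (e : Edge n) (t : ℝ) (i : Fin n) :
    HasDerivAt (fun s => kx z (Function.update g e s) x i)
      ((res z (Function.update g e t) i e.1.1 * kx z (Function.update g e t) x e.1.2 +
        res z (Function.update g e t) i e.1.2 * kx z (Function.update g e t) x e.1.1) / (Real.sqrt n : ℂ)) t := by
  show HasDerivAt (fun s => ∑ j, res z (Function.update g e s) i j * cspin x j) _ t
  refine (HasDerivAt.fun_sum fun j (_ : j ∈ Finset.univ) => (hasDerivAt_res hz g e t i j).mul_const (cspin x j)).congr_deriv ?_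
  simp only [kx, Matrix.mulVec, dotProduct, Finset.mul_sum, ← Finset.sum_add_distrib, Finset.sum_div]
  exact Finset.sum_congr rfl fun j _ => by ring

lemma hasDerivAt_rform (hz : 0 < z.im) (g : Edge n → ℝ) (x : Cfg n) (e : Edge n) (t : ℝ) :
    HasDerivAt (fun s => rform z (Function.update g e s) x)
      (2 / ((n:ℂ) * (Real.sqrt n : ℂ)) * (kx z (Function.update g e t) x e.1.1 * kx z (Function.update g e t) x e.1.2)) t := by
  refine ((HasDerivAt.fun_sum fun i (_ : i ∈ Finset.univ) => (hasDerivAt_kx hz g x e t i).const_mul (cspin x i)).div_const (n:ℂ)).congr_deriv ?_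
  have h : ∀ a, ∑ i, cspin x i * res z (Function.update g e t) i a = kx z (Function.update g e t) x a := fun a => by
    simp only [kx, Matrix.mulVec, dotProduct]
    exact Finset.sum_congr rfl fun i _ => by rw [res_symm (Function.update g e t) a i]; ring
  simp only [mul_div_assoc', mul_add, ← mul_assoc, ← Finset.sum_div, Finset.sum_add_distrib, ← Finset.sum_mul, h]
  ring

lemma continuous_rtr (hz : 0 < z.im) : Continuous fun g : Edge n → ℝ => rtr z g :=
  (continuous_finsetSum _ fun i _ => continuous_res hz i i).div_const _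

lemma continuous_kx (hz : 0 < z.im) (x : Cfg n) (i : Fin n) : Continuous fun g : Edge n → ℝ => kx z g x i :=
  show Continuous fun g : Edge n → ℝ => ∑ j, res z g i j * cspin x j from
  continuous_finsetSum _ fun j _ => (continuous_res hz i j).mul continuous_const

lemma continuous_rform (hz : 0 < z.im) (x : Cfg n) : Continuous fun g : Edge n → ℝ => rform z g x :=
  (continuous_finsetSum _ fun i _ => continuous_const.mul (continuous_kx hz x i)).div_const _

lemma norm_rtr_le (hz : 0 < z.im) (g : Edge n → ℝ) : ‖rtr z g‖ ≤ 1 / z.im := by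
  rw [rtr, norm_div, Complex.norm_natCast]
  refine div_le_of_le_mul₀ (Nat.cast_nonneg n) (by positivity) ((norm_sum_le _ _).trans ?_)
  refine (Finset.sum_le_sum fun i _ => res_entry hz g i i).trans (le_of_eq ?_)
  simp; ring

lemma kx_abs_sum (hz : 0 < z.im) (g : Edge n → ℝ) (x : Cfg n) : ∑ i, ‖kx z g x i‖ ≤ n / z.im := by
  have h : ∀ i, ‖kx z g x i‖ ≤ (z.im * ‖kx z g x i‖ ^ 2 + 1 / z.im) / 2 := fun i => by
    have := div_nonneg (sq_nonneg (z.im * ‖kx z g x i‖ - 1)) hz.le
    have e : (z.im * ‖kx z g x i‖ - 1) ^ 2 / z.im = z.im * ‖kx z g x i‖ ^ 2 + 1 / z.im - 2 * ‖kx z g x i‖ := by field_simp; ring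
    linarith
  refine (Finset.sum_le_sum fun i _ => h i).trans ?_
  rw [← Finset.sum_div, Finset.sum_add_distrib, ← Finset.mul_sum, Finset.sum_const, Finset.card_univ, Fintype.card_fin, nsmul_eq_mul]
  have := mul_le_mul_of_nonneg_left (kx_norm hz g x) hz.le
  have e : z.im * ((n:ℝ) / z.im ^ 2) = n / z.im := by field_simp
  rw [e] at this
  rw [mul_one_div]
  linarith

lemma kx_entry (hz : 0 < z.im) (g : Edge n → ℝ) (x : Cfg n) (i : Fin n) : ‖kx z g x i‖ ≤ n / z.im :=
  (Finset.single_le_sum (f := fun i => ‖kx z g x i‖) (fun _ _ => norm_nonneg _) (Finset.mem_univ i)).trans (kx_abs_sum hz g x)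

lemma norm_rform_le (hz : 0 < z.im) (g : Edge n → ℝ) (x : Cfg n) : ‖rform z g x‖ ≤ 1 / z.im := by
  rw [rform, norm_div, Complex.norm_natCast]
  refine div_le_of_le_mul₀ (Nat.cast_nonneg n) (by positivity) ((norm_sum_le _ _).trans ?_)
  simp only [norm_mul, cspin_norm, one_mul]
  exact (kx_abs_sum hz g x).trans (le_of_eq (by ring))

lemma norm_trDefect_le (hz : 0 < z.im) (hz1 : z.im ≤ 1) (hz4 : ‖z‖ ≤ 4) (g : Edge n → ℝ) :
    ‖trDefect z g‖ ≤ 6 / z.im ^ 2 := by
  have ht := norm_rtr_le hz g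
  have h1 : 1 ≤ 1 / z.im := (one_le_div hz).2 hz1
  refine (norm_sub_le _ _).trans ((add_le_add ((norm_sub_le _ _).trans (add_le_add le_rfl norm_one.le)) le_rfl).trans ?_)
  rw [norm_mul, norm_pow]
  have h2 := mul_le_mul hz4 ht (norm_nonneg _) (by norm_num)
  have h3 := pow_le_pow_left₀ (norm_nonneg _) ht 2
  have h4 := le_self_pow₀ (n := 2) h1 two_ne_zero
  rw [show 6 / z.im ^ 2 = 6 * (1 / z.im) ^ 2 by rw [div_pow]; ring]
  linarith

/-- the semicircle equation in mean square -/
theorem trDefect_small (hn : 0 < n) (hz : 0 < z.im) (hz1 : z.im ≤ 1) (hz4 : ‖z‖ ≤ 4) :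
    Integrable (fun g : Edge n → ℝ => ‖trDefect z g‖ ^ 2) (disorder n) ∧
    ∫ g : Edge n → ℝ, ‖trDefect z g‖ ^ 2 ∂disorder n ≤ 42 / (n * z.im ^ 4) := by
  classical
  rw [gauss_edge]
  have hn' : (0:ℝ) < n := by exact_mod_cast hn
  set η := z.im with hη
  set c : ℂ := 2 / ((n:ℂ) * (Real.sqrt n : ℂ)) with hc
  set H := fun g : Edge n → ℝ => conj (trDefect z g)
  set dH := fun (e : Edge n) (g : Edge n → ℝ) => conj ((z - 2 * rtr z g) * (c * (res z g * res z g) e.1.1 e.1.2))
  set φ := fun (e : Edge n) (g : Edge n → ℝ) => c * res z g e.1.1 e.1.2 * H g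
  set A := fun (e : Edge n) (g : Edge n → ℝ) =>
    c * ((res z g e.1.1 e.1.1 * res z g e.1.2 e.1.2 + res z g e.1.1 e.1.2 * res z g e.1.1 e.1.2) / (Real.sqrt n : ℂ))
  set φ' := fun (e : Edge n) (g : Edge n → ℝ) => A e g * H g + c * res z g e.1.1 e.1.2 * dH e g
  have cT := continuous_rtr (n := n) hz
  have cH : Continuous H := Complex.continuous_conj.comp (((continuous_const.mul cT).sub continuous_const).sub (cT.pow 2))
  have cM : ∀ i j : Fin n, Continuous fun g : Edge n → ℝ => (res z g * res z g) i j := fun i j => by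
    simp only [Matrix.mul_apply]
    exact continuous_finsetSum _ fun k _ => (continuous_res hz i k).mul (continuous_res hz k j)
  have cφ : ∀ e, Continuous (φ e) := fun e => (continuous_const.mul (continuous_res hz _ _)).mul cH
  have cφ' : ∀ e, Continuous (φ' e) := fun e =>
    ((continuous_const.mul ((((continuous_res hz _ _).mul (continuous_res hz _ _)).add
      ((continuous_res hz _ _).mul (continuous_res hz _ _))).div_const _)).mul cH).add
      ((continuous_const.mul (continuous_res hz _ _)).mul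
        (Complex.continuous_conj.comp ((continuous_const.sub (continuous_const.mul cT)).mul (continuous_const.mul (cM _ _)))))
  have hH : ∀ g, ‖H g‖ ≤ 6 / η ^ 2 := fun g => by simpa [H] using norm_trDefect_le hz hz1 hz4 g
  have hT2 : ∀ g : Edge n → ℝ, ‖z - 2 * rtr z g‖ ≤ 6 / η := fun g => by
    have h3 := norm_sub_le z (2 * rtr z g)
    have h1 : (1:ℝ) ≤ 1 / η := (one_le_div hz).2 hz1
    have h2 : ‖rtr z g‖ ≤ 1 / η := norm_rtr_le hz g
    have e : (6:ℝ) / η = 6 * (1 / η) := by ring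
    have e2 : ‖(2:ℂ) * rtr z g‖ = 2 * ‖rtr z g‖ := by simp
    linarith
  have hM : ∀ (g : Edge n → ℝ) (i k : Fin n), ‖(res z g * res z g) i k‖ ≤ 1 / η ^ 2 := fun g i k => by
    refine (pow_le_pow_iff_left₀ (norm_nonneg _) (by positivity) two_ne_zero).1 ?_
    refine ((Finset.single_le_sum (f := fun i => ‖(res z g * res z g) i k‖ ^ 2) (fun _ _ => sq_nonneg _) (Finset.mem_univ i)).trans
      (res_sq_col hz g k)).trans (le_of_eq ?_)
    rw [div_pow, ← pow_mul, one_pow]
  have bA : ∀ (e : Edge n) (g : Edge n → ℝ), ‖A e g‖ ≤ ‖c‖ * ((1 / η * (1 / η) + 1 / η * (1 / η)) / ‖(Real.sqrt n : ℂ)‖) := fun e g => by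
    simp only [A, norm_mul, norm_div]
    gcongr
    refine (norm_add_le _ _).trans ?_
    simp only [norm_mul]
    exact add_le_add (mul_le_mul (res_entry hz g _ _) (res_entry hz g _ _) (norm_nonneg _) (by positivity))
      (mul_le_mul (res_entry hz g _ _) (res_entry hz g _ _) (norm_nonneg _) (by positivity))
  set C := ‖c‖ * (1 / η) * (6 / η ^ 2) + (‖c‖ * ((1 / η * (1 / η) + 1 / η * (1 / η)) / ‖(Real.sqrt n : ℂ)‖) * (6 / η ^ 2) +
    ‖c‖ * (1 / η) * (6 / η * (‖c‖ * (1 / η ^ 2))))
  have bdH : ∀ (e : Edge n) (g : Edge n → ℝ), ‖dH e g‖ ≤ 6 / η * (‖c‖ * (1 / η ^ 2)) := fun e g => by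
    simp only [dH, Complex.norm_conj, norm_mul]
    gcongr
    · exact hT2 g
    · exact hM g _ _
  have bφ : ∀ (e : Edge n) (g : Edge n → ℝ), ‖φ e g‖ ≤ C := fun e g => by
    simp only [φ, norm_mul]
    refine le_trans ?_ (le_add_of_nonneg_right (by positivity))
    gcongr
    · exact res_entry hz g _ _
    · exact hH g
  have bφ' : ∀ (e : Edge n) (g : Edge n → ℝ), ‖φ' e g‖ ≤ C := fun e g => by
    refine (norm_add_le _ _).trans (le_trans ?_ (le_add_of_nonneg_left (by positivity)))
    simp only [norm_mul]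
    gcongr
    · exact bA e g
    · exact hH g
    · exact res_entry hz g _ _
    · exact bdH e g
  have hd : ∀ (e : Edge n) (g : Edge n → ℝ) (t : ℝ), HasDerivAt (fun s => φ e (Function.update g e s)) (φ' e (Function.update g e t)) t := fun e g t => by
    have hT := hasDerivAt_rtr hz g e t
    have hW : HasDerivAt (fun s => trDefect z (Function.update g e s))
        ((z - 2 * rtr z (Function.update g e t)) * (c * (res z (Function.update g e t) * res z (Function.update g e t)) e.1.1 e.1.2)) t := by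
      refine (((hT.const_mul z).sub_const 1).fun_sub (hT.fun_pow 2)).congr_deriv ?_
      simp only [c]; push_cast; ring
    have hK := ((hasDerivAt_res hz g e t e.1.1 e.1.2).const_mul c).mul (Complex.conjCLE.toContinuousLinearMap.hasFDerivAt.comp_hasDerivAt t hW)
    exact hK
  have hibp := fun e => ibp_re e (C := C) (cφ e) (cφ' e) (bφ e) (bφ' e) (hd e)
  have hid : ∀ g : Edge n → ℝ, ‖trDefect z g‖ ^ 2 = (∑ e, g e * (φ e g).re) - (rtr z g ^ 2 * H g).re := fun g => by
    rw [← Complex.normSq_eq_norm_sq, ← Complex.ofReal_re (Complex.normSq _), Complex.normSq_eq_conj_mul_self]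
    rw [show conj (trDefect z g) * trDefect z g = (z * rtr z g - 1) * H g - rtr z g ^ 2 * H g by simp only [H, trDefect]; ring,
      Complex.sub_re, rtr_eq hn hz, Finset.sum_mul, Complex.re_sum]
    exact congrArg₂ (· - ·) (Finset.sum_congr rfl fun e _ => by rw [mul_assoc, Complex.re_ofReal_mul]) rfl
  have iS : Integrable (fun g => ∑ e, g e * (φ e g).re) (gauss (Edge n)) := integrable_finsetSum _ fun e _ => (hibp e).1
  have iR : Integrable (fun g => (rtr z g ^ 2 * H g).re) (gauss (Edge n)) :=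
    integrable_of_bound (C := (1 / η) ^ 2 * (6 / η ^ 2)) (M := 0) (Complex.continuous_re.comp ((cT.pow 2).mul cH)) fun g => by
      rw [zero_mul, Real.exp_zero, mul_one]
      refine (Complex.abs_re_le_norm _).trans ?_
      rw [norm_mul, norm_pow]
      gcongr
      · exact norm_rtr_le hz g
      · exact hH g
  refine ⟨by simp only [hid]; exact iS.sub iR, ?_⟩
  simp only [hid]
  rw [integral_sub iS iR, integral_finsetSum _ fun e _ => (hibp e).1]
  simp only [fun e => (hibp e).2.2]
  rw [← integral_finsetSum _ fun e _ => (hibp e).2.1, ← integral_sub (integrable_finsetSum _ fun e _ => (hibp e).2.1) iR]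
  refine (integral_mono ((integrable_finsetSum _ fun e _ => (hibp e).2.1).sub iR) (integrable_const (42 / ((n:ℝ) * η ^ 4))) fun g => ?_).trans (le_of_eq (by simp))
  have e1 : ∑ e, A e g = rtr z g ^ 2 + ((∑ i, ∑ j, res z g i j * res z g i j) - 2 * ∑ i, res z g i i * res z g i i) / (n:ℂ) ^ 2 := by
    have h := csum_edge_all fun i j => res z g i i * res z g j j + res z g i j * res z g i j
    have hs : (Real.sqrt n : ℂ) * (Real.sqrt n : ℂ) = (n:ℂ) := by
      rw [← Complex.ofReal_mul, Real.mul_self_sqrt hn'.le, Complex.ofReal_natCast]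
    have e : ∀ e : Edge n, A e g = ((res z g e.1.1 e.1.1 * res z g e.1.2 e.1.2 + res z g e.1.1 e.1.2 * res z g e.1.1 e.1.2) +
        (res z g e.1.2 e.1.2 * res z g e.1.1 e.1.1 + res z g e.1.2 e.1.1 * res z g e.1.2 e.1.1)) / (n:ℂ) ^ 2 := fun e => by
      simp only [A, hc]
      rw [res_symm g e.1.2 e.1.1, sq (n:ℂ)]
      conv_rhs => arg 2; arg 2; rw [← hs]
      ring
    simp only [e, ← Finset.sum_div, h, Finset.sum_add_distrib, ← Finset.mul_sum, ← Finset.sum_mul, rtr, div_pow, sq (∑ i, res z g i i)]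
    ring
  have e2 : ∑ e, (φ' e g).re - (rtr z g ^ 2 * H g).re =
      ((∑ e, A e g - rtr z g ^ 2) * H g + ∑ e : Edge n, c * res z g e.1.1 e.1.2 * dH e g).re := by
    simp only [φ', ← Complex.re_sum, ← Complex.sub_re, Finset.sum_add_distrib, sub_mul, Finset.sum_mul]
    congr 1; ring
  show ∑ e, (φ' e g).re - (rtr z g ^ 2 * H g).re ≤ _
  rw [e2, e1, add_sub_cancel_left]
  refine (Complex.re_le_norm _).trans ((norm_add_le _ _).trans ?_)
  have hF : ∑ i, ∑ j, ‖res z g i j‖ ^ 2 ≤ n / η ^ 2 := by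
    rw [Finset.sum_comm]
    exact (Finset.sum_le_sum fun j _ => res_col hz g j).trans (le_of_eq (by simp; ring))
  have hF2 : ∑ i, ∑ j, ‖(res z g * res z g) i j‖ ^ 2 ≤ n / η ^ 4 := by
    rw [Finset.sum_comm]
    exact (Finset.sum_le_sum fun j _ => res_sq_col hz g j).trans (le_of_eq (by simp; ring))
  have t1 : ‖((∑ i, ∑ j, res z g i j * res z g i j) - 2 * ∑ i, res z g i i * res z g i i) / (n:ℂ) ^ 2 * H g‖ ≤ 18 / (n * η ^ 4) := by
    rw [norm_mul, norm_div, norm_pow, Complex.norm_natCast]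
    have h1 : ‖(∑ i, ∑ j, res z g i j * res z g i j) - 2 * ∑ i, res z g i i * res z g i i‖ ≤ 3 * (n / η ^ 2) := by
      refine (norm_sub_le _ _).trans ?_
      rw [norm_mul, Complex.norm_ofNat]
      have a1 : ‖∑ i, ∑ j, res z g i j * res z g i j‖ ≤ n / η ^ 2 :=
        ((norm_sum_le _ _).trans (Finset.sum_le_sum fun i _ => (norm_sum_le _ _).trans (le_of_eq
          (Finset.sum_congr rfl fun j _ => by rw [norm_mul, sq])))).trans hF
      have a2 : ‖∑ i, res z g i i * res z g i i‖ ≤ n / η ^ 2 := by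
        refine ((norm_sum_le _ _).trans (Finset.sum_le_sum fun i _ => ?_)).trans hF
        rw [norm_mul, ← sq]
        exact Finset.single_le_sum (f := fun j => ‖res z g i j‖ ^ 2) (fun _ _ => sq_nonneg _) (Finset.mem_univ i)
      linarith
    refine (mul_le_mul (div_le_div_of_nonneg_right h1 (sq_nonneg (n:ℝ))) (hH g) (norm_nonneg _) (by positivity)).trans (le_of_eq ?_)
    field_simp; ring
  have t2 : ‖∑ e : Edge n, c * res z g e.1.1 e.1.2 * dH e g‖ ≤ 24 / (n * η ^ 4) := by
    refine (norm_sum_le _ _).trans ?_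
    have hcn : ‖c‖ * ‖c‖ = 4 / (n:ℝ) ^ 3 := by
      simp only [hc, norm_div, norm_mul, Complex.norm_natCast, Complex.norm_ofNat, Complex.norm_real, Real.norm_eq_abs,
        abs_of_nonneg (Real.sqrt_nonneg (n:ℝ))]
      rw [div_mul_div_comm, mul_mul_mul_comm, Real.mul_self_sqrt hn'.le]; ring
    have pt : ∀ e : Edge n, ‖c * res z g e.1.1 e.1.2 * dH e g‖ ≤ 4 / (n:ℝ) ^ 3 * (6 / η) *
        ((‖res z g e.1.1 e.1.2‖ ^ 2 / η + η * ‖(res z g * res z g) e.1.1 e.1.2‖ ^ 2) / 2) := fun e => by
      simp only [dH, norm_mul, Complex.norm_conj]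
      rw [show ‖c‖ * ‖res z g e.1.1 e.1.2‖ * (‖z - 2 * rtr z g‖ * (‖c‖ * ‖(res z g * res z g) e.1.1 e.1.2‖)) =
        (‖c‖ * ‖c‖) * ‖z - 2 * rtr z g‖ * (‖res z g e.1.1 e.1.2‖ * ‖(res z g * res z g) e.1.1 e.1.2‖) by ring, hcn]
      refine mul_le_mul (mul_le_mul_of_nonneg_left (hT2 g) (by positivity)) ?_ (by positivity) (by positivity)
      have h0 := div_nonneg (sq_nonneg (‖res z g e.1.1 e.1.2‖ - η * ‖(res z g * res z g) e.1.1 e.1.2‖)) hz.le
      have e3 : (‖res z g e.1.1 e.1.2‖ - η * ‖(res z g * res z g) e.1.1 e.1.2‖) ^ 2 / η =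
          ‖res z g e.1.1 e.1.2‖ ^ 2 / η + η * ‖(res z g * res z g) e.1.1 e.1.2‖ ^ 2 -
            2 * (‖res z g e.1.1 e.1.2‖ * ‖(res z g * res z g) e.1.1 e.1.2‖) := by field_simp; ring
      change 0 ≤ (_ - η * _) ^ 2 / η at h0
      linarith
    refine (Finset.sum_le_sum fun e _ => pt e).trans ?_
    rw [← Finset.mul_sum]
    have hsum : ∑ e : Edge n, (‖res z g e.1.1 e.1.2‖ ^ 2 / η + η * ‖(res z g * res z g) e.1.1 e.1.2‖ ^ 2) / 2 ≤ n / η ^ 3 := by
      have h3 := rsum_edge_le (fun i j => (‖res z g i j‖ ^ 2 / η + η * ‖(res z g * res z g) i j‖ ^ 2) / 2) fun i => by positivity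
      refine (le_trans ?_ h3).trans ?_
      · exact Finset.sum_le_sum fun e _ => le_add_of_nonneg_right (by positivity)
      · simp only [← Finset.sum_div, Finset.sum_add_distrib, ← Finset.mul_sum]
        rw [div_le_iff₀ two_pos]
        refine (add_le_add (div_le_div_of_nonneg_right hF hz.le) (mul_le_mul_of_nonneg_left hF2 hz.le)).trans (le_of_eq ?_)
        show (n:ℝ) / η ^ 2 / η + η * (n / η ^ 4) = _
        field_simp; ring
    refine (mul_le_mul_of_nonneg_left hsum (by positivity)).trans ?_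
    have e4 : 4 / (n:ℝ) ^ 3 * (6 / η) * (n / η ^ 3) = 24 / (n * η ^ 4) * (1 / n) := by field_simp; ring
    rw [e4]
    exact mul_le_of_le_one_right (by positivity) ((div_le_one hn').2 (by exact_mod_cast hn))
  have : 18 / ((n:ℝ) * η ^ 4) + 24 / (n * η ^ 4) = 42 / (n * η ^ 4) := by ring
  linarith

end Vale.Agent.P150
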