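import Vale.Agent.P150.AboveOne

/-! No sublinear relaxation or mixing, whp, for every `β > 1`. -/

open MeasureTheory ProbabilityTheory Filter
open scoped Topology

namespace Vale.Agent.P150

variable {n : ℕ}

/-- the two tilted partition functions cannot both be typical -/
lemma deterministic_mean {β K r a b : ℝ} (hn : 0 < n) (hβ : 0 ≤ β) (hab : a ^ 2 + b ^ 2 = 1)
    (hb : b ^ 2 = K / n) (_hK : 0 ≤ K)
    (hbig : Real.log 4 + β * K * r < β ^ 2 * K * (1 + a ^ 2) * (n - 1) / (4 * n))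
    (g w : Edge n → ℝ) (hG : meanE β (fun e => a * g e + b * w e) ≤ r * n) :
    ∑ x, gibbs β (fun e => a * g e) x * Real.exp ((β * b) * energy w x) <
        Real.exp ((β * b) ^ 2 * (n - 1) / 4) / 2 ∨
      ∑ x, gibbs β (fun e => a ^ 2 * (a * g e + b * w e)) x *
          Real.exp ((β * (a * b)) * energy (fun e => b * g e + (-a) * w e) x) <
        Real.exp ((β * (a * b)) ^ 2 * (n - 1) / 4) / 2 := by
  by_contra hcon
  push Not at hcon
  obtain ⟨h1, h2⟩ := hcon
  have hn' : (0:ℝ) < n := by exact_mod_cast hn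
  set G := fun e => a * g e + b * w e
  set Zg := Zfun β (fun e => a * g e)
  set ZG := Zfun β G
  have hZg : 0 < Zg := partition_pos β _
  have hZG : 0 < ZG := partition_pos β _
  have i1 : ZG = Zg * ∑ x, gibbs β (fun e => a * g e) x * Real.exp ((β * b) * energy w x) := by
    rw [← Zfun_tilt]
    refine Finset.sum_congr rfl fun x _ => ?_
    rw [← Real.exp_add, energy_scale, energy_lin]
    ring_nf
  set Z2 := Zfun β (fun e => a ^ 2 * G e)
  have hZ2 : Real.exp (-(β * K * r)) * ZG ≤ Z2 := by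
    have h := meanE_le β (-(β * b ^ 2)) G
    have e : Zfun (β + -(β * b ^ 2)) G = Z2 := Finset.sum_congr rfl fun x _ => by
      rw [energy_scale, show β + -(β * b ^ 2) = β * a ^ 2 by linear_combination (-β) * hab]; ring_nf
    have h3 := mul_le_mul_of_nonneg_left hG (mul_nonneg hβ (sq_nonneg b))
    have h4 : β * b ^ 2 * (r * n) = β * K * r := by rw [hb]; field_simp
    rw [e] at h
    have h5 : Real.log ZG - β * K * r ≤ Real.log Z2 := by linarith
    have h6 := Real.exp_le_exp.2 h5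
    rw [Real.exp_sub, Real.exp_log hZG, Real.exp_log (show 0 < Z2 from partition_pos β _)] at h6
    rw [Real.exp_neg, ← div_eq_inv_mul]
    exact h6
  have i2 : Real.exp (-(β * K * r)) *
      (ZG * ∑ x, gibbs β (fun e => a ^ 2 * G e) x * Real.exp ((β * (a * b)) * energy (fun e => b * g e + (-a) * w e) x)) ≤ Zg := by
    rw [← mul_assoc]
    refine (mul_le_mul_of_nonneg_right hZ2 (Finset.sum_nonneg fun x _ => mul_nonneg (gibbs_pos β _ x).le (Real.exp_pos _).le)).trans (le_of_eq ?_)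
    rw [← Zfun_tilt]
    refine Finset.sum_congr rfl fun x _ => ?_
    rw [← Real.exp_add]
    congr 1
    simp only [G, energy_scale, energy_lin]
    linear_combination (β * a * energy g x) * hab
  set e1 := Real.exp ((β * b) ^ 2 * (n - 1) / 4) with he1
  set e2 := Real.exp ((β * (a * b)) ^ 2 * (n - 1) / 4) with he2
  have a1 : Zg * (e1 / 2) ≤ ZG := by rw [i1]; exact mul_le_mul_of_nonneg_left h1 hZg.le
  have a2 : Real.exp (-(β * K * r)) * (ZG * (e2 / 2)) ≤ Zg :=
    le_trans (mul_le_mul_of_nonneg_left (mul_le_mul_of_nonneg_left h2 hZG.le) (Real.exp_pos _).le) i2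
  have a3 : Real.exp (-(β * K * r)) * ((Zg * (e1 / 2)) * (e2 / 2)) ≤ Zg :=
    le_trans (mul_le_mul_of_nonneg_left (mul_le_mul_of_nonneg_right a1
      (div_nonneg (Real.exp_pos _).le two_pos.le)) (Real.exp_pos _).le) a2
  have a4 : Real.exp (-(β * K * r)) * e1 * e2 ≤ 4 := by
    refine le_of_mul_le_mul_left ?_ hZg
    linarith
  rw [he1, he2, ← Real.exp_add, ← Real.exp_add, ← Real.le_log_iff_exp_le (by norm_num : (0:ℝ) < 4)] at a4
  have e : (β * b) ^ 2 * (n - 1) / 4 + (β * (a * b)) ^ 2 * (n - 1) / 4 =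
      β ^ 2 * K * (1 + a ^ 2) * (n - 1) / (4 * n) := by
    rw [mul_pow, mul_pow, mul_pow, hb]; field_simp
  linarith

/-- the main estimate -/
theorem overlap_small_one (β : ℝ) (hβ : 1 < β) :
    ∃ C c : ℝ, ∃ N₀ : ℕ, 0 < C ∧ 0 < c ∧ ∀ n ≥ N₀, ∀ η : ℝ, 0 < η →
      (disorder n).real {g | overlapSq β g ≤ η} ≤ C * Real.sqrt η + C * Real.exp (-(c * n)) := by
  have hl2 : 0 < Real.log 2 := Real.log_pos (by norm_num)
  have hβ0 : 0 < β := by linarith
  obtain ⟨r, c₀, hr0, hr2, hc₀, hlow⟩ := energy_low β hβ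
  obtain ⟨N₂, hN₂⟩ := eventually_atTop.1 hlow
  set c := min c₀ (1 - Real.log 2) with hc
  have hc0 : 0 < c := lt_min hc₀ (by
    linarith [Real.log_lt_sub_one_of_pos (two_pos (α := ℝ)) (by norm_num)])
  set γ := β / 2 - r with hγ
  have hγ0 : 0 < γ := by rw [hγ]; linarith
  have hl4 : 0 < Real.log 4 := Real.log_pos (by norm_num)
  set K := 3 * Real.log 4 / (β * γ) with hK
  have hK0 : 0 < K := by positivity
  have hKγ : β * K * γ = 3 * Real.log 4 := by rw [hK]; field_simp
  obtain ⟨N₁, hN₁⟩ := exists_nat_gt (max (max 2 K) (β ^ 2 * K * (K + 2) / (4 * Real.log 4)))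
  set Q := 8 * Real.exp (β ^ 2 * K / 2) * Real.exp (4 * (β * K)) with hQ
  refine ⟨Real.sqrt Q + 3, c / 2, max N₁ N₂, by positivity, by linarith, fun n hn' η hη => ?_⟩
  have hn : N₁ ≤ n := le_of_max_le_left hn'
  have hlowN := hN₂ n (le_of_max_le_right hn')
  clear hn'
  have hnR : max (max 2 K) (β ^ 2 * K * (K + 2) / (4 * Real.log 4)) < (n:ℝ) :=
    lt_of_lt_of_le hN₁ (by exact_mod_cast hn)
  obtain ⟨hnA, hnC⟩ := max_lt_iff.1 hnR
  obtain ⟨hn2, hnK⟩ := max_lt_iff.1 hnA
  have hn' : (0:ℝ) < n := by linarith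
  have hnpos : 0 < n := by exact_mod_cast hn'
  set s := K / (n:ℝ) with hs
  have hs0 : 0 < s := by positivity
  have hs1 : s < 1 := (div_lt_one hn').2 hnK
  set a := Real.sqrt (1 - s)
  set b := Real.sqrt s
  have hb : b ^ 2 = K / n := Real.sq_sqrt hs0.le
  have hasq : a ^ 2 = 1 - s := Real.sq_sqrt (by linarith)
  have hab : a ^ 2 + b ^ 2 = 1 := by rw [hasq, hb, hs]; ring
  have ha0 : 0 ≤ a := Real.sqrt_nonneg _
  have ha1 : a ≤ 1 := Real.sqrt_le_one.2 (by linarith)
  have has : 1 - a ≤ s := by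
    have := mul_le_mul_of_nonneg_left ha1 ha0
    rw [← sq, hasq] at this; linarith
  have hbig : Real.log 4 + β * K * r < β ^ 2 * K * (1 + a ^ 2) * (n - 1) / (4 * n) := by
    rw [div_lt_iff₀ (by positivity)] at hnC
    have h1 : β ^ 2 * K * (1 + a ^ 2) * (n - 1) / (4 * n) ≥ β ^ 2 * K / 2 - β ^ 2 * K * (K + 2) / (4 * n) := by
      rw [hasq, hs, ge_iff_le, ← sub_nonneg]
      have e : β ^ 2 * K * (1 + (1 - K / n)) * (n - 1) / (4 * n) - (β ^ 2 * K / 2 - β ^ 2 * K * (K + 2) / (4 * n)) =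
          β ^ 2 * K * K / (4 * n * n) := by field_simp; ring
      rw [e]; positivity
    have h2 : β ^ 2 * K * (K + 2) / (4 * n) < Real.log 4 := by
      rw [div_lt_iff₀ (by positivity)]; linarith
    have h3 : β ^ 2 * K / 2 = β * K * r + β * K * γ := by rw [hγ]; ring
    linarith
  set D := disorder n
  set A := {g : Edge n → ℝ | overlapSq β g ≤ η}
  have hA : MeasurableSet A := measurableSet_le (measurable_overlapSq β) measurable_const
  set E1 := {z : (Edge n → ℝ) × (Edge n → ℝ) | (overlapSq β z.1 ≤ η ∧ Bounded 1 z.1) ∧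
    ∑ x, gibbs β (fun e => a * z.1 e) x * Real.exp ((β * b) * energy z.2 x) <
      Real.exp ((β * b) ^ 2 * (n - 1) / 4) / 2}
  set E2 := {z : (Edge n → ℝ) × (Edge n → ℝ) | (overlapSq β z.1 ≤ η ∧ Bounded 1 z.1) ∧
    ∑ x, gibbs β (fun e => a ^ 2 * z.1 e) x * Real.exp ((β * (a * b)) * energy z.2 x) <
      Real.exp ((β * (a * b)) ^ 2 * (n - 1) / 4) / 2}
  set rot := fun z : (Edge n → ℝ) × (Edge n → ℝ) =>
      ((fun e => a * z.1 e + b * z.2 e : Edge n → ℝ), (fun e => b * z.1 e + (-a) * z.2 e : Edge n → ℝ))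
  have hrot : MeasurePreserving rot (D.prod D) (D.prod D) := rotation a b hab
  set S0 := {g : Edge n → ℝ | ¬ Bounded 1 g}
  set M0 := {g : Edge n → ℝ | r * n < meanE β g}
  have hS0 : MeasurableSet S0 := (measurable_bounded 1).compl
  have hM0 : MeasurableSet M0 := measurableSet_lt measurable_const
    (Finset.measurable_sum _ fun x _ => (measurable_gibbs β x).mul (measurable_energy x))
  set G0 : Set ((Edge n → ℝ) × (Edge n → ℝ)) := Prod.fst ⁻¹' S0
  set H0 : Set ((Edge n → ℝ) × (Edge n → ℝ)) := Prod.fst ⁻¹' (S0 ∪ M0)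
  have hG0 : MeasurableSet G0 := hS0.preimage measurable_fst
  have hH0 : MeasurableSet H0 := (hS0.union hM0).preimage measurable_fst
  have hsub : {z : (Edge n → ℝ) × (Edge n → ℝ) | z.1 ∈ A ∧ (fun e => a * z.1 e + b * z.2 e) ∈ A} ⊆
      (G0 ∪ rot ⁻¹' H0) ∪ (E1 ∪ rot ⁻¹' E2) := by
    rintro z ⟨hz1, hz2⟩
    by_cases hb1 : Bounded 1 z.1
    · by_cases hb2 : Bounded 1 (rot z).1
      · by_cases hm : meanE β (rot z).1 ≤ r * n
        · rcases deterministic_mean hnpos hβ0.le hab hb hK0.le hbig z.1 z.2 hm with h | h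
          · exact Or.inr (Or.inl ⟨⟨hz1, hb1⟩, h⟩)
          · exact Or.inr (Or.inr ⟨⟨hz2, hb2⟩, h⟩)
        · exact Or.inl (Or.inr (Or.inr (not_le.1 hm)))
      · exact Or.inl (Or.inr (Or.inl hb2))
    · exact Or.inl (Or.inl hb1)
  have hg : ∀ g : Edge n → ℝ, Measurable fun w : Edge n → ℝ => (g, w) := fun g => by fun_prop
  have m1 : MeasurableSet {g : Edge n → ℝ | overlapSq β g ≤ η ∧ Bounded 1 g} :=
    (measurableSet_le (measurable_overlapSq β) measurable_const).inter (measurable_bounded 1)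
  have mE2 : MeasurableSet E2 :=
    (m1.preimage measurable_fst).inter
      (measurableSet_lt (Finset.measurable_sum _ fun x _ =>
        (((measurable_gibbs β x).comp (by fun_prop : Measurable fun g : Edge n → ℝ => fun e => a ^ 2 * g e)).comp
          measurable_fst).mul (((measurable_energy x).comp measurable_snd).const_mul _).exp) measurable_const)
  have mE1 : MeasurableSet E1 := by
    exact (m1.preimage measurable_fst).inter
      (measurableSet_lt (Finset.measurable_sum _ fun x _ =>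
        (((measurable_gibbs β x).comp (by fun_prop : Measurable fun g : Edge n → ℝ => fun e => a * g e)).comp
          measurable_fst).mul (((measurable_energy x).comp measurable_snd).const_mul _).exp) measurable_const)
  have ht : ∀ θ : ℝ, θ ^ 2 ≤ 1 → Real.exp ((β * (θ * b)) ^ 2 * n / 2) ≤ Real.exp (β ^ 2 * K / 2) := by
    intro θ hθ
    refine Real.exp_le_exp.2 ?_
    rw [mul_pow, mul_pow, hb]
    have e : β ^ 2 * (θ ^ 2 * (K / n)) * n / 2 = θ ^ 2 * (β ^ 2 * K / 2) := by field_simp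
    rw [e]; exact mul_le_of_le_one_left (by positivity) hθ
  have hc4 : 1 ≤ Real.exp (4 * (β * K)) := Real.one_le_exp (by positivity)
  have hp : 0 ≤ Q / 2 * η := by positivity
  have hov : ∀ θ : ℝ, θ ≤ 1 → 1 - θ ≤ s → ∀ g : Edge n → ℝ, overlapSq β g ≤ η ∧ Bounded 1 g →
      overlapSq β (fun e => θ * g e) ≤ Real.exp (4 * (β * K)) * η := fun θ h1 h2 g hgA => by
    refine (scaled_overlap hβ0.le h1 h2 zero_le_one g hgA.2).trans ?_
    have e : s * (1 * n) = K := by rw [hs]; field_simp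
    rw [e]; exact mul_le_mul_of_nonneg_left hgA.1 (Real.exp_pos _).le
  have pE2 : (D.prod D).real E2 ≤ Q / 2 * η := by
    refine slice_bound mE2 hp fun g => ?_
    by_cases hgA : overlapSq β g ≤ η ∧ Bounded 1 g
    · refine (measureReal_mono (fun w hw => hw.2)).trans
        ((tilt_small hnpos (gibbs β fun e => a ^ 2 * g e) (fun x => (gibbs_pos β _ x).le) (gibbs_sum β _) (β * (a * b))).trans ?_)
      refine (mul_le_mul (mul_le_mul_of_nonneg_left (ht a (by rw [hasq]; linarith)) (by norm_num))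
        (hov (a ^ 2) (by rw [hasq]; linarith) (by rw [hasq]; linarith) g hgA)
        (Finset.sum_nonneg fun x _ => Finset.sum_nonneg fun y _ =>
          mul_nonneg (mul_nonneg (gibbs_pos β _ x).le (gibbs_pos β _ y).le) (sq_nonneg _)) (by positivity)).trans
        (le_of_eq ?_)
      rw [hQ]; ring
    · have : Prod.mk g ⁻¹' E2 = ∅ := Set.eq_empty_iff_forall_notMem.2 fun w hw => hgA hw.1
      rw [this]; simpa using hp
  have pE1 : (D.prod D).real E1 ≤ Q / 2 * η := by
    refine slice_bound mE1 hp fun g => ?_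
    by_cases hgA : overlapSq β g ≤ η ∧ Bounded 1 g
    · refine (measureReal_mono (fun w hw => hw.2)).trans
        ((tilt_small hnpos (gibbs β fun e => a * g e) (fun x => (gibbs_pos β _ x).le) (gibbs_sum β _) (β * b)).trans ?_)
      have hov := hov a ha1 has g hgA
      have h1 := ht 1 (by norm_num)
      rw [one_mul] at h1
      refine (mul_le_mul (mul_le_mul_of_nonneg_left h1 (by norm_num)) hov
        (Finset.sum_nonneg fun x _ => Finset.sum_nonneg fun y _ =>
          mul_nonneg (mul_nonneg (gibbs_pos β _ x).le (gibbs_pos β _ y).le) (sq_nonneg _)) (by positivity)).trans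
        (le_of_eq ?_)
      rw [hQ]; ring
    · have : Prod.mk g ⁻¹' E1 = ∅ := Set.eq_empty_iff_forall_notMem.2 fun w hw => hgA hw.1
      rw [this]; simpa using hp
  have hfst : ∀ S : Set (Edge n → ℝ), (D.prod D).real (Prod.fst ⁻¹' S) = D.real S := fun S => by
    have : (Prod.fst ⁻¹' S : Set ((Edge n → ℝ) × (Edge n → ℝ))) = S ×ˢ Set.univ := by ext z; simp
    rw [this, measureReal_prod_prod, probReal_univ, mul_one]
  have hS : D.real S0 ≤ 2 * Real.exp (-(c * n)) := by
    refine (prob_unbounded hnpos zero_le_one).trans ?_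
    rw [one_pow]
    refine mul_le_mul_of_nonneg_left (Real.exp_le_exp.2 ?_) two_pos.le
    linarith [mul_le_mul_of_nonneg_right (min_le_right c₀ (1 - Real.log 2)) hn'.le]
  have hM : D.real M0 ≤ 2 * Real.exp (-(c * n)) := by
    refine hlowN.trans (mul_le_mul_of_nonneg_left (Real.exp_le_exp.2 ?_) two_pos.le)
    linarith [mul_le_mul_of_nonneg_right (min_le_left c₀ (1 - Real.log 2)) hn'.le]
  have pG0 : (D.prod D).real G0 ≤ 2 * Real.exp (-(c * n)) := (hfst S0).trans_le hS
  have pH0 : (D.prod D).real H0 ≤ 4 * Real.exp (-(c * n)) :=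
    (hfst _).trans_le ((measureReal_union_le _ _).trans (by linarith))
  have hpre : ∀ S : Set ((Edge n → ℝ) × (Edge n → ℝ)), MeasurableSet S →
      (D.prod D).real (rot ⁻¹' S) = (D.prod D).real S := fun S hS => by
    rw [measureReal_def, measureReal_def, hrot.measure_preimage hS.nullMeasurableSet]
  have hcorr := correlation a b ha0 hab hA
  have h4 : D.real A ^ 2 ≤ Q * η + 6 * Real.exp (-(c * n)) := by
    refine hcorr.trans ((measureReal_mono hsub).trans ((measureReal_union_le _ _).trans ?_))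
    have u1 := measureReal_union_le (μ := D.prod D) G0 (rot ⁻¹' H0)
    have u2 := measureReal_union_le (μ := D.prod D) E1 (rot ⁻¹' E2)
    rw [hpre H0 hH0] at u1
    rw [hpre E2 mE2] at u2
    linarith
  have hpow : Real.exp (-(c / 2 * n)) ^ 2 = Real.exp (-(c * n)) := by
    rw [← Real.exp_nat_mul]; congr 1; push_cast; ring
  have h5 : D.real A ≤ Real.sqrt Q * Real.sqrt η + 3 * Real.exp (-(c / 2 * n)) := by
    refine (pow_le_pow_iff_left₀ measureReal_nonneg (by positivity) two_ne_zero).1 (h4.trans ?_)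
    have : 0 ≤ Real.sqrt Q * Real.sqrt η * Real.exp (-(c / 2 * n)) := by positivity
    rw [add_sq, mul_pow, mul_pow, Real.sq_sqrt (by positivity), Real.sq_sqrt hη.le, hpow]
    linarith [Real.exp_pos (-(c * n))]
  refine h5.trans ?_
  linarith [mul_nonneg (Real.sqrt_nonneg Q) (Real.exp_pos (-(c / 2 * n))).le,
    mul_nonneg (show (0:ℝ) ≤ 3 by norm_num) (Real.sqrt_nonneg η)]

/-- no sublinear relaxation or mixing -/
theorem slow_mixing_one (β : ℝ) (hβ : 1 < β) :
    (∃ C c : ℝ, ∃ N₀ : ℕ, 0 < C ∧ 0 < c ∧ ∀ n ≥ N₀,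
      (∀ M : ℝ, 0 < M → (disorder n).real {g | GapAtLeast β g (M / n)} ≤ C / Real.sqrt M + C * Real.exp (-(c * n))) ∧
      (∀ η : ℝ, 0 < η → (disorder n).real {g | ∃ t : ℝ, 0 ≤ t ∧ t ≤ η * n ∧ MixedAt β g t} ≤
        C * Real.sqrt η + C * Real.exp (-(c * n)))) ∧
    ∀ K : ℝ, 0 < K → Tendsto (fun n : ℕ =>
      (disorder n).real {g | ∃ t : ℝ, 0 ≤ t ∧ t ≤ K * Real.log n ∧ MixedAt β g t}) atTop (𝓝 0) := by
  obtain ⟨C, c, N₀, hC, hc, h⟩ := overlap_small_one β hβ
  have hl2 : 0 < Real.log 2 := Real.log_pos (by norm_num)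
  set F := Real.sqrt 2 + Real.sqrt (2 / Real.log 2) + 1
  have hgap : ∀ n ≥ max N₀ 1,
      (∀ M : ℝ, 0 < M → (disorder n).real {g | GapAtLeast β g (M / n)} ≤
        (C * F) / Real.sqrt M + (C * F) * Real.exp (-(c * n))) ∧
      (∀ η : ℝ, 0 < η → (disorder n).real {g | ∃ t : ℝ, 0 ≤ t ∧ t ≤ η * n ∧ MixedAt β g t} ≤
        (C * F) * Real.sqrt η + (C * F) * Real.exp (-(c * n))) := by
    intro n hn
    have hn0 : 0 < n := lt_of_lt_of_le one_pos (le_of_max_le_right hn)
    have hn' : (0:ℝ) < n := by exact_mod_cast hn0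
    have hF1 : C ≤ C * F := le_mul_of_one_le_right hC.le (by
      linarith [Real.sqrt_nonneg (2:ℝ), Real.sqrt_nonneg (2 / Real.log 2)])
    have hexp := mul_le_mul_of_nonneg_right hF1 (Real.exp_pos (-(c * n))).le
    constructor
    · intro M hM
      have hsub : {g : Edge n → ℝ | GapAtLeast β g (M / n)} ⊆ {g | overlapSq β g ≤ 2 / M} := fun g hg => by
        have h1 := overlapSq_le_of_gap β g hg
        rw [div_mul_eq_mul_div, div_le_div_iff_of_pos_right hn'] at h1
        rw [Set.mem_ofPred_eq, le_div_iff₀ hM]; linarith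
      refine (measureReal_mono hsub).trans ((h n (le_of_max_le_left hn) _ (by positivity)).trans ?_)
      rw [Real.sqrt_div (by norm_num)]
      refine add_le_add ?_ hexp
      rw [← mul_div_assoc]
      refine div_le_div_of_nonneg_right (mul_le_mul_of_nonneg_left ?_ hC.le) (Real.sqrt_nonneg _)
      linarith [Real.sqrt_nonneg (2 / Real.log 2)]
    · intro η hη
      have hsub : {g : Edge n → ℝ | ∃ t : ℝ, 0 ≤ t ∧ t ≤ η * n ∧ MixedAt β g t} ⊆
          {g | overlapSq β g ≤ 2 / Real.log 2 * η} := fun g hg => by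
        obtain ⟨t, ht0, ht, hm⟩ := hg
        have h1 := overlap_le_of_mixed β g hn0 ht0 hm
        have h2 : 2 * t / n ≤ 2 * η := by rw [div_le_iff₀ hn']; linarith
        rw [Set.mem_ofPred_eq, div_mul_eq_mul_div, le_div_iff₀ hl2]; linarith
      refine (measureReal_mono hsub).trans ((h n (le_of_max_le_left hn) _ (by positivity)).trans ?_)
      rw [Real.sqrt_mul (by positivity)]
      refine add_le_add ?_ hexp
      rw [← mul_assoc]
      refine mul_le_mul_of_nonneg_right (mul_le_mul_of_nonneg_left ?_ hC.le) (Real.sqrt_nonneg _)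
      linarith [Real.sqrt_nonneg (2:ℝ)]
  refine ⟨⟨C * F, c, max N₀ 1, by positivity, hc, hgap⟩, fun K hK => ?_⟩
  refine squeeze_zero' (Eventually.of_forall fun n => measureReal_nonneg)
    (g := fun n : ℕ => (C * F) * Real.sqrt (K * (Real.log n / n)) + (C * F) * Real.exp (-(c * n))) ?_ ?_
  · filter_upwards [eventually_ge_atTop (max N₀ 1), eventually_ge_atTop 2] with n hn hn2
    have hn' : (1:ℝ) < n := by exact_mod_cast hn2
    have hη : 0 < K * (Real.log n / n) := by
      have := Real.log_pos hn'; positivity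
    refine le_trans (le_of_eq ?_) ((hgap n hn).2 _ hη)
    have e : K * (Real.log n / n) * n = K * Real.log n := by field_simp
    rw [e]
  · have h1 : Tendsto (fun n : ℕ => Real.log n / n) atTop (𝓝 0) :=
      Real.isLittleO_log_id_atTop.tendsto_div_nhds_zero.comp tendsto_natCast_atTop_atTop
    have h2 : Tendsto (fun n : ℕ => Real.exp (-(c * n))) atTop (𝓝 0) :=
      Real.tendsto_exp_atBot.comp
        (tendsto_neg_atTop_atBot.comp (tendsto_natCast_atTop_atTop.const_mul_atTop hc))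
    simpa using ((Real.continuous_sqrt.tendsto _).comp (h1.const_mul K)).const_mul (C * F) |>.add (h2.const_mul (C * F))

end Vale.Agent.P150
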