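import Mathlib.Tactic

/-! One-variable certificates for the tangent bounds of the TAP inequality. -/

namespace Vale.Agent.P150

/-- certificate polynomial -/
noncomputable def tapTan1lo (u : ℝ) : ℝ :=
  (-49/400:ℝ) * u ^ 0
  + (3943/3600:ℝ) * u ^ 2
  + (-28/9:ℝ) * u ^ 4
  + (56/135:ℝ) * u ^ 6
  + (4/45:ℝ) * u ^ 8

lemma tapTan1lo_seg0 {u : ℝ} (h0 : (0:ℝ) ≤ u) (h1 : u ≤ (3/10:ℝ)) : tapTan1lo u ≤ 0 := by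
  obtain ⟨a, rfl, ha, ha'⟩ : ∃ a, u = (0:ℝ) + (3/10:ℝ) * a ∧ 0 ≤ a ∧ 0 ≤ 1 - a :=
    ⟨(u - (0:ℝ)) / (3/10:ℝ), by ring, by linarith, by linarith⟩
  rw [show tapTan1lo ((0:ℝ) + (3/10:ℝ) * a) = -(
    (49/400:ℝ) * a ^ 0 * (1 - a) ^ 8
    + (49/50:ℝ) * a ^ 1 * (1 - a) ^ 7
    + (133257/40000:ℝ) * a ^ 2 * (1 - a) ^ 6
    + (125371/20000:ℝ) * a ^ 3 * (1 - a) ^ 5
    + (284863/40000:ℝ) * a ^ 4 * (1 - a) ^ 4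
    + (49893/10000:ℝ) * a ^ 5 * (1 - a) ^ 3
    + (10511363/5000000:ℝ) * a ^ 6 * (1 - a) ^ 2
    + (1221863/2500000:ℝ) * a ^ 7 * (1 - a) ^ 1
    + (381381/7812500:ℝ) * a ^ 8 * (1 - a) ^ 0) by simp only [tapTan1lo]; ring]
  refine neg_nonpos.2 ?_
  positivity

lemma tapTan1lo_seg1 {u : ℝ} (h0 : (3/10:ℝ) ≤ u) (h1 : u ≤ (3/5:ℝ)) : tapTan1lo u ≤ 0 := by
  obtain ⟨a, rfl, ha, ha'⟩ : ∃ a, u = (3/10:ℝ) + (3/10:ℝ) * a ∧ 0 ≤ a ∧ 0 ≤ 1 - a :=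
    ⟨(u - (3/10:ℝ)) / (3/10:ℝ), by ring, by linarith, by linarith⟩
  rw [show tapTan1lo ((3/10:ℝ) + (3/10:ℝ) * a) = -(
    (381381/7812500:ℝ) * a ^ 0 * (1 - a) ^ 8
    + (18270193/62500000:ℝ) * a ^ 1 * (1 - a) ^ 7
    + (90914727/125000000:ℝ) * a ^ 2 * (1 - a) ^ 6
    + (16457601/15625000:ℝ) * a ^ 3 * (1 - a) ^ 5
    + (29776379/25000000:ℝ) * a ^ 4 * (1 - a) ^ 4
    + (79875141/62500000:ℝ) * a ^ 5 * (1 - a) ^ 3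
    + (135277857/125000000:ℝ) * a ^ 6 * (1 - a) ^ 2
    + (16761251/31250000:ℝ) * a ^ 7 * (1 - a) ^ 1
    + (1727397/15625000:ℝ) * a ^ 8 * (1 - a) ^ 0) by simp only [tapTan1lo]; ring]
  refine neg_nonpos.2 ?_
  positivity

lemma tapTan1lo_nonpos {u : ℝ} (h0 : (0:ℝ) ≤ u) (h1 : u ≤ (3/5:ℝ)) : tapTan1lo u ≤ 0 := by
  rcases le_total u (3/10:ℝ) with h2 | h2
  ·
    exact tapTan1lo_seg0 h0 h2
  ·
    exact tapTan1lo_seg1 h2 h1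

/-- certificate polynomial -/
noncomputable def tapTan1hi (u : ℝ) : ℝ :=
  (3983/400:ℝ) * u ^ 0
  + (-168/5:ℝ) * u ^ 1
  + (76519/3600:ℝ) * u ^ 2
  + (392/15:ℝ) * u ^ 3
  + (-224/9:ℝ) * u ^ 4
  + (56/135:ℝ) * u ^ 6
  + (4/45:ℝ) * u ^ 8

lemma tapTan1hi_seg0 {u : ℝ} (h0 : (3/5:ℝ) ≤ u) (h1 : u ≤ (4/5:ℝ)) : tapTan1hi u ≤ 0 := by
  obtain ⟨a, rfl, ha, ha'⟩ : ∃ a, u = (3/5:ℝ) + (1/5:ℝ) * a ∧ 0 ≤ a ∧ 0 ≤ 1 - a :=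
    ⟨(u - (3/5:ℝ)) / (1/5:ℝ), by ring, by linarith, by linarith⟩
  rw [show tapTan1hi ((3/5:ℝ) + (1/5:ℝ) * a) = -(
    (1727397/15625000:ℝ) * a ^ 0 * (1 - a) ^ 8
    + (52334629/46875000:ℝ) * a ^ 1 * (1 - a) ^ 7
    + (1153546087/281250000:ℝ) * a ^ 2 * (1 - a) ^ 6
    + (178252211/23437500:ℝ) * a ^ 3 * (1 - a) ^ 5
    + (443104469/56250000:ℝ) * a ^ 4 * (1 - a) ^ 4
    + (215576453/46875000:ℝ) * a ^ 5 * (1 - a) ^ 3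
    + (1193543011/843750000:ℝ) * a ^ 6 * (1 - a) ^ 2
    + (10170308/52734375:ℝ) * a ^ 7 * (1 - a) ^ 1
    + (8176063/843750000:ℝ) * a ^ 8 * (1 - a) ^ 0) by simp only [tapTan1hi]; ring]
  refine neg_nonpos.2 ?_
  positivity

lemma tapTan1hi_seg1 {u : ℝ} (h0 : (4/5:ℝ) ≤ u) (h1 : u ≤ (17/20:ℝ)) : tapTan1hi u ≤ 0 := by
  obtain ⟨a, rfl, ha, ha'⟩ : ∃ a, u = (4/5:ℝ) + (1/20:ℝ) * a ∧ 0 ≤ a ∧ 0 ≤ 1 - a :=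
    ⟨(u - (4/5:ℝ)) / (1/20:ℝ), by ring, by linarith, by linarith⟩
  rw [show tapTan1hi ((4/5:ℝ) + (1/20:ℝ) * a) = -(
    (8176063/843750000:ℝ) * a ^ 0 * (1 - a) ^ 8
    + (20539699/421875000:ℝ) * a ^ 1 * (1 - a) ^ 7
    + (1221414631/13500000000:ℝ) * a ^ 2 * (1 - a) ^ 6
    + (465970997/6750000000:ℝ) * a ^ 3 * (1 - a) ^ 5
    + (37462357/2700000000:ℝ) * a ^ 4 * (1 - a) ^ 4
    + (44847559/3375000000:ℝ) * a ^ 5 * (1 - a) ^ 3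
    + (1104603107/27000000000:ℝ) * a ^ 6 * (1 - a) ^ 2
    + (430100837/13500000000:ℝ) * a ^ 7 * (1 - a) ^ 1
    + (6838941277/864000000000:ℝ) * a ^ 8 * (1 - a) ^ 0) by simp only [tapTan1hi]; ring]
  refine neg_nonpos.2 ?_
  positivity

lemma tapTan1hi_seg2 {u : ℝ} (h0 : (17/20:ℝ) ≤ u) (h1 : u ≤ (9/10:ℝ)) : tapTan1hi u ≤ 0 := by
  obtain ⟨a, rfl, ha, ha'⟩ : ∃ a, u = (17/20:ℝ) + (1/20:ℝ) * a ∧ 0 ≤ a ∧ 0 ≤ 1 - a :=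
    ⟨(u - (17/20:ℝ)) / (1/20:ℝ), by ring, by linarith, by linarith⟩
  rw [show tapTan1hi ((17/20:ℝ) + (1/20:ℝ) * a) = -(
    (6838941277/864000000000:ℝ) * a ^ 0 * (1 - a) ^ 8
    + (5118537929/54000000000:ℝ) * a ^ 1 * (1 - a) ^ 7
    + (25996148281/54000000000:ℝ) * a ^ 2 * (1 - a) ^ 6
    + (673790631/500000000:ℝ) * a ^ 3 * (1 - a) ^ 5
    + (4104632083/1800000000:ℝ) * a ^ 4 * (1 - a) ^ 4
    + (599871823/250000000:ℝ) * a ^ 5 * (1 - a) ^ 3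
    + (6929664253/4500000000:ℝ) * a ^ 6 * (1 - a) ^ 2
    + (69144687/125000000:ℝ) * a ^ 7 * (1 - a) ^ 1
    + (1334557/15625000:ℝ) * a ^ 8 * (1 - a) ^ 0) by simp only [tapTan1hi]; ring]
  refine neg_nonpos.2 ?_
  positivity

lemma tapTan1hi_seg3 {u : ℝ} (h0 : (9/10:ℝ) ≤ u) (h1 : u ≤ (1:ℝ)) : tapTan1hi u ≤ 0 := by
  obtain ⟨a, rfl, ha, ha'⟩ : ∃ a, u = (9/10:ℝ) + (1/10:ℝ) * a ∧ 0 ≤ a ∧ 0 ≤ 1 - a :=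
    ⟨(u - (9/10:ℝ)) / (1/10:ℝ), by ring, by linarith, by linarith⟩
  rw [show tapTan1hi ((9/10:ℝ) + (1/10:ℝ) * a) = -(
    (1334557/15625000:ℝ) * a ^ 0 * (1 - a) ^ 8
    + (11794557/12500000:ℝ) * a ^ 1 * (1 - a) ^ 7
    + (200286991/45000000:ℝ) * a ^ 2 * (1 - a) ^ 6
    + (1465951/125000:ℝ) * a ^ 3 * (1 - a) ^ 5
    + (6812363/360000:ℝ) * a ^ 4 * (1 - a) ^ 4
    + (1151491/60000:ℝ) * a ^ 5 * (1 - a) ^ 3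
    + (12930023/1080000:ℝ) * a ^ 6 * (1 - a) ^ 2
    + (227237/54000:ℝ) * a ^ 7 * (1 - a) ^ 1
    + (3451/5400:ℝ) * a ^ 8 * (1 - a) ^ 0) by simp only [tapTan1hi]; ring]
  refine neg_nonpos.2 ?_
  positivity

lemma tapTan1hi_nonpos {u : ℝ} (h0 : (3/5:ℝ) ≤ u) (h1 : u ≤ (1:ℝ)) : tapTan1hi u ≤ 0 := by
  rcases le_total u (4/5:ℝ) with h2 | h2
  ·
    exact tapTan1hi_seg0 h0 h2
  ·
    rcases le_total u (9/10:ℝ) with h4 | h4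
    ·
      rcases le_total u (17/20:ℝ) with h6 | h6
      ·
        exact tapTan1hi_seg1 h2 h6
      ·
        exact tapTan1hi_seg2 h6 h4
    ·
      exact tapTan1hi_seg3 h4 h1

/-- certificate polynomial -/
noncomputable def tapTan2lo (u : ℝ) : ℝ :=
  (-21/4:ℝ) * u ^ 0
  + (175/12:ℝ) * u ^ 2
  + (-21/2:ℝ) * u ^ 4
  + (56/135:ℝ) * u ^ 6
  + (4/45:ℝ) * u ^ 8

lemma tapTan2lo_seg0 {u : ℝ} (h0 : (0:ℝ) ≤ u) (h1 : u ≤ (7/16:ℝ)) : tapTan2lo u ≤ 0 := by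
  obtain ⟨a, rfl, ha, ha'⟩ : ∃ a, u = (0:ℝ) + (7/16:ℝ) * a ∧ 0 ≤ a ∧ 0 ≤ 1 - a :=
    ⟨(u - (0:ℝ)) / (7/16:ℝ), by ring, by linarith, by linarith⟩
  rw [show tapTan2lo ((0:ℝ) + (7/16:ℝ) * a) = -(
    (21/4:ℝ) * a ^ 0 * (1 - a) ^ 8
    + (42:ℝ) * a ^ 1 * (1 - a) ^ 7
    + (443009/3072:ℝ) * a ^ 2 * (1 - a) ^ 6
    + (141953/512:ℝ) * a ^ 3 * (1 - a) ^ 5
    + (42731381/131072:ℝ) * a ^ 4 * (1 - a) ^ 4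
    + (23564639/98304:ℝ) * a ^ 5 * (1 - a) ^ 3
    + (30416534057/283115520:ℝ) * a ^ 6 * (1 - a) ^ 2
    + (3791605097/141557760:ℝ) * a ^ 7 * (1 - a) ^ 1
    + (411717897661/144955146240:ℝ) * a ^ 8 * (1 - a) ^ 0) by simp only [tapTan2lo]; ring]
  refine neg_nonpos.2 ?_
  positivity

lemma tapTan2lo_seg1 {u : ℝ} (h0 : (7/16:ℝ) ≤ u) (h1 : u ≤ (21/32:ℝ)) : tapTan2lo u ≤ 0 := by
  obtain ⟨a, rfl, ha, ha'⟩ : ∃ a, u = (7/16:ℝ) + (7/32:ℝ) * a ∧ 0 ≤ a ∧ 0 ≤ 1 - a :=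
    ⟨(u - (7/16:ℝ)) / (7/32:ℝ), by ring, by linarith, by linarith⟩
  rw [show tapTan2lo ((7/16:ℝ) + (7/32:ℝ) * a) = -(
    (411717897661/144955146240:ℝ) * a ^ 0 * (1 - a) ^ 8
    + (749828240567/36238786560:ℝ) * a ^ 1 * (1 - a) ^ 7
    + (9447874910467/144955146240:ℝ) * a ^ 2 * (1 - a) ^ 6
    + (621651300907/5368709120:ℝ) * a ^ 3 * (1 - a) ^ 5
    + (1088208411521/8589934592:ℝ) * a ^ 4 * (1 - a) ^ 4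
    + (1873459852803/21474836480:ℝ) * a ^ 5 * (1 - a) ^ 3
    + (9496257527323/257698037760:ℝ) * a ^ 6 * (1 - a) ^ 2
    + (748249292749/85899345920:ℝ) * a ^ 7 * (1 - a) ^ 1
    + (1210482682983/1374389534720:ℝ) * a ^ 8 * (1 - a) ^ 0) by simp only [tapTan2lo]; ring]
  refine neg_nonpos.2 ?_
  positivity

lemma tapTan2lo_seg2 {u : ℝ} (h0 : (21/32:ℝ) ≤ u) (h1 : u ≤ (49/64:ℝ)) : tapTan2lo u ≤ 0 := by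
  obtain ⟨a, rfl, ha, ha'⟩ : ∃ a, u = (21/32:ℝ) + (7/64:ℝ) * a ∧ 0 ≤ a ∧ 0 ≤ 1 - a :=
    ⟨(u - (21/32:ℝ)) / (7/64:ℝ), by ring, by linarith, by linarith⟩
  rw [show tapTan2lo ((21/32:ℝ) + (7/64:ℝ) * a) = -(
    (1210482682983/1374389534720:ℝ) * a ^ 0 * (1 - a) ^ 8
    + (2134949463451/343597383680:ℝ) * a ^ 1 * (1 - a) ^ 7
    + (78207435420331/4123168604160:ℝ) * a ^ 2 * (1 - a) ^ 6
    + (44910405930117/1374389534720:ℝ) * a ^ 3 * (1 - a) ^ 5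
    + (76280481297377/2199023255552:ℝ) * a ^ 4 * (1 - a) ^ 4
    + (127496346821389/5497558138880:ℝ) * a ^ 5 * (1 - a) ^ 3
    + (5650375863715891/593736278999040:ℝ) * a ^ 6 * (1 - a) ^ 2
    + (1298681943184913/593736278999040:ℝ) * a ^ 7 * (1 - a) ^ 1
    + (2045926398142333/9499780463984640:ℝ) * a ^ 8 * (1 - a) ^ 0) by simp only [tapTan2lo]; ring]
  refine neg_nonpos.2 ?_
  positivity

lemma tapTan2lo_seg3 {u : ℝ} (h0 : (49/64:ℝ) ≤ u) (h1 : u ≤ (7/8:ℝ)) : tapTan2lo u ≤ 0 := by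
  obtain ⟨a, rfl, ha, ha'⟩ : ∃ a, u = (49/64:ℝ) + (7/64:ℝ) * a ∧ 0 ≤ a ∧ 0 ≤ 1 - a :=
    ⟨(u - (49/64:ℝ)) / (7/64:ℝ), by ring, by linarith, by linarith⟩
  rw [show tapTan2lo ((49/64:ℝ) + (7/64:ℝ) * a) = -(
    (2045926398142333/9499780463984640:ℝ) * a ^ 0 * (1 - a) ^ 8
    + (37362222747871/29686813949952:ℝ) * a ^ 1 * (1 - a) ^ 7
    + (22378918076543/7421703487488:ℝ) * a ^ 2 * (1 - a) ^ 6
    + (8717034485677/2319282339840:ℝ) * a ^ 3 * (1 - a) ^ 5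
    + (588332415755/231928233984:ℝ) * a ^ 4 * (1 - a) ^ 4
    + (31880650333/36238786560:ℝ) * a ^ 5 * (1 - a) ^ 3
    + (313961375/1811939328:ℝ) * a ^ 6 * (1 - a) ^ 2
    + (7555471/113246208:ℝ) * a ^ 7 * (1 - a) ^ 1
    + (12928573/566231040:ℝ) * a ^ 8 * (1 - a) ^ 0) by simp only [tapTan2lo]; ring]
  refine neg_nonpos.2 ?_
  positivity

lemma tapTan2lo_nonpos {u : ℝ} (h0 : (0:ℝ) ≤ u) (h1 : u ≤ (7/8:ℝ)) : tapTan2lo u ≤ 0 := by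
  rcases le_total u (7/16:ℝ) with h2 | h2
  ·
    exact tapTan2lo_seg0 h0 h2
  ·
    rcases le_total u (21/32:ℝ) with h4 | h4
    ·
      exact tapTan2lo_seg1 h2 h4
    ·
      rcases le_total u (49/64:ℝ) with h6 | h6
      ·
        exact tapTan2lo_seg2 h4 h6
      ·
        exact tapTan2lo_seg3 h6 h1

/-- certificate polynomial -/
noncomputable def tapTan2hi (u : ℝ) : ℝ :=
  (161/2:ℝ) * u ^ 0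
  + (-196:ℝ) * u ^ 1
  + (539/9:ℝ) * u ^ 2
  + (1372/9:ℝ) * u ^ 3
  + (-1757/18:ℝ) * u ^ 4
  + (56/135:ℝ) * u ^ 6
  + (4/45:ℝ) * u ^ 8

lemma tapTan2hi_seg0 {u : ℝ} (h0 : (7/8:ℝ) ≤ u) (h1 : u ≤ (1:ℝ)) : tapTan2hi u ≤ 0 := by
  obtain ⟨a, rfl, ha, ha'⟩ : ∃ a, u = (7/8:ℝ) + (1/8:ℝ) * a ∧ 0 ≤ a ∧ 0 ≤ 1 - a :=
    ⟨(u - (7/8:ℝ)) / (1/8:ℝ), by ring, by linarith, by linarith⟩
  rw [show tapTan2hi ((7/8:ℝ) + (1/8:ℝ) * a) = -(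
    (12928573/566231040:ℝ) * a ^ 0 * (1 - a) ^ 8
    + (557683/1769472:ℝ) * a ^ 1 * (1 - a) ^ 7
    + (1159291/884736:ℝ) * a ^ 2 * (1 - a) ^ 6
    + (397537/138240:ℝ) * a ^ 3 * (1 - a) ^ 5
    + (924119/221184:ℝ) * a ^ 4 * (1 - a) ^ 4
    + (152383/34560:ℝ) * a ^ 5 * (1 - a) ^ 3
    + (175/54:ℝ) * a ^ 6 * (1 - a) ^ 2
    + (77/54:ℝ) * a ^ 7 * (1 - a) ^ 1
    + (37/135:ℝ) * a ^ 8 * (1 - a) ^ 0) by simp only [tapTan2hi]; ring]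
  refine neg_nonpos.2 ?_
  positivity

lemma tapTan2hi_nonpos {u : ℝ} (h0 : (7/8:ℝ) ≤ u) (h1 : u ≤ (1:ℝ)) : tapTan2hi u ≤ 0 := by
  exact tapTan2hi_seg0 h0 h1

end Vale.Agent.P150
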