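import Vale.Agent.P150.TapGauss
import Vale.Agent.P150.TapTangent

/-! The TAP inequality: for `β < 1` no profile of positive overlap `q` beats the Sudakov-Fernique bound. -/

namespace Vale.Agent.P150.Tap

open Real MeasureTheory ProbabilityTheory Set Filter

lemma artanh_series_lower {u : ℝ} (hu : |u| < 1) :
    u ^ 2 + (u ^ 2) ^ 2 / 3 + (u ^ 2) ^ 3 / 5 + (u ^ 2) ^ 4 / (7 - 49 / 9 * u ^ 2) ≤ u * artanh u := by
  have hmem : u ∈ Ioo (-1:ℝ) 1 := abs_lt.1 hu
  have hS := hasSum_tanh_mul (artanh u)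
  rw [tanh_artanh hmem] at hS
  set v := u ^ 2
  have hv : 0 ≤ v := sq_nonneg u
  have hv1 : v < 1 := by rw [sq_lt_one_iff_abs_lt_one]; exact hu
  have h := (hasSum_nat_add_iff' 3).2 hS
  have hg := (hasSum_geometric_of_lt_one (r := 7 * v / 9) (by positivity) (by linarith)).mul_left (v ^ 4 / 7)
  have hle := hasSum_le (fun k => ?_) hg h
  · simp [Finset.sum_range_succ] at hle
    norm_num at hle
    have e : v ^ 4 / (7 - 49 / 9 * v) = v ^ 4 / 7 * (1 - 7 * v / 9)⁻¹ := by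
      rw [show 7 - 49 / 9 * v = 7 * (1 - 7 * v / 9) by ring]; field_simp
    linarith
  · have key : ∀ n : ℕ, (7 / 9 : ℝ) ^ n * (2 * n + 7) ≤ 7 := by
      intro n
      induction n with
      | zero => norm_num
      | succ n ih =>
        push_cast
        rw [pow_succ]
        nlinarith [mul_nonneg (pow_nonneg (show (0:ℝ) ≤ 7 / 9 by norm_num) n) (Nat.cast_nonneg (α := ℝ) n)]
    push_cast
    rw [show v ^ 4 / 7 * (7 * v / 9) ^ k = v ^ (k + 3 + 1) * ((7 / 9 : ℝ) ^ k / 7) by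
      rw [show 7 * v / 9 = 7 / 9 * v by ring, mul_pow]; ring]
    rw [show v ^ (k + 3 + 1) / (2 * ((k:ℝ) + 3) + 1) = v ^ (k + 3 + 1) * (1 / (2 * ((k:ℝ) + 3) + 1)) by ring]
    refine mul_le_mul_of_nonneg_left ?_ (by positivity)
    rw [div_le_div_iff₀ (by norm_num) (by positivity)]
    linarith [key k]

/-- tangent bound from the polynomial certificate -/
lemma tangent_bound {b c l a : ℝ} (hb : 0 < b)
    (hlo : ∀ x, 0 ≤ x → x ≤ c / 2 →
      (7 - 49 / 9 * x ^ 2) * (-x ^ 2 - (x ^ 2) ^ 2 / 3 - (x ^ 2) ^ 3 / 5 - l * x ^ 2 - a) - (x ^ 2) ^ 4 ≤ 0)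
    (hhi : ∀ x, c / 2 ≤ x → x ≤ 1 →
      (7 - 49 / 9 * x ^ 2) * ((2 * x - c) ^ 2 / (4 * b) - x ^ 2 - (x ^ 2) ^ 2 / 3 - (x ^ 2) ^ 3 / 5 - l * x ^ 2 - a)
        - (x ^ 2) ^ 4 ≤ 0)
    {u t : ℝ} (hu : |u| < 1) :
    2 * t * u - u * artanh u - l * u ^ 2 ≤ a + b * t ^ 2 + c * |t| := by
  have hL := artanh_series_lower hu
  rw [← sq_abs u] at hL ⊢
  have ht : t * u ≤ |t| * |u| := by rw [← abs_mul]; exact le_abs_self _
  have hT : 0 ≤ |t| := abs_nonneg t
  set x := |u|
  have hx : 0 ≤ x := abs_nonneg u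
  have hD : 0 < 7 - 49 / 9 * x ^ 2 := by nlinarith
  set L := x ^ 2 + (x ^ 2) ^ 2 / 3 + (x ^ 2) ^ 3 / 5 + (x ^ 2) ^ 4 / (7 - 49 / 9 * x ^ 2) with hLdef
  rcases le_total x (c / 2) with hc2 | hc2
  · have h : -L - l * x ^ 2 ≤ a := by
      have h1 := hlo x hx hc2
      have : (7 - 49 / 9 * x ^ 2) * (-L - l * x ^ 2 - a) ≤ 0 := by
        refine (le_of_eq ?_).trans h1
        rw [hLdef]; linear_combination (-1 : ℝ) * mul_div_cancel₀ ((x ^ 2) ^ 4) hD.ne'
      nlinarith
    nlinarith [mul_le_mul_of_nonneg_left (show 2 * x - c ≤ 0 by linarith) hT, mul_nonneg hb.le (sq_nonneg t)]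
  · have h : (2 * x - c) ^ 2 / (4 * b) - L - l * x ^ 2 ≤ a := by
      have h1 := hhi x hc2 hu.le
      have : (7 - 49 / 9 * x ^ 2) * ((2 * x - c) ^ 2 / (4 * b) - L - l * x ^ 2 - a) ≤ 0 := by
        refine (le_of_eq ?_).trans h1
        rw [hLdef]; linear_combination (-1 : ℝ) * mul_div_cancel₀ ((x ^ 2) ^ 4) hD.ne'
      nlinarith
    have hy : (2 * x - c) * |t| - b * |t| ^ 2 ≤ (2 * x - c) ^ 2 / (4 * b) := by
      rw [le_div_iff₀ (by positivity)]
      nlinarith [sq_nonneg (2 * b * |t| - (2 * x - c))]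
    rw [sq_abs] at hy
    nlinarith

lemma integral_abs_gauss : ∫ g, |g| ∂gaussianReal 0 1 ≤ 0.798 := by
  rw [integral_gaussianReal_eq_integral_smul one_ne_zero]
  have e : (fun x : ℝ => gaussianPDFReal 0 1 x • |x|)
      = fun x => (sqrt (2 * π))⁻¹ * ((fun y => y * exp (-(y ^ 2) / 2)) |x|) := by
    funext x
    simp only [gaussianPDFReal_def, smul_eq_mul, sq_abs]
    simp; ring
  rw [e, integral_const_mul, integral_comp_abs (f := fun y : ℝ => y * exp (-(y ^ 2) / 2))]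
  have hd : ∀ y : ℝ, HasDerivAt (fun z => -exp (-(z ^ 2) / 2)) (y * exp (-(y ^ 2) / 2)) y := fun y =>
    ((((hasDerivAt_pow 2 y).neg).div_const 2).exp.neg).congr_deriv (by simp; ring)
  have hlim : Tendsto (fun z : ℝ => -exp (-(z ^ 2) / 2)) atTop (nhds 0) := by
    have h2 : Tendsto (fun z : ℝ => -(z ^ 2) / 2) atTop atBot :=
      (tendsto_neg_atTop_atBot.comp (tendsto_pow_atTop two_ne_zero)).atBot_div_const two_pos
    simpa using (tendsto_exp_atBot.comp h2).neg
  rw [integral_Ioi_of_hasDerivAt_of_nonneg' (fun y _ => hd y)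
    (fun y (hy : 0 < y) => by positivity) hlim]
  have h1 : 2 / 0.798 ≤ sqrt (2 * π) := by
    refine le_sqrt_of_sq_le ?_
    have := pi_gt_d4
    norm_num; linarith
  rw [show (0:ℝ) - -exp (-((0:ℝ) ^ 2) / 2) = 1 by simp, mul_one, inv_mul_le_iff₀ (by positivity)]
  rw [div_le_iff₀ (by norm_num)] at h1
  norm_num at h1 ⊢
  linarith

/-- value of a tangent bound -/
lemma tangent_case {b c l a β q : ℝ} (hb : 0 < b) (hc : 1 ≤ c) (hβ0 : 0 ≤ β) (hβ : β < 1) (hq : 1 / 2 ≤ q)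
    (hq1 : q ≤ 1) (hpt : ∀ u t : ℝ, |u| < 1 → 2 * t * u - u * artanh u - l * u ^ 2 ≤ a + b * t ^ 2 + c * |t|)
    (hphi : a + b * q + c * 0.798 * sqrt q + l * q - q + q ^ 2 < 0) :
    ∃ δ > 0, ∃ Ψ : ℝ → ℝ, Continuous Ψ ∧ Integrable Ψ (gaussianReal 0 1) ∧
      (∀ g u : ℝ, |u| < 1 → 2 * β * sqrt q * g * u - u * artanh u - l * u ^ 2 ≤ Ψ g) ∧
      ∫ g, Ψ g ∂gaussianReal 0 1 + l * q - β ^ 2 * q * (1 - q) ≤ -δ := by
  have hr : 0 ≤ β * sqrt q := mul_nonneg hβ0 (sqrt_nonneg q)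
  have i2 : Integrable (fun g : ℝ => g ^ 2) (gaussianReal 0 1) := (memLp_id_gaussianReal 2).integrable_sq
  have e2 : ∫ g, g ^ 2 ∂gaussianReal 0 1 = 1 := by
    have h := variance_id_gaussianReal (μ := 0) (v := 1)
    rw [variance_eq_integral aemeasurable_id] at h
    simpa using h
  have iA : Integrable (fun g : ℝ => a + (b * (β * sqrt q) ^ 2) * g ^ 2) (gaussianReal 0 1) :=
    (integrable_const a).add (i2.const_mul _)
  refine ⟨-(a + b * q + c * 0.798 * sqrt q + l * q - q + q ^ 2), by linarith,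
    fun g => a + (b * (β * sqrt q) ^ 2) * g ^ 2 + (c * (β * sqrt q)) * |g|, by fun_prop,
    iA.add (int_abs.const_mul _), fun g u hu => ?_, ?_⟩
  · have h := hpt u (β * sqrt q * g) hu
    rw [abs_mul, abs_of_nonneg hr, mul_pow] at h
    linarith
  · rw [integral_add iA (int_abs.const_mul _), integral_add (integrable_const a) (i2.const_mul _),
      integral_const, integral_const_mul, integral_const_mul, e2, probReal_univ, one_smul, mul_pow,
      sq_sqrt (by linarith : (0:ℝ) ≤ q)]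
    have h3 := mul_le_mul_of_nonneg_left integral_abs_gauss (mul_nonneg (by linarith : (0:ℝ) ≤ c) hr)
    have h4 : 0 ≤ (1 - β) * ((1 + β) * q * (b - 1 + q) + c * 0.798 * sqrt q) := by
      refine mul_nonneg (by linarith) ?_
      have hs : 0.7 ≤ sqrt q := le_sqrt_of_sq_le (by norm_num; linarith)
      have hs1 : sqrt q ≤ 1 := sqrt_le_one.2 hq1
      have hsq := sq_sqrt (show 0 ≤ q by linarith)
      have hqs : q ≤ sqrt q := by nlinarith
      have h5 : -(1 / 2 : ℝ) ≤ (1 + β) * q * (b - 1 + q) := by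
        have h7 : (1 + β) * q * (q - 1) ≤ (1 + β) * q * (b - 1 + q) :=
          mul_le_mul_of_nonneg_left (by linarith) (by positivity)
        nlinarith [mul_le_mul_of_nonpos_right (show (1 + β) * q ≤ 2 * q by nlinarith) (sub_nonpos.2 hq1),
          sq_nonneg (q - 1 / 2)]
      have h6 : 0.798 * sqrt q ≤ c * 0.798 * sqrt q :=
        mul_le_mul_of_nonneg_right (by linarith) (sqrt_nonneg q)
      linarith
    linarith

/-- Step A2: a strictly negative Sudakov-Fernique value for every overlap `q > 0` and every `β < 1`. -/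
theorem tap_a2 {β q : ℝ} (hβ0 : 0 ≤ β) (hβ : β < 1) (hq0 : 0 < q) (hq1 : q ≤ 1) :
    ∃ lam : ℝ, ∃ δ > 0, ∃ Ψ : ℝ → ℝ, Continuous Ψ ∧ Integrable Ψ (gaussianReal 0 1) ∧
      (∀ g u : ℝ, |u| < 1 → 2 * β * sqrt q * g * u - u * artanh u - lam * u ^ 2 ≤ Ψ g) ∧
      ∫ g, Ψ g ∂gaussianReal 0 1 + lam * q - β ^ 2 * q * (1 - q) ≤ -δ := by
  rcases eq_or_lt_of_le hβ0 with rfl | hβp
  · refine ⟨-1 / 2, q / 2, by linarith, fun _ => 0, continuous_const, integrable_const _, fun g u hu => ?_, ?_⟩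
    · have hv : (u ^ 2) < 1 := by rw [sq_lt_one_iff_abs_lt_one]; exact hu
      have := artanh_series_lower hu
      have : 0 ≤ (u ^ 2) ^ 4 / (7 - 49 / 9 * u ^ 2) := div_nonneg (by positivity) (by linarith)
      nlinarith [sq_nonneg u, pow_nonneg (sq_nonneg u) 2, pow_nonneg (sq_nonneg u) 3]
    · simp; linarith
  rcases le_total q (1 / 2) with hq | hq
  · have hb : β ^ 2 < 1 := pow_lt_one₀ hβ0 hβ two_ne_zero
    set q' := β ^ 2 * q with hq'def
    have h0 : 0 ≤ q' := by positivity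
    have h1 : q' < 1 / 2 := (mul_lt_of_lt_one_left hq0 hb).trans_le hq
    have hs : sqrt q' = β * sqrt q := by rw [hq'def, sqrt_mul (sq_nonneg β), sqrt_sq hβ0]
    refine ⟨-2 * q', q' * q * (1 - β ^ 2), by have : 0 < q' := (by positivity); have : 0 < 1 - β ^ 2 := (by linarith); positivity,
      fun g => psi q' (sqrt q' * g), ?_, psi_integrable h0 h1 _, fun g u hu => ?_, ?_⟩
    · have hc := continuous_Z h0 h1
      have hU : Continuous fun g => tanh (Z q' (sqrt q' * g)) :=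
        (continuous_U h0 h1).comp (continuous_const.mul continuous_id)
      simp only [psi, fz]; fun_prop
    · have h := fz_le_psi h0 h1 (sqrt q' * g) (artanh u)
      simp only [fz, tanh_artanh (show u ∈ Ioo (-1:ℝ) 1 from abs_lt.1 hu)] at h
      rw [hs] at h ⊢
      linarith
    · have h := psi_expectation_le h0 h1
      unfold Psi at h
      linear_combination h
  · rcases le_total q (3 / 4) with hq' | hq'
    · refine ⟨-8 / 7, tangent_case (b := 1 / 4) (c := 6 / 5) (a := 7 / 400) (by norm_num) (by norm_num) hβ0 hβ hq hq1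
        (fun u t hu => tangent_bound (by norm_num) (fun x h0 h1 => ?_) (fun x h0 h1 => ?_) hu) ?_⟩
      · refine (le_of_eq ?_).trans (tapTan1lo_nonpos (u := x) h0 (by linarith))
        simp only [tapTan1lo]; ring
      · refine (le_of_eq ?_).trans (tapTan1hi_nonpos (u := x) (by linarith) h1)
        simp only [tapTan1hi]; ring
      · have hsq := sq_sqrt hq0.le
        rcases le_total q (5 / 8) with h8 | h8
        · nlinarith [sq_nonneg (sqrt q - 3 / 4), mul_nonneg (sub_nonneg.2 hq) (sub_nonneg.2 h8)]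
        · nlinarith [sq_nonneg (sqrt q - 83 / 100), mul_nonneg (sub_nonneg.2 h8) (sub_nonneg.2 hq')]
    · refine ⟨-5 / 2, tangent_case (b := 1 / 16) (c := 7 / 4) (a := 3 / 4) (by norm_num) (by norm_num) hβ0 hβ hq hq1
        (fun u t hu => tangent_bound (by norm_num) (fun x h0 h1 => ?_) (fun x h0 h1 => ?_) hu) ?_⟩
      · refine (le_of_eq ?_).trans (tapTan2lo_nonpos (u := x) h0 (by linarith))
        simp only [tapTan2lo]; ring
      · refine (le_of_eq ?_).trans (tapTan2hi_nonpos (u := x) (by linarith) h1)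
        simp only [tapTan2hi]; ring
      · have hsq := sq_sqrt hq0.le
        nlinarith [sq_nonneg (sqrt q - 93 / 100), mul_nonneg (sub_nonneg.2 hq') (sub_nonneg.2 hq1)]

end Vale.Agent.P150.Tap
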