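import Mathlib.Tactic

/-! Polynomial certificates for the TAP inequality (exact Bernstein coefficients on boxes). -/

namespace Vale.Agent.P150

/-- certificate polynomial -/
noncomputable def tapRup (q v : ℝ) : ℝ :=
  (-2/3:ℝ) * q ^ 0 * v ^ 2
  + (1/15:ℝ) * q ^ 0 * v ^ 3
  + (-1:ℝ) * q ^ 1 * v ^ 0
  + (26/3:ℝ) * q ^ 1 * v ^ 1
  + (-164/15:ℝ) * q ^ 1 * v ^ 2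
  + (22/5:ℝ) * q ^ 1 * v ^ 3
  + (-2/5:ℝ) * q ^ 1 * v ^ 4
  + (-2/15:ℝ) * q ^ 1 * v ^ 5
  + (-7:ℝ) * q ^ 2 * v ^ 0
  + (23/3:ℝ) * q ^ 2 * v ^ 1
  + (31/5:ℝ) * q ^ 2 * v ^ 2
  + (-49/5:ℝ) * q ^ 2 * v ^ 3
  + (10/3:ℝ) * q ^ 2 * v ^ 4
  + (-2/5:ℝ) * q ^ 2 * v ^ 5
  + (16:ℝ) * q ^ 3 * v ^ 0
  + (-60:ℝ) * q ^ 3 * v ^ 1
  + (84:ℝ) * q ^ 3 * v ^ 2
  + (-52:ℝ) * q ^ 3 * v ^ 3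
  + (12:ℝ) * q ^ 3 * v ^ 4

lemma tapRup_box0 {q v : ℝ} (h0 : (0:ℝ) ≤ q) (h1 : q ≤ (1/8:ℝ)) (g0 : (0:ℝ) ≤ v) (g1 : v ≤ (1/4:ℝ)) :
    tapRup q v ≤ 0 := by
  obtain ⟨a, rfl, ha, ha'⟩ : ∃ a, q = (0:ℝ) + (1/8:ℝ) * a ∧ 0 ≤ a ∧ 0 ≤ 1 - a :=
    ⟨(q - (0:ℝ)) / (1/8:ℝ), by ring, by linarith, by linarith⟩
  obtain ⟨b, rfl, hb, hb'⟩ : ∃ b, v = (0:ℝ) + (1/4:ℝ) * b ∧ 0 ≤ b ∧ 0 ≤ 1 - b :=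
    ⟨(v - (0:ℝ)) / (1/4:ℝ), by ring, by linarith, by linarith⟩
  rw [show tapRup ((0:ℝ) + (1/8:ℝ) * a) ((0:ℝ) + (1/4:ℝ) * b) = -(
    (1/24:ℝ) * a ^ 0 * (1 - a) ^ 3 * b ^ 2 * (1 - b) ^ 3
    + (119/960:ℝ) * a ^ 0 * (1 - a) ^ 3 * b ^ 3 * (1 - b) ^ 2
    + (59/480:ℝ) * a ^ 0 * (1 - a) ^ 3 * b ^ 4 * (1 - b) ^ 1
    + (13/320:ℝ) * a ^ 0 * (1 - a) ^ 3 * b ^ 5 * (1 - b) ^ 0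
    + (1/8:ℝ) * a ^ 1 * (1 - a) ^ 2 * b ^ 0 * (1 - b) ^ 5
    + (17/48:ℝ) * a ^ 1 * (1 - a) ^ 2 * b ^ 1 * (1 - b) ^ 4
    + (181/480:ℝ) * a ^ 1 * (1 - a) ^ 2 * b ^ 2 * (1 - b) ^ 3
    + (313/1280:ℝ) * a ^ 1 * (1 - a) ^ 2 * b ^ 3 * (1 - b) ^ 2
    + (2299/15360:ℝ) * a ^ 1 * (1 - a) ^ 2 * b ^ 4 * (1 - b) ^ 1
    + (1087/20480:ℝ) * a ^ 1 * (1 - a) ^ 2 * b ^ 5 * (1 - b) ^ 0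
    + (23/64:ℝ) * a ^ 2 * (1 - a) ^ 1 * b ^ 0 * (1 - b) ^ 5
    + (941/768:ℝ) * a ^ 2 * (1 - a) ^ 1 * b ^ 1 * (1 - b) ^ 4
    + (8177/5120:ℝ) * a ^ 2 * (1 - a) ^ 1 * b ^ 2 * (1 - b) ^ 3
    + (20797/20480:ℝ) * a ^ 2 * (1 - a) ^ 1 * b ^ 3 * (1 - b) ^ 2
    + (42283/122880:ℝ) * a ^ 2 * (1 - a) ^ 1 * b ^ 4 * (1 - b) ^ 1
    + (1961/32768:ℝ) * a ^ 2 * (1 - a) ^ 1 * b ^ 5 * (1 - b) ^ 0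
    + (13/64:ℝ) * a ^ 3 * (1 - a) ^ 0 * b ^ 0 * (1 - b) ^ 5
    + (381/512:ℝ) * a ^ 3 * (1 - a) ^ 0 * b ^ 1 * (1 - b) ^ 4
    + (32443/30720:ℝ) * a ^ 3 * (1 - a) ^ 0 * b ^ 2 * (1 - b) ^ 3
    + (89581/122880:ℝ) * a ^ 3 * (1 - a) ^ 0 * b ^ 3 * (1 - b) ^ 2
    + (24635/98304:ℝ) * a ^ 3 * (1 - a) ^ 0 * b ^ 4 * (1 - b) ^ 1
    + (601/16384:ℝ) * a ^ 3 * (1 - a) ^ 0 * b ^ 5 * (1 - b) ^ 0) by simp only [tapRup]; ring]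
  refine neg_nonpos.2 ?_
  positivity

lemma tapRup_box1 {q v : ℝ} (h0 : (1/8:ℝ) ≤ q) (h1 : q ≤ (1/4:ℝ)) (g0 : (0:ℝ) ≤ v) (g1 : v ≤ (1/4:ℝ)) :
    tapRup q v ≤ 0 := by
  obtain ⟨a, rfl, ha, ha'⟩ : ∃ a, q = (1/8:ℝ) + (1/8:ℝ) * a ∧ 0 ≤ a ∧ 0 ≤ 1 - a :=
    ⟨(q - (1/8:ℝ)) / (1/8:ℝ), by ring, by linarith, by linarith⟩
  obtain ⟨b, rfl, hb, hb'⟩ : ∃ b, v = (0:ℝ) + (1/4:ℝ) * b ∧ 0 ≤ b ∧ 0 ≤ 1 - b :=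
    ⟨(v - (0:ℝ)) / (1/4:ℝ), by ring, by linarith, by linarith⟩
  rw [show tapRup ((1/8:ℝ) + (1/8:ℝ) * a) ((0:ℝ) + (1/4:ℝ) * b) = -(
    (13/64:ℝ) * a ^ 0 * (1 - a) ^ 3 * b ^ 0 * (1 - b) ^ 5
    + (381/512:ℝ) * a ^ 0 * (1 - a) ^ 3 * b ^ 1 * (1 - b) ^ 4
    + (32443/30720:ℝ) * a ^ 0 * (1 - a) ^ 3 * b ^ 2 * (1 - b) ^ 3
    + (89581/122880:ℝ) * a ^ 0 * (1 - a) ^ 3 * b ^ 3 * (1 - b) ^ 2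
    + (24635/98304:ℝ) * a ^ 0 * (1 - a) ^ 3 * b ^ 4 * (1 - b) ^ 1
    + (601/16384:ℝ) * a ^ 0 * (1 - a) ^ 3 * b ^ 5 * (1 - b) ^ 0
    + (55/64:ℝ) * a ^ 1 * (1 - a) ^ 2 * b ^ 0 * (1 - b) ^ 5
    + (311/96:ℝ) * a ^ 1 * (1 - a) ^ 2 * b ^ 1 * (1 - b) ^ 4
    + (12133/2560:ℝ) * a ^ 1 * (1 - a) ^ 2 * b ^ 2 * (1 - b) ^ 3
    + (4299/1280:ℝ) * a ^ 1 * (1 - a) ^ 2 * b ^ 3 * (1 - b) ^ 2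
    + (284959/245760:ℝ) * a ^ 1 * (1 - a) ^ 2 * b ^ 4 * (1 - b) ^ 1
    + (5251/32768:ℝ) * a ^ 1 * (1 - a) ^ 2 * b ^ 5 * (1 - b) ^ 0
    + (9/8:ℝ) * a ^ 2 * (1 - a) ^ 1 * b ^ 0 * (1 - b) ^ 5
    + (561/128:ℝ) * a ^ 2 * (1 - a) ^ 1 * b ^ 1 * (1 - b) ^ 4
    + (51163/7680:ℝ) * a ^ 2 * (1 - a) ^ 1 * b ^ 2 * (1 - b) ^ 3
    + (50491/10240:ℝ) * a ^ 2 * (1 - a) ^ 1 * b ^ 3 * (1 - b) ^ 2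
    + (43757/24576:ℝ) * a ^ 2 * (1 - a) ^ 1 * b ^ 4 * (1 - b) ^ 1
    + (10399/40960:ℝ) * a ^ 2 * (1 - a) ^ 1 * b ^ 5 * (1 - b) ^ 0
    + (7/16:ℝ) * a ^ 3 * (1 - a) ^ 0 * b ^ 0 * (1 - b) ^ 5
    + (169/96:ℝ) * a ^ 3 * (1 - a) ^ 0 * b ^ 1 * (1 - b) ^ 4
    + (1331/480:ℝ) * a ^ 3 * (1 - a) ^ 0 * b ^ 2 * (1 - b) ^ 3
    + (16399/7680:ℝ) * a ^ 3 * (1 - a) ^ 0 * b ^ 3 * (1 - b) ^ 2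
    + (16483/20480:ℝ) * a ^ 3 * (1 - a) ^ 0 * b ^ 4 * (1 - b) ^ 1
    + (4899/40960:ℝ) * a ^ 3 * (1 - a) ^ 0 * b ^ 5 * (1 - b) ^ 0) by simp only [tapRup]; ring]
  refine neg_nonpos.2 ?_
  positivity

lemma tapRup_box2 {q v : ℝ} (h0 : (0:ℝ) ≤ q) (h1 : q ≤ (1/8:ℝ)) (g0 : (1/4:ℝ) ≤ v) (g1 : v ≤ (1/2:ℝ)) :
    tapRup q v ≤ 0 := by
  obtain ⟨a, rfl, ha, ha'⟩ : ∃ a, q = (0:ℝ) + (1/8:ℝ) * a ∧ 0 ≤ a ∧ 0 ≤ 1 - a :=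
    ⟨(q - (0:ℝ)) / (1/8:ℝ), by ring, by linarith, by linarith⟩
  obtain ⟨b, rfl, hb, hb'⟩ : ∃ b, v = (1/4:ℝ) + (1/4:ℝ) * b ∧ 0 ≤ b ∧ 0 ≤ 1 - b :=
    ⟨(v - (1/4:ℝ)) / (1/4:ℝ), by ring, by linarith, by linarith⟩
  rw [show tapRup ((0:ℝ) + (1/8:ℝ) * a) ((1/4:ℝ) + (1/4:ℝ) * b) = -(
    (13/320:ℝ) * a ^ 0 * (1 - a) ^ 3 * b ^ 0 * (1 - b) ^ 5
    + (17/60:ℝ) * a ^ 0 * (1 - a) ^ 3 * b ^ 1 * (1 - b) ^ 4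
    + (49/64:ℝ) * a ^ 0 * (1 - a) ^ 3 * b ^ 2 * (1 - b) ^ 3
    + (481/480:ℝ) * a ^ 0 * (1 - a) ^ 3 * b ^ 3 * (1 - b) ^ 2
    + (51/80:ℝ) * a ^ 0 * (1 - a) ^ 3 * b ^ 4 * (1 - b) ^ 1
    + (19/120:ℝ) * a ^ 0 * (1 - a) ^ 3 * b ^ 5 * (1 - b) ^ 0
    + (1087/20480:ℝ) * a ^ 1 * (1 - a) ^ 2 * b ^ 0 * (1 - b) ^ 5
    + (11707/30720:ℝ) * a ^ 1 * (1 - a) ^ 2 * b ^ 1 * (1 - b) ^ 4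
    + (8987/7680:ℝ) * a ^ 1 * (1 - a) ^ 2 * b ^ 2 * (1 - b) ^ 3
    + (6697/3840:ℝ) * a ^ 1 * (1 - a) ^ 2 * b ^ 3 * (1 - b) ^ 2
    + (1583/1280:ℝ) * a ^ 1 * (1 - a) ^ 2 * b ^ 4 * (1 - b) ^ 1
    + (643/1920:ℝ) * a ^ 1 * (1 - a) ^ 2 * b ^ 5 * (1 - b) ^ 0
    + (1961/32768:ℝ) * a ^ 2 * (1 - a) ^ 1 * b ^ 0 * (1 - b) ^ 5
    + (62509/245760:ℝ) * a ^ 2 * (1 - a) ^ 1 * b ^ 1 * (1 - b) ^ 4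
    + (20167/30720:ℝ) * a ^ 2 * (1 - a) ^ 1 * b ^ 2 * (1 - b) ^ 3
    + (41/40:ℝ) * a ^ 2 * (1 - a) ^ 1 * b ^ 3 * (1 - b) ^ 2
    + (8183/10240:ℝ) * a ^ 2 * (1 - a) ^ 1 * b ^ 4 * (1 - b) ^ 1
    + (1209/5120:ℝ) * a ^ 2 * (1 - a) ^ 1 * b ^ 5 * (1 - b) ^ 0
    + (601/16384:ℝ) * a ^ 3 * (1 - a) ^ 0 * b ^ 0 * (1 - b) ^ 5
    + (11425/98304:ℝ) * a ^ 3 * (1 - a) ^ 0 * b ^ 1 * (1 - b) ^ 4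
    + (23531/122880:ℝ) * a ^ 3 * (1 - a) ^ 0 * b ^ 2 * (1 - b) ^ 3
    + (1829/7680:ℝ) * a ^ 3 * (1 - a) ^ 0 * b ^ 3 * (1 - b) ^ 2
    + (1877/10240:ℝ) * a ^ 3 * (1 - a) ^ 0 * b ^ 4 * (1 - b) ^ 1
    + (117/2048:ℝ) * a ^ 3 * (1 - a) ^ 0 * b ^ 5 * (1 - b) ^ 0) by simp only [tapRup]; ring]
  refine neg_nonpos.2 ?_
  positivity

lemma tapRup_box3 {q v : ℝ} (h0 : (1/8:ℝ) ≤ q) (h1 : q ≤ (1/4:ℝ)) (g0 : (1/4:ℝ) ≤ v) (g1 : v ≤ (1/2:ℝ)) :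
    tapRup q v ≤ 0 := by
  obtain ⟨a, rfl, ha, ha'⟩ : ∃ a, q = (1/8:ℝ) + (1/8:ℝ) * a ∧ 0 ≤ a ∧ 0 ≤ 1 - a :=
    ⟨(q - (1/8:ℝ)) / (1/8:ℝ), by ring, by linarith, by linarith⟩
  obtain ⟨b, rfl, hb, hb'⟩ : ∃ b, v = (1/4:ℝ) + (1/4:ℝ) * b ∧ 0 ≤ b ∧ 0 ≤ 1 - b :=
    ⟨(v - (1/4:ℝ)) / (1/4:ℝ), by ring, by linarith, by linarith⟩
  rw [show tapRup ((1/8:ℝ) + (1/8:ℝ) * a) ((1/4:ℝ) + (1/4:ℝ) * b) = -(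
    (601/16384:ℝ) * a ^ 0 * (1 - a) ^ 3 * b ^ 0 * (1 - b) ^ 5
    + (11425/98304:ℝ) * a ^ 0 * (1 - a) ^ 3 * b ^ 1 * (1 - b) ^ 4
    + (23531/122880:ℝ) * a ^ 0 * (1 - a) ^ 3 * b ^ 2 * (1 - b) ^ 3
    + (1829/7680:ℝ) * a ^ 0 * (1 - a) ^ 3 * b ^ 3 * (1 - b) ^ 2
    + (1877/10240:ℝ) * a ^ 0 * (1 - a) ^ 3 * b ^ 4 * (1 - b) ^ 1
    + (117/2048:ℝ) * a ^ 0 * (1 - a) ^ 3 * b ^ 5 * (1 - b) ^ 0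
    + (5251/32768:ℝ) * a ^ 1 * (1 - a) ^ 2 * b ^ 0 * (1 - b) ^ 5
    + (54433/122880:ℝ) * a ^ 1 * (1 - a) ^ 2 * b ^ 1 * (1 - b) ^ 4
    + (30259/61440:ℝ) * a ^ 1 * (1 - a) ^ 2 * b ^ 2 * (1 - b) ^ 3
    + (517/1280:ℝ) * a ^ 1 * (1 - a) ^ 2 * b ^ 3 * (1 - b) ^ 2
    + (3079/10240:ℝ) * a ^ 1 * (1 - a) ^ 2 * b ^ 4 * (1 - b) ^ 1
    + (273/2560:ℝ) * a ^ 1 * (1 - a) ^ 2 * b ^ 5 * (1 - b) ^ 0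
    + (10399/40960:ℝ) * a ^ 2 * (1 - a) ^ 1 * b ^ 0 * (1 - b) ^ 5
    + (18637/24576:ℝ) * a ^ 2 * (1 - a) ^ 1 * b ^ 1 * (1 - b) ^ 4
    + (25873/30720:ℝ) * a ^ 2 * (1 - a) ^ 1 * b ^ 2 * (1 - b) ^ 3
    + (1927/3840:ℝ) * a ^ 2 * (1 - a) ^ 1 * b ^ 3 * (1 - b) ^ 2
    + (307/1280:ℝ) * a ^ 2 * (1 - a) ^ 1 * b ^ 4 * (1 - b) ^ 1
    + (583/7680:ℝ) * a ^ 2 * (1 - a) ^ 1 * b ^ 5 * (1 - b) ^ 0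
    + (4899/40960:ℝ) * a ^ 3 * (1 - a) ^ 0 * b ^ 0 * (1 - b) ^ 5
    + (2003/5120:ℝ) * a ^ 3 * (1 - a) ^ 0 * b ^ 1 * (1 - b) ^ 4
    + (1477/3072:ℝ) * a ^ 3 * (1 - a) ^ 0 * b ^ 2 * (1 - b) ^ 3
    + (559/1920:ℝ) * a ^ 3 * (1 - a) ^ 0 * b ^ 3 * (1 - b) ^ 2
    + (271/2560:ℝ) * a ^ 3 * (1 - a) ^ 0 * b ^ 4 * (1 - b) ^ 1
    + (23/960:ℝ) * a ^ 3 * (1 - a) ^ 0 * b ^ 5 * (1 - b) ^ 0) by simp only [tapRup]; ring]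
  refine neg_nonpos.2 ?_
  positivity

lemma tapRup_box4 {q v : ℝ} (h0 : (1/4:ℝ) ≤ q) (h1 : q ≤ (1/2:ℝ)) (g0 : (0:ℝ) ≤ v) (g1 : v ≤ (1/2:ℝ)) :
    tapRup q v ≤ 0 := by
  obtain ⟨a, rfl, ha, ha'⟩ : ∃ a, q = (1/4:ℝ) + (1/4:ℝ) * a ∧ 0 ≤ a ∧ 0 ≤ 1 - a :=
    ⟨(q - (1/4:ℝ)) / (1/4:ℝ), by ring, by linarith, by linarith⟩
  obtain ⟨b, rfl, hb, hb'⟩ : ∃ b, v = (0:ℝ) + (1/2:ℝ) * b ∧ 0 ≤ b ∧ 0 ≤ 1 - b :=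
    ⟨(v - (0:ℝ)) / (1/2:ℝ), by ring, by linarith, by linarith⟩
  rw [show tapRup ((1/4:ℝ) + (1/4:ℝ) * a) ((0:ℝ) + (1/2:ℝ) * b) = -(
    (7/16:ℝ) * a ^ 0 * (1 - a) ^ 3 * b ^ 0 * (1 - b) ^ 5
    + (4/3:ℝ) * a ^ 0 * (1 - a) ^ 3 * b ^ 1 * (1 - b) ^ 4
    + (83/60:ℝ) * a ^ 0 * (1 - a) ^ 3 * b ^ 2 * (1 - b) ^ 3
    + (107/192:ℝ) * a ^ 0 * (1 - a) ^ 3 * b ^ 3 * (1 - b) ^ 2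
    + (353/3840:ℝ) * a ^ 0 * (1 - a) ^ 3 * b ^ 4 * (1 - b) ^ 1
    + (23/960:ℝ) * a ^ 0 * (1 - a) ^ 3 * b ^ 5 * (1 - b) ^ 0
    + (27/16:ℝ) * a ^ 1 * (1 - a) ^ 2 * b ^ 0 * (1 - b) ^ 5
    + (183/32:ℝ) * a ^ 1 * (1 - a) ^ 2 * b ^ 1 * (1 - b) ^ 4
    + (6509/960:ℝ) * a ^ 1 * (1 - a) ^ 2 * b ^ 2 * (1 - b) ^ 3
    + (425/128:ℝ) * a ^ 1 * (1 - a) ^ 2 * b ^ 3 * (1 - b) ^ 2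
    + (301/480:ℝ) * a ^ 1 * (1 - a) ^ 2 * b ^ 4 * (1 - b) ^ 1
    + (49/768:ℝ) * a ^ 1 * (1 - a) ^ 2 * b ^ 5 * (1 - b) ^ 0
    + (7/4:ℝ) * a ^ 2 * (1 - a) ^ 1 * b ^ 0 * (1 - b) ^ 5
    + (169/24:ℝ) * a ^ 2 * (1 - a) ^ 1 * b ^ 1 * (1 - b) ^ 4
    + (2369/240:ℝ) * a ^ 2 * (1 - a) ^ 1 * b ^ 2 * (1 - b) ^ 3
    + (957/160:ℝ) * a ^ 2 * (1 - a) ^ 1 * b ^ 3 * (1 - b) ^ 2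
    + (497/320:ℝ) * a ^ 2 * (1 - a) ^ 1 * b ^ 4 * (1 - b) ^ 1
    + (13/80:ℝ) * a ^ 2 * (1 - a) ^ 1 * b ^ 5 * (1 - b) ^ 0
    + (1/4:ℝ) * a ^ 3 * (1 - a) ^ 0 * b ^ 0 * (1 - b) ^ 5
    + (15/8:ℝ) * a ^ 3 * (1 - a) ^ 0 * b ^ 1 * (1 - b) ^ 4
    + (169/48:ℝ) * a ^ 3 * (1 - a) ^ 0 * b ^ 2 * (1 - b) ^ 3
    + (1271/480:ℝ) * a ^ 3 * (1 - a) ^ 0 * b ^ 3 * (1 - b) ^ 2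
    + (17/20:ℝ) * a ^ 3 * (1 - a) ^ 0 * b ^ 4 * (1 - b) ^ 1
    + (33/320:ℝ) * a ^ 3 * (1 - a) ^ 0 * b ^ 5 * (1 - b) ^ 0) by simp only [tapRup]; ring]
  refine neg_nonpos.2 ?_
  positivity

lemma tapRup_box5 {q v : ℝ} (h0 : (0:ℝ) ≤ q) (h1 : q ≤ (1/4:ℝ)) (g0 : (1/2:ℝ) ≤ v) (g1 : v ≤ (1:ℝ)) :
    tapRup q v ≤ 0 := by
  obtain ⟨a, rfl, ha, ha'⟩ : ∃ a, q = (0:ℝ) + (1/4:ℝ) * a ∧ 0 ≤ a ∧ 0 ≤ 1 - a :=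
    ⟨(q - (0:ℝ)) / (1/4:ℝ), by ring, by linarith, by linarith⟩
  obtain ⟨b, rfl, hb, hb'⟩ : ∃ b, v = (1/2:ℝ) + (1/2:ℝ) * b ∧ 0 ≤ b ∧ 0 ≤ 1 - b :=
    ⟨(v - (1/2:ℝ)) / (1/2:ℝ), by ring, by linarith, by linarith⟩
  rw [show tapRup ((0:ℝ) + (1/4:ℝ) * a) ((1/2:ℝ) + (1/2:ℝ) * b) = -(
    (19/120:ℝ) * a ^ 0 * (1 - a) ^ 3 * b ^ 0 * (1 - b) ^ 5
    + (11/10:ℝ) * a ^ 0 * (1 - a) ^ 3 * b ^ 1 * (1 - b) ^ 4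
    + (71/24:ℝ) * a ^ 0 * (1 - a) ^ 3 * b ^ 2 * (1 - b) ^ 3
    + (77/20:ℝ) * a ^ 0 * (1 - a) ^ 3 * b ^ 3 * (1 - b) ^ 2
    + (73/30:ℝ) * a ^ 0 * (1 - a) ^ 3 * b ^ 4 * (1 - b) ^ 1
    + (3/5:ℝ) * a ^ 0 * (1 - a) ^ 3 * b ^ 5 * (1 - b) ^ 0
    + (187/960:ℝ) * a ^ 1 * (1 - a) ^ 2 * b ^ 0 * (1 - b) ^ 5
    + (9/5:ℝ) * a ^ 1 * (1 - a) ^ 2 * b ^ 1 * (1 - b) ^ 4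
    + (1439/240:ℝ) * a ^ 1 * (1 - a) ^ 2 * b ^ 2 * (1 - b) ^ 3
    + (1081/120:ℝ) * a ^ 1 * (1 - a) ^ 2 * b ^ 3 * (1 - b) ^ 2
    + (94/15:ℝ) * a ^ 1 * (1 - a) ^ 2 * b ^ 4 * (1 - b) ^ 1
    + (33/20:ℝ) * a ^ 1 * (1 - a) ^ 2 * b ^ 5 * (1 - b) ^ 0
    + (307/3840:ℝ) * a ^ 2 * (1 - a) ^ 1 * b ^ 0 * (1 - b) ^ 5
    + (7/8:ℝ) * a ^ 2 * (1 - a) ^ 1 * b ^ 1 * (1 - b) ^ 4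
    + (1469/384:ℝ) * a ^ 2 * (1 - a) ^ 1 * b ^ 2 * (1 - b) ^ 3
    + (1639/240:ℝ) * a ^ 2 * (1 - a) ^ 1 * b ^ 3 * (1 - b) ^ 2
    + (1271/240:ℝ) * a ^ 2 * (1 - a) ^ 1 * b ^ 4 * (1 - b) ^ 1
    + (3/2:ℝ) * a ^ 2 * (1 - a) ^ 1 * b ^ 5 * (1 - b) ^ 0
    + (23/960:ℝ) * a ^ 3 * (1 - a) ^ 0 * b ^ 0 * (1 - b) ^ 5
    + (189/1280:ℝ) * a ^ 3 * (1 - a) ^ 0 * b ^ 1 * (1 - b) ^ 4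
    + (749/960:ℝ) * a ^ 3 * (1 - a) ^ 0 * b ^ 2 * (1 - b) ^ 3
    + (401/240:ℝ) * a ^ 3 * (1 - a) ^ 0 * b ^ 3 * (1 - b) ^ 2
    + (117/80:ℝ) * a ^ 3 * (1 - a) ^ 0 * b ^ 4 * (1 - b) ^ 1
    + (9/20:ℝ) * a ^ 3 * (1 - a) ^ 0 * b ^ 5 * (1 - b) ^ 0) by simp only [tapRup]; ring]
  refine neg_nonpos.2 ?_
  positivity

lemma tapRup_box6 {q v : ℝ} (h0 : (1/4:ℝ) ≤ q) (h1 : q ≤ (1/2:ℝ)) (g0 : (1/2:ℝ) ≤ v) (g1 : v ≤ (3/4:ℝ)) :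
    tapRup q v ≤ 0 := by
  obtain ⟨a, rfl, ha, ha'⟩ : ∃ a, q = (1/4:ℝ) + (1/4:ℝ) * a ∧ 0 ≤ a ∧ 0 ≤ 1 - a :=
    ⟨(q - (1/4:ℝ)) / (1/4:ℝ), by ring, by linarith, by linarith⟩
  obtain ⟨b, rfl, hb, hb'⟩ : ∃ b, v = (1/2:ℝ) + (1/4:ℝ) * b ∧ 0 ≤ b ∧ 0 ≤ 1 - b :=
    ⟨(v - (1/2:ℝ)) / (1/4:ℝ), by ring, by linarith, by linarith⟩
  rw [show tapRup ((1/4:ℝ) + (1/4:ℝ) * a) ((1/2:ℝ) + (1/4:ℝ) * b) = -(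
    (23/960:ℝ) * a ^ 0 * (1 - a) ^ 3 * b ^ 0 * (1 - b) ^ 5
    + (1027/7680:ℝ) * a ^ 0 * (1 - a) ^ 3 * b ^ 1 * (1 - b) ^ 4
    + (773/1920:ℝ) * a ^ 0 * (1 - a) ^ 3 * b ^ 2 * (1 - b) ^ 3
    + (9863/15360:ℝ) * a ^ 0 * (1 - a) ^ 3 * b ^ 3 * (1 - b) ^ 2
    + (7541/15360:ℝ) * a ^ 0 * (1 - a) ^ 3 * b ^ 4 * (1 - b) ^ 1
    + (1161/8192:ℝ) * a ^ 0 * (1 - a) ^ 3 * b ^ 5 * (1 - b) ^ 0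
    + (49/768:ℝ) * a ^ 1 * (1 - a) ^ 2 * b ^ 0 * (1 - b) ^ 5
    + (1267/7680:ℝ) * a ^ 1 * (1 - a) ^ 2 * b ^ 1 * (1 - b) ^ 4
    + (123/320:ℝ) * a ^ 1 * (1 - a) ^ 2 * b ^ 2 * (1 - b) ^ 3
    + (97/120:ℝ) * a ^ 1 * (1 - a) ^ 2 * b ^ 3 * (1 - b) ^ 2
    + (3277/4096:ℝ) * a ^ 1 * (1 - a) ^ 2 * b ^ 4 * (1 - b) ^ 1
    + (11271/40960:ℝ) * a ^ 1 * (1 - a) ^ 2 * b ^ 5 * (1 - b) ^ 0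
    + (13/80:ℝ) * a ^ 2 * (1 - a) ^ 1 * b ^ 0 * (1 - b) ^ 5
    + (283/640:ℝ) * a ^ 2 * (1 - a) ^ 1 * b ^ 1 * (1 - b) ^ 4
    + (63/128:ℝ) * a ^ 2 * (1 - a) ^ 1 * b ^ 2 * (1 - b) ^ 3
    + (119/240:ℝ) * a ^ 2 * (1 - a) ^ 1 * b ^ 3 * (1 - b) ^ 2
    + (709/1536:ℝ) * a ^ 2 * (1 - a) ^ 1 * b ^ 4 * (1 - b) ^ 1
    + (1829/10240:ℝ) * a ^ 2 * (1 - a) ^ 1 * b ^ 5 * (1 - b) ^ 0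
    + (33/320:ℝ) * a ^ 3 * (1 - a) ^ 0 * b ^ 0 * (1 - b) ^ 5
    + (223/640:ℝ) * a ^ 3 * (1 - a) ^ 0 * b ^ 1 * (1 - b) ^ 4
    + (83/192:ℝ) * a ^ 3 * (1 - a) ^ 0 * b ^ 2 * (1 - b) ^ 3
    + (541/1920:ℝ) * a ^ 3 * (1 - a) ^ 0 * b ^ 3 * (1 - b) ^ 2
    + (707/5120:ℝ) * a ^ 3 * (1 - a) ^ 0 * b ^ 4 * (1 - b) ^ 1
    + (89/2048:ℝ) * a ^ 3 * (1 - a) ^ 0 * b ^ 5 * (1 - b) ^ 0) by simp only [tapRup]; ring]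
  refine neg_nonpos.2 ?_
  positivity

lemma tapRup_box7 {q v : ℝ} (h0 : (1/4:ℝ) ≤ q) (h1 : q ≤ (1/2:ℝ)) (g0 : (3/4:ℝ) ≤ v) (g1 : v ≤ (1:ℝ)) :
    tapRup q v ≤ 0 := by
  obtain ⟨a, rfl, ha, ha'⟩ : ∃ a, q = (1/4:ℝ) + (1/4:ℝ) * a ∧ 0 ≤ a ∧ 0 ≤ 1 - a :=
    ⟨(q - (1/4:ℝ)) / (1/4:ℝ), by ring, by linarith, by linarith⟩
  obtain ⟨b, rfl, hb, hb'⟩ : ∃ b, v = (3/4:ℝ) + (1/4:ℝ) * b ∧ 0 ≤ b ∧ 0 ≤ 1 - b :=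
    ⟨(v - (3/4:ℝ)) / (1/4:ℝ), by ring, by linarith, by linarith⟩
  rw [show tapRup ((1/4:ℝ) + (1/4:ℝ) * a) ((3/4:ℝ) + (1/4:ℝ) * b) = -(
    (1161/8192:ℝ) * a ^ 0 * (1 - a) ^ 3 * b ^ 0 * (1 - b) ^ 5
    + (56911/61440:ℝ) * a ^ 0 * (1 - a) ^ 3 * b ^ 1 * (1 - b) ^ 4
    + (3661/1536:ℝ) * a ^ 0 * (1 - a) ^ 3 * b ^ 2 * (1 - b) ^ 3
    + (577/192:ℝ) * a ^ 0 * (1 - a) ^ 3 * b ^ 3 * (1 - b) ^ 2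
    + (297/160:ℝ) * a ^ 0 * (1 - a) ^ 3 * b ^ 4 * (1 - b) ^ 1
    + (9/20:ℝ) * a ^ 0 * (1 - a) ^ 3 * b ^ 5 * (1 - b) ^ 0
    + (11271/40960:ℝ) * a ^ 1 * (1 - a) ^ 2 * b ^ 0 * (1 - b) ^ 5
    + (3997/2048:ℝ) * a ^ 1 * (1 - a) ^ 2 * b ^ 1 * (1 - b) ^ 4
    + (83171/15360:ℝ) * a ^ 1 * (1 - a) ^ 2 * b ^ 2 * (1 - b) ^ 3
    + (2329/320:ℝ) * a ^ 1 * (1 - a) ^ 2 * b ^ 3 * (1 - b) ^ 2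
    + (455/96:ℝ) * a ^ 1 * (1 - a) ^ 2 * b ^ 4 * (1 - b) ^ 1
    + (6/5:ℝ) * a ^ 1 * (1 - a) ^ 2 * b ^ 5 * (1 - b) ^ 0
    + (1829/10240:ℝ) * a ^ 2 * (1 - a) ^ 1 * b ^ 0 * (1 - b) ^ 5
    + (4069/3072:ℝ) * a ^ 2 * (1 - a) ^ 1 * b ^ 1 * (1 - b) ^ 4
    + (5053/1280:ℝ) * a ^ 2 * (1 - a) ^ 1 * b ^ 2 * (1 - b) ^ 3
    + (911/160:ℝ) * a ^ 2 * (1 - a) ^ 1 * b ^ 3 * (1 - b) ^ 2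
    + (473/120:ℝ) * a ^ 2 * (1 - a) ^ 1 * b ^ 4 * (1 - b) ^ 1
    + (21/20:ℝ) * a ^ 2 * (1 - a) ^ 1 * b ^ 5 * (1 - b) ^ 0
    + (89/2048:ℝ) * a ^ 3 * (1 - a) ^ 0 * b ^ 0 * (1 - b) ^ 5
    + (759/2560:ℝ) * a ^ 3 * (1 - a) ^ 0 * b ^ 1 * (1 - b) ^ 4
    + (703/768:ℝ) * a ^ 3 * (1 - a) ^ 0 * b ^ 2 * (1 - b) ^ 3
    + (341/240:ℝ) * a ^ 3 * (1 - a) ^ 0 * b ^ 3 * (1 - b) ^ 2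
    + (127/120:ℝ) * a ^ 3 * (1 - a) ^ 0 * b ^ 4 * (1 - b) ^ 1
    + (3/10:ℝ) * a ^ 3 * (1 - a) ^ 0 * b ^ 5 * (1 - b) ^ 0) by simp only [tapRup]; ring]
  refine neg_nonpos.2 ?_
  positivity

lemma tapRup_nonpos {q v : ℝ} (hq : 0 ≤ q) (hq' : q ≤ 1 / 2) (hv : 0 ≤ v) (hv' : v ≤ 1) : tapRup q v ≤ 0 := by
  rcases le_total v (1/2:ℝ) with h2 | h2
  ·
    rcases le_total q (1/4:ℝ) with h4 | h4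
    ·
      rcases le_total v (1/4:ℝ) with h6 | h6
      ·
        rcases le_total q (1/8:ℝ) with h8 | h8
        ·
          exact tapRup_box0 hq h8 hv h6
        ·
          exact tapRup_box1 h8 h4 hv h6
      ·
        rcases le_total q (1/8:ℝ) with h8 | h8
        ·
          exact tapRup_box2 hq h8 h6 h2
        ·
          exact tapRup_box3 h8 h4 h6 h2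
    ·
      exact tapRup_box4 h4 hq' hv h2
  ·
    rcases le_total q (1/4:ℝ) with h4 | h4
    ·
      exact tapRup_box5 hq h4 h2 hv'
    ·
      rcases le_total v (3/4:ℝ) with h6 | h6
      ·
        exact tapRup_box6 h4 hq' h2 h6
      ·
        exact tapRup_box7 h4 hq' h6 hv'

/-- certificate polynomial -/
noncomputable def tapRlow (q v : ℝ) : ℝ :=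
  (-2/3:ℝ) * q ^ 0 * v ^ 2
  + (1/6:ℝ) * q ^ 0 * v ^ 3
  + (-1:ℝ) * q ^ 1 * v ^ 0
  + (26/3:ℝ) * q ^ 1 * v ^ 1
  + (-34/3:ℝ) * q ^ 1 * v ^ 2
  + (9/2:ℝ) * q ^ 1 * v ^ 3
  + (-1/3:ℝ) * q ^ 1 * v ^ 5
  + (-7:ℝ) * q ^ 2 * v ^ 0
  + (23/3:ℝ) * q ^ 2 * v ^ 1
  + (7:ℝ) * q ^ 2 * v ^ 2
  + (-12:ℝ) * q ^ 2 * v ^ 3
  + (16/3:ℝ) * q ^ 2 * v ^ 4
  + (-1:ℝ) * q ^ 2 * v ^ 5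
  + (16:ℝ) * q ^ 3 * v ^ 0
  + (-60:ℝ) * q ^ 3 * v ^ 1
  + (84:ℝ) * q ^ 3 * v ^ 2
  + (-52:ℝ) * q ^ 3 * v ^ 3
  + (12:ℝ) * q ^ 3 * v ^ 4

lemma tapRlow_box0 {q v : ℝ} (h0 : (0:ℝ) ≤ q) (h1 : q ≤ (1/8:ℝ)) (g0 : (0:ℝ) ≤ v) (g1 : v ≤ (1/4:ℝ)) :
    tapRlow q v ≤ 0 := by
  obtain ⟨a, rfl, ha, ha'⟩ : ∃ a, q = (0:ℝ) + (1/8:ℝ) * a ∧ 0 ≤ a ∧ 0 ≤ 1 - a :=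
    ⟨(q - (0:ℝ)) / (1/8:ℝ), by ring, by linarith, by linarith⟩
  obtain ⟨b, rfl, hb, hb'⟩ : ∃ b, v = (0:ℝ) + (1/4:ℝ) * b ∧ 0 ≤ b ∧ 0 ≤ 1 - b :=
    ⟨(v - (0:ℝ)) / (1/4:ℝ), by ring, by linarith, by linarith⟩
  rw [show tapRlow ((0:ℝ) + (1/8:ℝ) * a) ((0:ℝ) + (1/4:ℝ) * b) = -(
    (1/24:ℝ) * a ^ 0 * (1 - a) ^ 3 * b ^ 2 * (1 - b) ^ 3
    + (47/384:ℝ) * a ^ 0 * (1 - a) ^ 3 * b ^ 3 * (1 - b) ^ 2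
    + (23/192:ℝ) * a ^ 0 * (1 - a) ^ 3 * b ^ 4 * (1 - b) ^ 1
    + (5/128:ℝ) * a ^ 0 * (1 - a) ^ 3 * b ^ 5 * (1 - b) ^ 0
    + (1/8:ℝ) * a ^ 1 * (1 - a) ^ 2 * b ^ 0 * (1 - b) ^ 5
    + (17/48:ℝ) * a ^ 1 * (1 - a) ^ 2 * b ^ 1 * (1 - b) ^ 4
    + (73/192:ℝ) * a ^ 1 * (1 - a) ^ 2 * b ^ 2 * (1 - b) ^ 3
    + (255/1024:ℝ) * a ^ 1 * (1 - a) ^ 2 * b ^ 3 * (1 - b) ^ 2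
    + (229/1536:ℝ) * a ^ 1 * (1 - a) ^ 2 * b ^ 4 * (1 - b) ^ 1
    + (419/8192:ℝ) * a ^ 1 * (1 - a) ^ 2 * b ^ 5 * (1 - b) ^ 0
    + (23/64:ℝ) * a ^ 2 * (1 - a) ^ 1 * b ^ 0 * (1 - b) ^ 5
    + (941/768:ℝ) * a ^ 2 * (1 - a) ^ 1 * b ^ 1 * (1 - b) ^ 4
    + (1641/1024:ℝ) * a ^ 2 * (1 - a) ^ 1 * b ^ 2 * (1 - b) ^ 3
    + (263/256:ℝ) * a ^ 2 * (1 - a) ^ 1 * b ^ 3 * (1 - b) ^ 2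
    + (539/1536:ℝ) * a ^ 2 * (1 - a) ^ 1 * b ^ 4 * (1 - b) ^ 1
    + (3953/65536:ℝ) * a ^ 2 * (1 - a) ^ 1 * b ^ 5 * (1 - b) ^ 0
    + (13/64:ℝ) * a ^ 3 * (1 - a) ^ 0 * b ^ 0 * (1 - b) ^ 5
    + (381/512:ℝ) * a ^ 3 * (1 - a) ^ 0 * b ^ 1 * (1 - b) ^ 4
    + (6503/6144:ℝ) * a ^ 3 * (1 - a) ^ 0 * b ^ 2 * (1 - b) ^ 3
    + (18059/24576:ℝ) * a ^ 3 * (1 - a) ^ 0 * b ^ 3 * (1 - b) ^ 2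
    + (25055/98304:ℝ) * a ^ 3 * (1 - a) ^ 0 * b ^ 4 * (1 - b) ^ 1
    + (2459/65536:ℝ) * a ^ 3 * (1 - a) ^ 0 * b ^ 5 * (1 - b) ^ 0) by simp only [tapRlow]; ring]
  refine neg_nonpos.2 ?_
  positivity

lemma tapRlow_box1 {q v : ℝ} (h0 : (1/8:ℝ) ≤ q) (h1 : q ≤ (1/4:ℝ)) (g0 : (0:ℝ) ≤ v) (g1 : v ≤ (1/4:ℝ)) :
    tapRlow q v ≤ 0 := by
  obtain ⟨a, rfl, ha, ha'⟩ : ∃ a, q = (1/8:ℝ) + (1/8:ℝ) * a ∧ 0 ≤ a ∧ 0 ≤ 1 - a :=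
    ⟨(q - (1/8:ℝ)) / (1/8:ℝ), by ring, by linarith, by linarith⟩
  obtain ⟨b, rfl, hb, hb'⟩ : ∃ b, v = (0:ℝ) + (1/4:ℝ) * b ∧ 0 ≤ b ∧ 0 ≤ 1 - b :=
    ⟨(v - (0:ℝ)) / (1/4:ℝ), by ring, by linarith, by linarith⟩
  rw [show tapRlow ((1/8:ℝ) + (1/8:ℝ) * a) ((0:ℝ) + (1/4:ℝ) * b) = -(
    (13/64:ℝ) * a ^ 0 * (1 - a) ^ 3 * b ^ 0 * (1 - b) ^ 5
    + (381/512:ℝ) * a ^ 0 * (1 - a) ^ 3 * b ^ 1 * (1 - b) ^ 4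
    + (6503/6144:ℝ) * a ^ 0 * (1 - a) ^ 3 * b ^ 2 * (1 - b) ^ 3
    + (18059/24576:ℝ) * a ^ 0 * (1 - a) ^ 3 * b ^ 3 * (1 - b) ^ 2
    + (25055/98304:ℝ) * a ^ 0 * (1 - a) ^ 3 * b ^ 4 * (1 - b) ^ 1
    + (2459/65536:ℝ) * a ^ 0 * (1 - a) ^ 3 * b ^ 5 * (1 - b) ^ 0
    + (55/64:ℝ) * a ^ 1 * (1 - a) ^ 2 * b ^ 0 * (1 - b) ^ 5
    + (311/96:ℝ) * a ^ 1 * (1 - a) ^ 2 * b ^ 1 * (1 - b) ^ 4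
    + (2431/512:ℝ) * a ^ 1 * (1 - a) ^ 2 * b ^ 2 * (1 - b) ^ 3
    + (13851/4096:ℝ) * a ^ 1 * (1 - a) ^ 2 * b ^ 3 * (1 - b) ^ 2
    + (57917/49152:ℝ) * a ^ 1 * (1 - a) ^ 2 * b ^ 4 * (1 - b) ^ 1
    + (10801/65536:ℝ) * a ^ 1 * (1 - a) ^ 2 * b ^ 5 * (1 - b) ^ 0
    + (9/8:ℝ) * a ^ 2 * (1 - a) ^ 1 * b ^ 0 * (1 - b) ^ 5
    + (561/128:ℝ) * a ^ 2 * (1 - a) ^ 1 * b ^ 1 * (1 - b) ^ 4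
    + (10247/1536:ℝ) * a ^ 2 * (1 - a) ^ 1 * b ^ 2 * (1 - b) ^ 3
    + (10153/2048:ℝ) * a ^ 2 * (1 - a) ^ 1 * b ^ 3 * (1 - b) ^ 2
    + (44333/24576:ℝ) * a ^ 2 * (1 - a) ^ 1 * b ^ 4 * (1 - b) ^ 1
    + (2131/8192:ℝ) * a ^ 2 * (1 - a) ^ 1 * b ^ 5 * (1 - b) ^ 0
    + (7/16:ℝ) * a ^ 3 * (1 - a) ^ 0 * b ^ 0 * (1 - b) ^ 5
    + (169/96:ℝ) * a ^ 3 * (1 - a) ^ 0 * b ^ 1 * (1 - b) ^ 4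
    + (533/192:ℝ) * a ^ 3 * (1 - a) ^ 0 * b ^ 2 * (1 - b) ^ 3
    + (6589/3072:ℝ) * a ^ 3 * (1 - a) ^ 0 * b ^ 3 * (1 - b) ^ 2
    + (3333/4096:ℝ) * a ^ 3 * (1 - a) ^ 0 * b ^ 4 * (1 - b) ^ 1
    + (2001/16384:ℝ) * a ^ 3 * (1 - a) ^ 0 * b ^ 5 * (1 - b) ^ 0) by simp only [tapRlow]; ring]
  refine neg_nonpos.2 ?_
  positivity

lemma tapRlow_box2 {q v : ℝ} (h0 : (0:ℝ) ≤ q) (h1 : q ≤ (1/8:ℝ)) (g0 : (1/4:ℝ) ≤ v) (g1 : v ≤ (1/2:ℝ)) :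
    tapRlow q v ≤ 0 := by
  obtain ⟨a, rfl, ha, ha'⟩ : ∃ a, q = (0:ℝ) + (1/8:ℝ) * a ∧ 0 ≤ a ∧ 0 ≤ 1 - a :=
    ⟨(q - (0:ℝ)) / (1/8:ℝ), by ring, by linarith, by linarith⟩
  obtain ⟨b, rfl, hb, hb'⟩ : ∃ b, v = (1/4:ℝ) + (1/4:ℝ) * b ∧ 0 ≤ b ∧ 0 ≤ 1 - b :=
    ⟨(v - (1/4:ℝ)) / (1/4:ℝ), by ring, by linarith, by linarith⟩
  rw [show tapRlow ((0:ℝ) + (1/8:ℝ) * a) ((1/4:ℝ) + (1/4:ℝ) * b) = -(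
    (5/128:ℝ) * a ^ 0 * (1 - a) ^ 3 * b ^ 0 * (1 - b) ^ 5
    + (13/48:ℝ) * a ^ 0 * (1 - a) ^ 3 * b ^ 1 * (1 - b) ^ 4
    + (93/128:ℝ) * a ^ 0 * (1 - a) ^ 3 * b ^ 2 * (1 - b) ^ 3
    + (181/192:ℝ) * a ^ 0 * (1 - a) ^ 3 * b ^ 3 * (1 - b) ^ 2
    + (19/32:ℝ) * a ^ 0 * (1 - a) ^ 3 * b ^ 4 * (1 - b) ^ 1
    + (7/48:ℝ) * a ^ 0 * (1 - a) ^ 3 * b ^ 5 * (1 - b) ^ 0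
    + (419/8192:ℝ) * a ^ 1 * (1 - a) ^ 2 * b ^ 0 * (1 - b) ^ 5
    + (4453/12288:ℝ) * a ^ 1 * (1 - a) ^ 2 * b ^ 1 * (1 - b) ^ 4
    + (1693/1536:ℝ) * a ^ 1 * (1 - a) ^ 2 * b ^ 2 * (1 - b) ^ 3
    + (625/384:ℝ) * a ^ 1 * (1 - a) ^ 2 * b ^ 3 * (1 - b) ^ 2
    + (585/512:ℝ) * a ^ 1 * (1 - a) ^ 2 * b ^ 4 * (1 - b) ^ 1
    + (235/768:ℝ) * a ^ 1 * (1 - a) ^ 2 * b ^ 5 * (1 - b) ^ 0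
    + (3953/65536:ℝ) * a ^ 2 * (1 - a) ^ 1 * b ^ 0 * (1 - b) ^ 5
    + (24799/98304:ℝ) * a ^ 2 * (1 - a) ^ 1 * b ^ 1 * (1 - b) ^ 4
    + (15551/24576:ℝ) * a ^ 2 * (1 - a) ^ 1 * b ^ 2 * (1 - b) ^ 3
    + (3953/4096:ℝ) * a ^ 2 * (1 - a) ^ 1 * b ^ 3 * (1 - b) ^ 2
    + (3029/4096:ℝ) * a ^ 2 * (1 - a) ^ 1 * b ^ 4 * (1 - b) ^ 1
    + (441/2048:ℝ) * a ^ 2 * (1 - a) ^ 1 * b ^ 5 * (1 - b) ^ 0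
    + (2459/65536:ℝ) * a ^ 3 * (1 - a) ^ 0 * b ^ 0 * (1 - b) ^ 5
    + (5915/49152:ℝ) * a ^ 3 * (1 - a) ^ 0 * b ^ 1 * (1 - b) ^ 4
    + (2417/12288:ℝ) * a ^ 3 * (1 - a) ^ 0 * b ^ 2 * (1 - b) ^ 3
    + (2891/12288:ℝ) * a ^ 3 * (1 - a) ^ 0 * b ^ 3 * (1 - b) ^ 2
    + (713/4096:ℝ) * a ^ 3 * (1 - a) ^ 0 * b ^ 4 * (1 - b) ^ 1
    + (27/512:ℝ) * a ^ 3 * (1 - a) ^ 0 * b ^ 5 * (1 - b) ^ 0) by simp only [tapRlow]; ring]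
  refine neg_nonpos.2 ?_
  positivity

lemma tapRlow_box3 {q v : ℝ} (h0 : (1/8:ℝ) ≤ q) (h1 : q ≤ (1/4:ℝ)) (g0 : (1/4:ℝ) ≤ v) (g1 : v ≤ (1/2:ℝ)) :
    tapRlow q v ≤ 0 := by
  obtain ⟨a, rfl, ha, ha'⟩ : ∃ a, q = (1/8:ℝ) + (1/8:ℝ) * a ∧ 0 ≤ a ∧ 0 ≤ 1 - a :=
    ⟨(q - (1/8:ℝ)) / (1/8:ℝ), by ring, by linarith, by linarith⟩
  obtain ⟨b, rfl, hb, hb'⟩ : ∃ b, v = (1/4:ℝ) + (1/4:ℝ) * b ∧ 0 ≤ b ∧ 0 ≤ 1 - b :=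
    ⟨(v - (1/4:ℝ)) / (1/4:ℝ), by ring, by linarith, by linarith⟩
  rw [show tapRlow ((1/8:ℝ) + (1/8:ℝ) * a) ((1/4:ℝ) + (1/4:ℝ) * b) = -(
    (2459/65536:ℝ) * a ^ 0 * (1 - a) ^ 3 * b ^ 0 * (1 - b) ^ 5
    + (5915/49152:ℝ) * a ^ 0 * (1 - a) ^ 3 * b ^ 1 * (1 - b) ^ 4
    + (2417/12288:ℝ) * a ^ 0 * (1 - a) ^ 3 * b ^ 2 * (1 - b) ^ 3
    + (2891/12288:ℝ) * a ^ 0 * (1 - a) ^ 3 * b ^ 3 * (1 - b) ^ 2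
    + (713/4096:ℝ) * a ^ 0 * (1 - a) ^ 3 * b ^ 4 * (1 - b) ^ 1
    + (27/512:ℝ) * a ^ 0 * (1 - a) ^ 3 * b ^ 5 * (1 - b) ^ 0
    + (10801/65536:ℝ) * a ^ 1 * (1 - a) ^ 2 * b ^ 0 * (1 - b) ^ 5
    + (46181/98304:ℝ) * a ^ 1 * (1 - a) ^ 2 * b ^ 1 * (1 - b) ^ 4
    + (13453/24576:ℝ) * a ^ 1 * (1 - a) ^ 2 * b ^ 2 * (1 - b) ^ 3
    + (1829/4096:ℝ) * a ^ 1 * (1 - a) ^ 2 * b ^ 3 * (1 - b) ^ 2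
    + (1249/4096:ℝ) * a ^ 1 * (1 - a) ^ 2 * b ^ 4 * (1 - b) ^ 1
    + (207/2048:ℝ) * a ^ 1 * (1 - a) ^ 2 * b ^ 5 * (1 - b) ^ 0
    + (2131/8192:ℝ) * a ^ 2 * (1 - a) ^ 1 * b ^ 0 * (1 - b) ^ 5
    + (19597/24576:ℝ) * a ^ 2 * (1 - a) ^ 1 * b ^ 1 * (1 - b) ^ 4
    + (5723/6144:ℝ) * a ^ 2 * (1 - a) ^ 1 * b ^ 2 * (1 - b) ^ 3
    + (907/1536:ℝ) * a ^ 2 * (1 - a) ^ 1 * b ^ 3 * (1 - b) ^ 2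
    + (35/128:ℝ) * a ^ 2 * (1 - a) ^ 1 * b ^ 4 * (1 - b) ^ 1
    + (119/1536:ℝ) * a ^ 2 * (1 - a) ^ 1 * b ^ 5 * (1 - b) ^ 0
    + (2001/16384:ℝ) * a ^ 3 * (1 - a) ^ 0 * b ^ 0 * (1 - b) ^ 5
    + (3339/8192:ℝ) * a ^ 3 * (1 - a) ^ 0 * b ^ 1 * (1 - b) ^ 4
    + (3197/6144:ℝ) * a ^ 3 * (1 - a) ^ 0 * b ^ 2 * (1 - b) ^ 3
    + (1027/3072:ℝ) * a ^ 3 * (1 - a) ^ 0 * b ^ 3 * (1 - b) ^ 2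
    + (129/1024:ℝ) * a ^ 3 * (1 - a) ^ 0 * b ^ 4 * (1 - b) ^ 1
    + (41/1536:ℝ) * a ^ 3 * (1 - a) ^ 0 * b ^ 5 * (1 - b) ^ 0) by simp only [tapRlow]; ring]
  refine neg_nonpos.2 ?_
  positivity

lemma tapRlow_box4 {q v : ℝ} (h0 : (1/4:ℝ) ≤ q) (h1 : q ≤ (1/2:ℝ)) (g0 : (0:ℝ) ≤ v) (g1 : v ≤ (1/2:ℝ)) :
    tapRlow q v ≤ 0 := by
  obtain ⟨a, rfl, ha, ha'⟩ : ∃ a, q = (1/4:ℝ) + (1/4:ℝ) * a ∧ 0 ≤ a ∧ 0 ≤ 1 - a :=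
    ⟨(q - (1/4:ℝ)) / (1/4:ℝ), by ring, by linarith, by linarith⟩
  obtain ⟨b, rfl, hb, hb'⟩ : ∃ b, v = (0:ℝ) + (1/2:ℝ) * b ∧ 0 ≤ b ∧ 0 ≤ 1 - b :=
    ⟨(v - (0:ℝ)) / (1/2:ℝ), by ring, by linarith, by linarith⟩
  rw [show tapRlow ((1/4:ℝ) + (1/4:ℝ) * a) ((0:ℝ) + (1/2:ℝ) * b) = -(
    (7/16:ℝ) * a ^ 0 * (1 - a) ^ 3 * b ^ 0 * (1 - b) ^ 5
    + (4/3:ℝ) * a ^ 0 * (1 - a) ^ 3 * b ^ 1 * (1 - b) ^ 4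
    + (67/48:ℝ) * a ^ 0 * (1 - a) ^ 3 * b ^ 2 * (1 - b) ^ 3
    + (229/384:ℝ) * a ^ 0 * (1 - a) ^ 3 * b ^ 3 * (1 - b) ^ 2
    + (91/768:ℝ) * a ^ 0 * (1 - a) ^ 3 * b ^ 4 * (1 - b) ^ 1
    + (41/1536:ℝ) * a ^ 0 * (1 - a) ^ 3 * b ^ 5 * (1 - b) ^ 0
    + (27/16:ℝ) * a ^ 1 * (1 - a) ^ 2 * b ^ 0 * (1 - b) ^ 5
    + (183/32:ℝ) * a ^ 1 * (1 - a) ^ 2 * b ^ 1 * (1 - b) ^ 4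
    + (1309/192:ℝ) * a ^ 1 * (1 - a) ^ 2 * b ^ 2 * (1 - b) ^ 3
    + (111/32:ℝ) * a ^ 1 * (1 - a) ^ 2 * b ^ 3 * (1 - b) ^ 2
    + (287/384:ℝ) * a ^ 1 * (1 - a) ^ 2 * b ^ 4 * (1 - b) ^ 1
    + (131/1536:ℝ) * a ^ 1 * (1 - a) ^ 2 * b ^ 5 * (1 - b) ^ 0
    + (7/4:ℝ) * a ^ 2 * (1 - a) ^ 1 * b ^ 0 * (1 - b) ^ 5
    + (169/24:ℝ) * a ^ 2 * (1 - a) ^ 1 * b ^ 1 * (1 - b) ^ 4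
    + (475/48:ℝ) * a ^ 2 * (1 - a) ^ 1 * b ^ 2 * (1 - b) ^ 3
    + (393/64:ℝ) * a ^ 2 * (1 - a) ^ 1 * b ^ 3 * (1 - b) ^ 2
    + (109/64:ℝ) * a ^ 2 * (1 - a) ^ 1 * b ^ 4 * (1 - b) ^ 1
    + (25/128:ℝ) * a ^ 2 * (1 - a) ^ 1 * b ^ 5 * (1 - b) ^ 0
    + (1/4:ℝ) * a ^ 3 * (1 - a) ^ 0 * b ^ 0 * (1 - b) ^ 5
    + (15/8:ℝ) * a ^ 3 * (1 - a) ^ 0 * b ^ 1 * (1 - b) ^ 4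
    + (169/48:ℝ) * a ^ 3 * (1 - a) ^ 0 * b ^ 2 * (1 - b) ^ 3
    + (259/96:ℝ) * a ^ 3 * (1 - a) ^ 0 * b ^ 3 * (1 - b) ^ 2
    + (29/32:ℝ) * a ^ 3 * (1 - a) ^ 0 * b ^ 4 * (1 - b) ^ 1
    + (15/128:ℝ) * a ^ 3 * (1 - a) ^ 0 * b ^ 5 * (1 - b) ^ 0) by simp only [tapRlow]; ring]
  refine neg_nonpos.2 ?_
  positivity

lemma tapRlow_box5 {q v : ℝ} (h0 : (0:ℝ) ≤ q) (h1 : q ≤ (1/4:ℝ)) (g0 : (1/2:ℝ) ≤ v) (g1 : v ≤ (1:ℝ)) :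
    tapRlow q v ≤ 0 := by
  obtain ⟨a, rfl, ha, ha'⟩ : ∃ a, q = (0:ℝ) + (1/4:ℝ) * a ∧ 0 ≤ a ∧ 0 ≤ 1 - a :=
    ⟨(q - (0:ℝ)) / (1/4:ℝ), by ring, by linarith, by linarith⟩
  obtain ⟨b, rfl, hb, hb'⟩ : ∃ b, v = (1/2:ℝ) + (1/2:ℝ) * b ∧ 0 ≤ b ∧ 0 ≤ 1 - b :=
    ⟨(v - (1/2:ℝ)) / (1/2:ℝ), by ring, by linarith, by linarith⟩
  rw [show tapRlow ((0:ℝ) + (1/4:ℝ) * a) ((1/2:ℝ) + (1/2:ℝ) * b) = -(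
    (7/48:ℝ) * a ^ 0 * (1 - a) ^ 3 * b ^ 0 * (1 - b) ^ 5
    + (1:ℝ) * a ^ 0 * (1 - a) ^ 3 * b ^ 1 * (1 - b) ^ 4
    + (127/48:ℝ) * a ^ 0 * (1 - a) ^ 3 * b ^ 2 * (1 - b) ^ 3
    + (27/8:ℝ) * a ^ 0 * (1 - a) ^ 3 * b ^ 3 * (1 - b) ^ 2
    + (25/12:ℝ) * a ^ 0 * (1 - a) ^ 3 * b ^ 4 * (1 - b) ^ 1
    + (1/2:ℝ) * a ^ 0 * (1 - a) ^ 3 * b ^ 5 * (1 - b) ^ 0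
    + (67/384:ℝ) * a ^ 1 * (1 - a) ^ 2 * b ^ 0 * (1 - b) ^ 5
    + (103/64:ℝ) * a ^ 1 * (1 - a) ^ 2 * b ^ 1 * (1 - b) ^ 4
    + (1021/192:ℝ) * a ^ 1 * (1 - a) ^ 2 * b ^ 2 * (1 - b) ^ 3
    + (755/96:ℝ) * a ^ 1 * (1 - a) ^ 2 * b ^ 3 * (1 - b) ^ 2
    + (257/48:ℝ) * a ^ 1 * (1 - a) ^ 2 * b ^ 4 * (1 - b) ^ 1
    + (11/8:ℝ) * a ^ 1 * (1 - a) ^ 2 * b ^ 5 * (1 - b) ^ 0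
    + (115/1536:ℝ) * a ^ 2 * (1 - a) ^ 1 * b ^ 0 * (1 - b) ^ 5
    + (201/256:ℝ) * a ^ 2 * (1 - a) ^ 1 * b ^ 1 * (1 - b) ^ 4
    + (163/48:ℝ) * a ^ 2 * (1 - a) ^ 1 * b ^ 2 * (1 - b) ^ 3
    + (1145/192:ℝ) * a ^ 2 * (1 - a) ^ 1 * b ^ 3 * (1 - b) ^ 2
    + (217/48:ℝ) * a ^ 2 * (1 - a) ^ 1 * b ^ 4 * (1 - b) ^ 1
    + (5/4:ℝ) * a ^ 2 * (1 - a) ^ 1 * b ^ 5 * (1 - b) ^ 0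
    + (41/1536:ℝ) * a ^ 3 * (1 - a) ^ 0 * b ^ 0 * (1 - b) ^ 5
    + (19/128:ℝ) * a ^ 3 * (1 - a) ^ 0 * b ^ 1 * (1 - b) ^ 4
    + (275/384:ℝ) * a ^ 3 * (1 - a) ^ 0 * b ^ 2 * (1 - b) ^ 3
    + (283/192:ℝ) * a ^ 3 * (1 - a) ^ 0 * b ^ 3 * (1 - b) ^ 2
    + (5/4:ℝ) * a ^ 3 * (1 - a) ^ 0 * b ^ 4 * (1 - b) ^ 1
    + (3/8:ℝ) * a ^ 3 * (1 - a) ^ 0 * b ^ 5 * (1 - b) ^ 0) by simp only [tapRlow]; ring]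
  refine neg_nonpos.2 ?_
  positivity

lemma tapRlow_box6 {q v : ℝ} (h0 : (1/4:ℝ) ≤ q) (h1 : q ≤ (1/2:ℝ)) (g0 : (1/2:ℝ) ≤ v) (g1 : v ≤ (1:ℝ)) :
    tapRlow q v ≤ 0 := by
  obtain ⟨a, rfl, ha, ha'⟩ : ∃ a, q = (1/4:ℝ) + (1/4:ℝ) * a ∧ 0 ≤ a ∧ 0 ≤ 1 - a :=
    ⟨(q - (1/4:ℝ)) / (1/4:ℝ), by ring, by linarith, by linarith⟩
  obtain ⟨b, rfl, hb, hb'⟩ : ∃ b, v = (1/2:ℝ) + (1/2:ℝ) * b ∧ 0 ≤ b ∧ 0 ≤ 1 - b :=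
    ⟨(v - (1/2:ℝ)) / (1/2:ℝ), by ring, by linarith, by linarith⟩
  rw [show tapRlow ((1/4:ℝ) + (1/4:ℝ) * a) ((1/2:ℝ) + (1/2:ℝ) * b) = -(
    (41/1536:ℝ) * a ^ 0 * (1 - a) ^ 3 * b ^ 0 * (1 - b) ^ 5
    + (19/128:ℝ) * a ^ 0 * (1 - a) ^ 3 * b ^ 1 * (1 - b) ^ 4
    + (275/384:ℝ) * a ^ 0 * (1 - a) ^ 3 * b ^ 2 * (1 - b) ^ 3
    + (283/192:ℝ) * a ^ 0 * (1 - a) ^ 3 * b ^ 3 * (1 - b) ^ 2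
    + (5/4:ℝ) * a ^ 0 * (1 - a) ^ 3 * b ^ 4 * (1 - b) ^ 1
    + (3/8:ℝ) * a ^ 0 * (1 - a) ^ 3 * b ^ 5 * (1 - b) ^ 0
    + (131/1536:ℝ) * a ^ 1 * (1 - a) ^ 2 * b ^ 0 * (1 - b) ^ 5
    + (27/256:ℝ) * a ^ 1 * (1 - a) ^ 2 * b ^ 1 * (1 - b) ^ 4
    + (173/192:ℝ) * a ^ 1 * (1 - a) ^ 2 * b ^ 2 * (1 - b) ^ 3
    + (553/192:ℝ) * a ^ 1 * (1 - a) ^ 2 * b ^ 3 * (1 - b) ^ 2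
    + (143/48:ℝ) * a ^ 1 * (1 - a) ^ 2 * b ^ 4 * (1 - b) ^ 1
    + (1:ℝ) * a ^ 1 * (1 - a) ^ 2 * b ^ 5 * (1 - b) ^ 0
    + (25/128:ℝ) * a ^ 2 * (1 - a) ^ 1 * b ^ 0 * (1 - b) ^ 5
    + (1/4:ℝ) * a ^ 2 * (1 - a) ^ 1 * b ^ 1 * (1 - b) ^ 4
    + (21/64:ℝ) * a ^ 2 * (1 - a) ^ 1 * b ^ 2 * (1 - b) ^ 3
    + (163/96:ℝ) * a ^ 2 * (1 - a) ^ 1 * b ^ 3 * (1 - b) ^ 2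
    + (109/48:ℝ) * a ^ 2 * (1 - a) ^ 1 * b ^ 4 * (1 - b) ^ 1
    + (7/8:ℝ) * a ^ 2 * (1 - a) ^ 1 * b ^ 5 * (1 - b) ^ 0
    + (15/128:ℝ) * a ^ 3 * (1 - a) ^ 0 * b ^ 0 * (1 - b) ^ 5
    + (17/64:ℝ) * a ^ 3 * (1 - a) ^ 0 * b ^ 1 * (1 - b) ^ 4
    + (13/96:ℝ) * a ^ 3 * (1 - a) ^ 0 * b ^ 2 * (1 - b) ^ 3
    + (7/24:ℝ) * a ^ 3 * (1 - a) ^ 0 * b ^ 3 * (1 - b) ^ 2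
    + (13/24:ℝ) * a ^ 3 * (1 - a) ^ 0 * b ^ 4 * (1 - b) ^ 1
    + (1/4:ℝ) * a ^ 3 * (1 - a) ^ 0 * b ^ 5 * (1 - b) ^ 0) by simp only [tapRlow]; ring]
  refine neg_nonpos.2 ?_
  positivity

lemma tapRlow_nonpos {q v : ℝ} (hq : 0 ≤ q) (hq' : q ≤ 1 / 2) (hv : 0 ≤ v) (hv' : v ≤ 1) : tapRlow q v ≤ 0 := by
  rcases le_total v (1/2:ℝ) with h2 | h2
  ·
    rcases le_total q (1/4:ℝ) with h4 | h4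
    ·
      rcases le_total v (1/4:ℝ) with h6 | h6
      ·
        rcases le_total q (1/8:ℝ) with h8 | h8
        ·
          exact tapRlow_box0 hq h8 hv h6
        ·
          exact tapRlow_box1 h8 h4 hv h6
      ·
        rcases le_total q (1/8:ℝ) with h8 | h8
        ·
          exact tapRlow_box2 hq h8 h6 h2
        ·
          exact tapRlow_box3 h8 h4 h6 h2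
    ·
      exact tapRlow_box4 h4 hq' hv h2
  ·
    rcases le_total q (1/4:ℝ) with h4 | h4
    ·
      exact tapRlow_box5 hq h4 h2 hv'
    ·
      exact tapRlow_box6 h4 hq' h2 hv'

end Vale.Agent.P150
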