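import Vale.Agent.P150.GaussCalc
import Vale.Agent.P150.TapPoly
import Vale.Agent.P150.TapInv

/-! `E ψ_q(√q g) ≤ q + q²` for `0 ≤ q < 1/2`. -/

namespace Vale.Agent.P150.Tap

open Real MeasureTheory ProbabilityTheory

/-- `u artanh u = ∑ v^(k+1)/(2k+1)`, `u = tanh z`, `v = u²` -/
lemma hasSum_tanh_mul (z : ℝ) :
    HasSum (fun k : ℕ => (tanh z ^ 2) ^ (k + 1) / (2 * k + 1)) (tanh z * z) := by
  have hx : |tanh z| < 1 := abs_tanh_lt_one z
  have h := (hasSum_log_sub_log_of_abs_lt_one hx).mul_left (tanh z / 2)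
  have hz : log (1 + tanh z) - log (1 - tanh z) = 2 * z := by
    rw [abs_lt] at hx
    have e : artanh (tanh z) = z := artanh_tanh z
    rw [artanh, log_sqrt (div_nonneg (by linarith) (by linarith)), log_div (by linarith) (by linarith)] at e
    linarith
  rw [hz, show tanh z / 2 * (2 * z) = tanh z * z by ring] at h
  refine h.congr_fun fun k => ?_
  rw [show 2 * k + 1 = 2 * k + 1 from rfl, pow_succ (tanh z) (2 * k), ← pow_mul,
    show 2 * (k + 1) = 2 * k + 2 by ring, pow_add]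
  ring

lemma tanh_mul_lower (z : ℝ) : tanh z ^ 2 + (tanh z ^ 2) ^ 2 / 3 ≤ tanh z * z := by
  have h := sum_le_hasSum (Finset.range 2) (fun k _ => by positivity) (hasSum_tanh_mul z)
  simp [Finset.sum_range_succ] at h
  norm_num at h ⊢
  linarith

lemma tanh_mul_upper (z : ℝ) :
    tanh z * z ≤ tanh z ^ 2 + (tanh z ^ 2) ^ 2 / 3 + (tanh z ^ 2) ^ 3 / (5 * (1 - tanh z ^ 2)) := by
  obtain ⟨h1, h2⟩ := w_mem z
  set v := tanh z ^ 2
  have h := (hasSum_nat_add_iff' 2).2 (hasSum_tanh_mul z)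
  have hg := (hasSum_geometric_of_lt_one (r := v) (sq_nonneg _) (by linarith)).mul_left (v ^ 3 / 5)
  have hle := hasSum_le (fun k => ?_) h hg
  · simp [Finset.sum_range_succ] at hle
    norm_num at hle
    have : v ^ 3 / (5 * (1 - v)) = v ^ 3 / 5 * (1 - v)⁻¹ := by field_simp
    linarith
  · push_cast
    rw [show v ^ 3 / 5 * v ^ k = v ^ (k + 2 + 1) / 5 by ring]
    gcongr
    linarith [Nat.cast_nonneg (α := ℝ) k]

/-- derivative integrand -/
noncomputable def Hf (q t : ℝ) : ℝ := dU q t + 2 * U q t ^ 2 - 1 - 2 * q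

/-- the same after two Gaussian integrations by parts -/
noncomputable def Pf (q t : ℝ) : ℝ :=
  Hf q t + 4 * q * (t * U q t - q * dU q t)
    - (1 + 3 * q) * (t * U q t ^ 3 - 3 * q * (U q t ^ 2 * dU q t))

lemma cert_eq {s D w c k N m r : ℝ} (hw : w ≠ 0) (hD : D ≠ 0)
    (h : (s + c * D + m * s) * w + k * N * D = r) :
    s / D + c + k * (N / w) + m * (s / D) = r / (w * D) := by
  subst h; field_simp; ring

variable {q : ℝ} (hq : 0 ≤ q) (hq' : q < 1 / 2)
include hq hq'

lemma Pf_nonpos (t : ℝ) : Pf q t ≤ 0 := by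
  set z := Z q t
  have ht : t = tau q z / 2 := by rw [tau_Z hq hq']; ring
  obtain ⟨hw, hw'⟩ := w_mem z
  have hv : 0 ≤ tanh z ^ 2 := sq_nonneg _
  set v := tanh z ^ 2 with hvdef
  have hwt : t * tanh z = (tanh z * z + v / (1 - v) - 4 * q * v) / 2 := by
    rw [ht, tau, hvdef, one_sub_tanh_sq]
    have hc := (cosh_pos z).ne'
    rw [tanh_eq_sinh_div_cosh]; field_simp
  set s := (1 - v) ^ 2 with hs
  have hs1 : s ≤ 1 := pow_le_one₀ hw.le hw'
  have hD : 0 < 1 - 2 * q * s := by nlinarith [mul_le_mul_of_nonneg_left hs1 hq]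
  have hP : Pf q t = s / (1 - 2 * q * s) + 2 * v - 1 - 2 * q + (4 * q - (1 + 3 * q) * v) * (t * tanh z)
      + (3 * (1 + 3 * q) * q * v - 4 * q ^ 2) * (s / (1 - 2 * q * s)) := by
    simp only [Pf, Hf, dU, U, hs, hvdef, z]; ring
  rw [hP, hwt]
  have hom : 1 - v ≠ 0 := hw.ne'
  rcases le_total ((1 + 3 * q) * v) (4 * q) with hk | hk
  · have hX := tanh_mul_upper z
    rw [← hvdef] at hX
    calc _ ≤ s / (1 - 2 * q * s) + 2 * v - 1 - 2 * q + (4 * q - (1 + 3 * q) * v) *
          ((v + v ^ 2 / 3 + v ^ 3 / (5 * (1 - v)) + v / (1 - v) - 4 * q * v) / 2)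
          + (3 * (1 + 3 * q) * q * v - 4 * q ^ 2) * (s / (1 - 2 * q * s)) := by
            have := sub_nonneg.2 hk
            gcongr
      _ = v * tapRup q v / ((1 - v) * (1 - 2 * q * s)) := by
            rw [show (v + v ^ 2 / 3 + v ^ 3 / (5 * (1 - v)) + v / (1 - v) - 4 * q * v) / 2 = (((v + v ^ 2 / 3) * (1 - v) + v ^ 3 / 5 + v - 4 * q * v * (1 - v)) / 2) / (1 - v) by field_simp,
              show ∀ A B : ℝ, A + 2 * v - 1 - 2 * q + B = A + (2 * v - 1 - 2 * q) + B from fun A B => by ring]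
            refine cert_eq hom hD.ne' ?_
            simp only [tapRup, hs]; ring
      _ ≤ 0 := div_nonpos_of_nonpos_of_nonneg
            (mul_nonpos_of_nonneg_of_nonpos hv (tapRup_nonpos hq hq'.le hv (by linarith))) (by positivity)
  · have hX := tanh_mul_lower z
    rw [← hvdef] at hX
    calc _ ≤ s / (1 - 2 * q * s) + 2 * v - 1 - 2 * q + (4 * q - (1 + 3 * q) * v) *
          ((v + v ^ 2 / 3 + v / (1 - v) - 4 * q * v) / 2)
          + (3 * (1 + 3 * q) * q * v - 4 * q ^ 2) * (s / (1 - 2 * q * s)) := by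
            have h1 := mul_le_mul_of_nonpos_left hX (sub_nonpos.2 hk)
            linarith
      _ = v * tapRlow q v / ((1 - v) * (1 - 2 * q * s)) := by
            rw [show (v + v ^ 2 / 3 + v / (1 - v) - 4 * q * v) / 2 = (((v + v ^ 2 / 3) * (1 - v) + v - 4 * q * v * (1 - v)) / 2) / (1 - v) by field_simp,
              show ∀ A B : ℝ, A + 2 * v - 1 - 2 * q + B = A + (2 * v - 1 - 2 * q) + B from fun A B => by ring]
            refine cert_eq hom hD.ne' ?_
            simp only [tapRlow, hs]; ring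
      _ ≤ 0 := div_nonpos_of_nonpos_of_nonneg
            (mul_nonpos_of_nonneg_of_nonpos hv (tapRlow_nonpos hq hq'.le hv (by linarith))) (by positivity)

omit hq in
lemma psi_le (t : ℝ) : psi q t ≤ 2 * |t| := by
  have h1 := tanh_mul_lower (Z q t)
  have h2 : t * tanh (Z q t) ≤ |t| :=
    (le_abs_self _).trans (by rw [abs_mul]; exact mul_le_of_le_one_right (abs_nonneg _) (abs_tanh_lt_one _).le)
  unfold psi fz
  nlinarith [sq_nonneg (tanh (Z q t) ^ 2), mul_le_mul_of_nonneg_right hq'.le (sq_nonneg (tanh (Z q t)))]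

omit hq hq' in
lemma int_abs : Integrable (fun g : ℝ => |g|) (gaussianReal 0 1) :=
  ((memLp_id_gaussianReal 1).integrable le_rfl).abs

lemma psi_integrable (r : ℝ) : Integrable (fun g => psi q (r * g)) (gaussianReal 0 1) := by
  have hc : Continuous (psi q) := by
    have hZ := continuous_Z hq hq'
    have hU : Continuous fun t => tanh (Z q t) := continuous_U hq hq'
    unfold psi fz; fun_prop
  refine (int_abs.const_mul (2 * |r|)).mono' (by fun_prop) (Filter.Eventually.of_forall fun g => ?_)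
  rw [norm_eq_abs, abs_of_nonneg (psi_nonneg hq hq' _)]
  exact (psi_le hq' _).trans (by rw [abs_mul]; linarith)

omit hq hq' in
lemma int_bdd {f : ℝ → ℝ} (hf : Continuous f) {C : ℝ} (h : ∀ g, |f g| ≤ C) :
    Integrable f (gaussianReal 0 1) :=
  Integrable.of_bound hf.aestronglyMeasurable C (Filter.Eventually.of_forall h)

omit hq hq' in
lemma int_lin {f : ℝ → ℝ} (hf : Continuous f) {C : ℝ} (h : ∀ g, |f g| ≤ C) :
    Integrable (fun g => g * f g) (gaussianReal 0 1) :=
  (int_abs.const_mul C).mono' (by fun_prop) (Filter.Eventually.of_forall fun g => by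
    rw [norm_eq_abs, abs_mul, mul_comm C]; exact mul_le_mul_of_nonneg_left (h g) (abs_nonneg _))

/-- continuity and bounds of the integrands -/
lemma basics (r : ℝ) :
    Continuous (fun g => U q (r * g)) ∧ Continuous (fun g => dU q (r * g)) ∧
      (∀ g, |U q (r * g)| ≤ 1) ∧ (∀ g, |U q (r * g) ^ 2| ≤ 1) ∧ (∀ g, |U q (r * g) ^ 3| ≤ 1) ∧
      (∀ g, |dU q (r * g)| ≤ 1 / (1 - 2 * q)) := by
  refine ⟨(continuous_U hq hq').comp (by fun_prop), (continuous_dU hq hq').comp (by fun_prop),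
    fun g => abs_U_le _, fun g => ?_, fun g => ?_, fun g => ?_⟩
  · rw [abs_pow]; exact pow_le_one₀ (abs_nonneg _) (abs_U_le _)
  · rw [abs_pow]; exact pow_le_one₀ (abs_nonneg _) (abs_U_le _)
  · rw [abs_of_nonneg (dU_mem hq hq' _).1]; exact (dU_mem hq hq' _).2

lemma stein_U : ∫ g, g * U q (sqrt q * g) ∂gaussianReal 0 1
    = sqrt q * ∫ g, dU q (sqrt q * g) ∂gaussianReal 0 1 := by
  obtain ⟨hU, hd, bU, -, -, bd⟩ := basics hq hq' (sqrt q)
  have hk : 0 ≤ 1 / (1 - 2 * q) := div_nonneg zero_le_one (by linarith)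
  rw [← integral_const_mul]
  refine stein_one (C := 1 + sqrt q * (1 / (1 - 2 * q))) (M := 0) (fun g => ?_) (hd.const_mul _) (fun g => ?_) (fun g => ?_)
  · exact ((hasDeriv_U hq hq' _).comp g ((hasDerivAt_id g).const_mul (sqrt q))).congr_deriv (by simp; ring)
  · simp only [zero_mul, exp_zero, mul_one]
    linarith [bU g, mul_nonneg (sqrt_nonneg q) hk]
  · simp only [zero_mul, exp_zero, mul_one, abs_mul, abs_of_nonneg (sqrt_nonneg q)]
    linarith [mul_le_mul_of_nonneg_left (bd g) (sqrt_nonneg q)]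

lemma stein_U3 : ∫ g, g * U q (sqrt q * g) ^ 3 ∂gaussianReal 0 1
    = 3 * sqrt q * ∫ g, U q (sqrt q * g) ^ 2 * dU q (sqrt q * g) ∂gaussianReal 0 1 := by
  obtain ⟨hU, hd, bU, bv, b3, bd⟩ := basics hq hq' (sqrt q)
  have hk : 0 ≤ 1 / (1 - 2 * q) := div_nonneg zero_le_one (by linarith)
  rw [← integral_const_mul]
  refine stein_one (C := 1 + 3 * sqrt q * (1 / (1 - 2 * q))) (M := 0) (fun g => ?_) (by fun_prop) (fun g => ?_) (fun g => ?_)
  · exact (((hasDeriv_U hq hq' _).comp g ((hasDerivAt_id g).const_mul (sqrt q))).pow 3).congr_deriv (by simp; ring)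
  · simp only [zero_mul, exp_zero, mul_one]
    linarith [b3 g, mul_nonneg (mul_nonneg (show (0:ℝ) ≤ 3 by norm_num) (sqrt_nonneg q)) hk]
  · simp only [zero_mul, exp_zero, mul_one, abs_mul, abs_of_nonneg (sqrt_nonneg q), abs_of_nonneg (show (0:ℝ) ≤ 3 by norm_num)]
    have := mul_le_mul (bv g) (bd g) (abs_nonneg _) zero_le_one
    linarith [mul_le_mul_of_nonneg_left this (mul_nonneg (show (0:ℝ) ≤ 3 by norm_num) (sqrt_nonneg q))]

lemma Hf_integral_nonpos : ∫ g, Hf q (sqrt q * g) ∂gaussianReal 0 1 ≤ 0 := by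
  obtain ⟨hU, hd, bU, bv, b3, bd⟩ := basics hq hq' (sqrt q)
  set r := sqrt q with hr
  have rr : r * r = q := mul_self_sqrt hq
  have i1 := int_lin hU bU
  have i3 : Integrable (fun g => g * U q (r * g) ^ 3) (gaussianReal 0 1) := int_lin (hU.pow 3) b3
  have id0 := int_bdd hd bd
  have iv : Integrable (fun g => U q (r * g) ^ 2) (gaussianReal 0 1) := int_bdd (hU.pow 2) bv
  have ivd : Integrable (fun g => U q (r * g) ^ 2 * dU q (r * g)) (gaussianReal 0 1) :=
    int_bdd ((hU.pow 2).mul hd) (C := 1 / (1 - 2 * q)) fun g => by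
      rw [abs_mul]; exact (mul_le_of_le_one_left (abs_nonneg _) (bv g)).trans (bd g)
  have iH : Integrable (fun g => Hf q (r * g)) (gaussianReal 0 1) :=
    ((id0.add (iv.const_mul 2)).sub (integrable_const 1)).sub (integrable_const (2 * q))
  have e : (fun g => Pf q (r * g)) = fun g => (Hf q (r * g)
      + ((4 * q * r) * (g * U q (r * g)) - (4 * q * q) * dU q (r * g)))
      - (((1 + 3 * q) * r) * (g * U q (r * g) ^ 3) - ((1 + 3 * q) * (3 * q)) * (U q (r * g) ^ 2 * dU q (r * g))) := by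
    funext g; simp only [Pf]; ring
  have h : ∫ g, Pf q (r * g) ∂gaussianReal 0 1 ≤ 0 := integral_nonpos fun g => Pf_nonpos hq hq' _
  have iA : Integrable (fun g => 4 * q * r * (g * U q (r * g)) - 4 * q * q * dU q (r * g)) (gaussianReal 0 1) :=
    (i1.const_mul _).sub (id0.const_mul _)
  have iB : Integrable (fun g => (1 + 3 * q) * r * (g * U q (r * g) ^ 3)
      - (1 + 3 * q) * (3 * q) * (U q (r * g) ^ 2 * dU q (r * g))) (gaussianReal 0 1) :=
    (i3.const_mul _).sub (ivd.const_mul _)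
  have iC : Integrable (fun g => Hf q (r * g) + (4 * q * r * (g * U q (r * g)) - 4 * q * q * dU q (r * g)))
      (gaussianReal 0 1) := iH.add iA
  rw [e, integral_sub iC iB, integral_add iH iA,
    integral_sub (i1.const_mul _) (id0.const_mul _), integral_sub (i3.const_mul _) (ivd.const_mul _)] at h
  rw [integral_const_mul, integral_const_mul, integral_const_mul, integral_const_mul] at h
  rw [show ∫ g, g * U q (r * g) ∂gaussianReal 0 1 = r * ∫ g, dU q (r * g) ∂gaussianReal 0 1 from stein_U hq hq',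
    show ∫ g, g * U q (r * g) ^ 3 ∂gaussianReal 0 1
      = 3 * r * ∫ g, U q (r * g) ^ 2 * dU q (r * g) ∂gaussianReal 0 1 from stein_U3 hq hq'] at h
  linear_combination h + (-4 * q * ∫ g, dU q (r * g) ∂gaussianReal 0 1) * rr
    + (3 * (1 + 3 * q) * ∫ g, U q (r * g) ^ 2 * dU q (r * g) ∂gaussianReal 0 1) * rr

end Vale.Agent.P150.Tap

namespace Vale.Agent.P150.Tap

open Real MeasureTheory ProbabilityTheory

/-- `E ψ_q(√q g)` -/
noncomputable def Psi (q : ℝ) : ℝ := ∫ g, psi q (sqrt q * g) ∂gaussianReal 0 1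

lemma Psi_step {a b Q : ℝ} (ha : 0 ≤ a) (hab : a ≤ b) (hbQ : b ≤ Q) (hQ : Q < 1 / 2) :
    Psi b - b - b ^ 2 - (Psi a - a - a ^ 2)
      ≤ (sqrt b - sqrt a) ^ 2 * (1 / (1 - 2 * Q)) + (b - a) ^ 2 := by
  have hb : 0 ≤ b := ha.trans hab
  have hb' : b < 1 / 2 := hbQ.trans_lt hQ
  have ha' : a < 1 / 2 := hab.trans_lt hb'
  obtain ⟨hU, hd, bU, bv, -, bd⟩ := basics hb hb' (sqrt b)
  set x := sqrt b
  set y := sqrt a
  have i1 := int_lin hU bU
  have iv : Integrable (fun g => U b (x * g) ^ 2) (gaussianReal 0 1) := int_bdd (hU.pow 2) bv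
  have id0 := int_bdd hd bd
  have pt : ∀ g, psi b (x * g) - psi a (y * g) ≤
      2 * (x - y) * (g * U b (x * g)) + 2 * (b - a) * U b (x * g) ^ 2 := fun g => by
    have h := fz_le_psi ha ha' (y * g) (Z b (x * g))
    have e : psi b (x * g) - fz a (y * g) (Z b (x * g)) =
        2 * (x - y) * (g * U b (x * g)) + 2 * (b - a) * U b (x * g) ^ 2 := by
      simp only [psi, fz, U]; ring
    linarith
  have h := integral_mono ((psi_integrable hb hb' x).sub (psi_integrable ha ha' y))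
    ((i1.const_mul (2 * (x - y))).add (iv.const_mul (2 * (b - a)))) pt
  simp only [Pi.sub_apply, Pi.add_apply] at h
  rw [integral_sub (psi_integrable hb hb' x) (psi_integrable ha ha' y),
    integral_add (i1.const_mul _) (iv.const_mul _), integral_const_mul, integral_const_mul] at h
  have hH := Hf_integral_nonpos hb hb'
  rw [show (fun g => Hf b (x * g)) = fun g => (dU b (x * g) + 2 * U b (x * g) ^ 2) - (1 + 2 * b) by
      funext g; simp only [Hf]; ring] at hH
  have iD : Integrable (fun g => dU b (x * g) + 2 * U b (x * g) ^ 2) (gaussianReal 0 1) := id0.add (iv.const_mul 2)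
  rw [integral_sub iD (integrable_const _),
    integral_add id0 (iv.const_mul 2), integral_const_mul, integral_const] at hH
  simp only [probReal_univ, one_smul] at hH
  have hs := stein_U hb hb'
  have hM : ∫ g, dU b (x * g) ∂gaussianReal 0 1 ≤ 1 / (1 - 2 * Q) := by
    refine (integral_mono id0 (integrable_const (1 / (1 - 2 * Q))) fun g => ?_).trans (by simp)
    exact (dU_mem hb hb' _).2.trans (one_div_le_one_div_of_le (by linarith) (by linarith))
  have h0 : 0 ≤ ∫ g, dU b (x * g) ∂gaussianReal 0 1 := integral_nonneg fun g => (dU_mem hb hb' _).1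
  rw [hs] at h
  have e2 : 2 * (x - y) * x = (b - a) + (x - y) ^ 2 := by
    linear_combination mul_self_sqrt hb - mul_self_sqrt ha
  unfold Psi
  nlinarith [mul_le_mul_of_nonneg_left hH (sub_nonneg.2 hab), mul_le_mul_of_nonneg_left hM (sq_nonneg (x - y))]

theorem psi_expectation_le {Q : ℝ} (hQ0 : 0 ≤ Q) (hQ : Q < 1 / 2) : Psi Q ≤ Q + Q ^ 2 := by
  have h0 : Psi 0 ≤ 0 := by
    refine integral_nonpos fun g => ?_
    have := tanh_mul_lower (Z 0 0)
    simp only [psi, fz, sqrt_zero, zero_mul, mul_zero, Pi.zero_apply]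
    nlinarith [sq_nonneg (tanh (Z 0 0)), sq_nonneg (tanh (Z 0 0) ^ 2)]
  set M := 1 / (1 - 2 * Q)
  have hM : 0 ≤ M := div_nonneg zero_le_one (by linarith)
  refine le_of_forall_pos_le_add fun ε hε => ?_
  obtain ⟨n, hn⟩ := exists_nat_gt ((Q * M + 4 * Q ^ 2) / ε)
  have hn0 : (0:ℝ) < n := lt_of_le_of_lt (by positivity) hn
  have key : ∀ i : ℕ, i ≤ n → Psi (Q * ((i:ℝ) / n) ^ 2) - Q * ((i:ℝ) / n) ^ 2 - (Q * ((i:ℝ) / n) ^ 2) ^ 2
      ≤ i * ((Q * M + 4 * Q ^ 2) / n ^ 2) := by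
    intro i
    induction i with
    | zero => intro _; simpa using h0
    | succ i ih =>
      intro hi
      have hin : (i:ℝ) + 1 ≤ n := by exact_mod_cast hi
      have h1 : ((i:ℝ) + 1) / n ≤ 1 := (div_le_one hn0).2 hin
      have h2 : (i:ℝ) / n ≤ ((i:ℝ) + 1) / n := by gcongr; linarith
      have hi0 : 0 ≤ (i:ℝ) / n := by positivity
      have hs := Psi_step (a := Q * ((i:ℝ) / n) ^ 2) (b := Q * (((i:ℝ) + 1) / n) ^ 2) (Q := Q) (by positivity)
        (by gcongr) (mul_le_of_le_one_right hQ0 (pow_le_one₀ (hi0.trans h2) h1)) hQ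
      rw [sqrt_mul hQ0, sqrt_sq (hi0.trans h2), sqrt_mul hQ0, sqrt_sq hi0] at hs
      have e1 : (sqrt Q * (((i:ℝ) + 1) / n) - sqrt Q * ((i:ℝ) / n)) ^ 2 = Q / n ^ 2 := by
        rw [← mul_sub, ← sub_div, mul_pow, sq_sqrt hQ0]; ring
      have e2 : (Q * (((i:ℝ) + 1) / n) ^ 2 - Q * ((i:ℝ) / n) ^ 2) ^ 2 ≤ 4 * Q ^ 2 / n ^ 2 := by
        rw [show Q * (((i:ℝ) + 1) / n) ^ 2 - Q * ((i:ℝ) / n) ^ 2 =
          (Q / n) * (((i:ℝ) + 1) / n + (i:ℝ) / n) by ring, mul_pow, div_pow]
        have : (((i:ℝ) + 1) / n + (i:ℝ) / n) ^ 2 ≤ 4 :=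
          (pow_le_pow_left₀ (by positivity) (show _ ≤ (2:ℝ) by linarith) 2).trans (by norm_num)
        exact (mul_le_mul_of_nonneg_left this (by positivity)).trans (le_of_eq (by ring))
      rw [e1] at hs
      have := ih (Nat.le_of_succ_le hi)
      push_cast
      linear_combination this + hs + e2
  have h := key n le_rfl
  rw [div_self hn0.ne', one_pow, mul_one] at h
  have hε' : (n:ℝ) * ((Q * M + 4 * Q ^ 2) / n ^ 2) ≤ ε := by
    rw [div_lt_iff₀ hε] at hn
    rw [show (n:ℝ) * ((Q * M + 4 * Q ^ 2) / n ^ 2) = (Q * M + 4 * Q ^ 2) / n by field_simp, div_le_iff₀ hn0]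
    linarith
  linarith

end Vale.Agent.P150.Tap
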