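import Vale.Agent.P150.TapSupTools
import Vale.Agent.P150.TapA2

/-!
The TAP functional is negative on profiles of positive overlap, for every `β < 1`, with exponential probability.
-/

open MeasureTheory ProbabilityTheory Real Set

namespace Vale.Agent.P150

variable {n : ℕ}

/-- `∑ u artanh u` -/
noncomputable def profilePenalty (m : Fin n → ℝ) : ℝ := ∑ i, m i * artanh (m i)

/-- the TAP functional `m·Jm - β²(1-q) q n - ∑ m artanh m` -/
noncomputable def tapFun (β : ℝ) (g : Edge n → ℝ) (m : Fin n → ℝ) : ℝ :=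
  β * profileForm g m - β ^ 2 * profileQ m * (1 - profileQ m) * n - profilePenalty m

lemma artanh_odd {u : ℝ} (hu : |u| < 1) : artanh (-u) = -artanh u := by
  conv_lhs => rw [← tanh_artanh (show u ∈ Ioo (-1:ℝ) 1 from abs_lt.1 hu), ← tanh_neg, artanh_tanh]

lemma mul_artanh_abs {u : ℝ} (hu : |u| < 1) : u * artanh u = |u| * artanh |u| := by
  rcases le_total 0 u with h | h
  · rw [abs_of_nonneg h]
  · rw [abs_of_nonpos h, artanh_odd hu, neg_mul_neg]

lemma mul_artanh_mono {u v : ℝ} (huv : |u| ≤ |v|) (hv : |v| < 1) : u * artanh u ≤ v * artanh v := by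
  rw [mul_artanh_abs (huv.trans_lt hv), mul_artanh_abs hv]
  have h := abs_nonneg u
  exact mul_le_mul huv (artanh_le_artanh (by linarith) hv huv) (artanh_nonneg h) (abs_nonneg v)

lemma mul_artanh_nonneg {u : ℝ} (hu : |u| < 1) : 0 ≤ u * artanh u := by
  rw [mul_artanh_abs hu]; exact mul_nonneg (abs_nonneg u) (artanh_nonneg (abs_nonneg u))

/-- the grid `{j/K : |j| < K}` -/
noncomputable def cubeVals (K : ℕ) : Finset ℝ := (Finset.Icc (-(K:ℤ) + 1) (K - 1)).image fun j : ℤ => (j:ℝ) / K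

lemma cubeVals_card (K : ℕ) : (cubeVals K).card ≤ 2 * K := by
  refine Finset.card_image_le.trans ?_
  rw [Int.card_Icc]
  omega

lemma cubeVals_abs {K : ℕ} (hK : 0 < K) {x : ℝ} (hx : x ∈ cubeVals K) : |x| ≤ 1 - 1 / K := by
  simp only [cubeVals, Finset.mem_image, Finset.mem_Icc] at hx
  obtain ⟨j, ⟨h1, h2⟩, rfl⟩ := hx
  have hK' : (0:ℝ) < K := by exact_mod_cast hK
  have h1' : -(K:ℝ) + 1 ≤ j := by exact_mod_cast h1
  have h2' : (j:ℝ) ≤ K - 1 := by exact_mod_cast h2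
  rw [abs_div, abs_of_pos hK', div_le_iff₀ hK', sub_mul, one_div, inv_mul_cancel₀ hK'.ne', one_mul, abs_le]
  constructor <;> linarith

/-- rounding toward zero -/
lemma exists_round {K : ℕ} (hK : 0 < K) {u : ℝ} (hu : |u| < 1) :
    ∃ v ∈ cubeVals K, |v| ≤ |u| ∧ |u - v| ≤ 1 / K := by
  have hK' : (0:ℝ) < K := by exact_mod_cast hK
  set j : ℤ := ⌊|u| * K⌋
  have hj0 : 0 ≤ j := Int.floor_nonneg.2 (by positivity)
  have hjK : j ≤ (K:ℤ) - 1 := by
    have : j < (K:ℤ) := Int.floor_lt.2 (by push_cast; exact mul_lt_of_lt_one_left hK' hu)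
    omega
  have h1 : (j:ℝ) / K ≤ |u| := (div_le_iff₀ hK').2 (Int.floor_le _)
  have h2 : |u| ≤ (j:ℝ) / K + 1 / K := by
    rw [← add_div, le_div_iff₀ hK']; exact (Int.lt_floor_add_one _).le
  have h3 : (0:ℝ) ≤ (j:ℝ) / K := div_nonneg (by exact_mod_cast hj0) hK'.le
  rcases le_total 0 u with h | h
  · rw [abs_of_nonneg h] at h1 h2
    refine ⟨(j:ℝ) / K, Finset.mem_image.2 ⟨j, Finset.mem_Icc.2 ⟨by omega, hjK⟩, rfl⟩, ?_, ?_⟩
    · rwa [abs_of_nonneg h3, abs_of_nonneg h]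
    · rw [abs_le]; constructor <;> linarith
  · rw [abs_of_nonpos h] at h1 h2
    refine ⟨((-j : ℤ):ℝ) / K, Finset.mem_image.2 ⟨-j, Finset.mem_Icc.2 ⟨by omega, by omega⟩, rfl⟩, ?_, ?_⟩
    · rw [Int.cast_neg, neg_div, abs_neg, abs_of_nonneg h3, abs_of_nonpos h]; linarith
    · rw [Int.cast_neg, neg_div, abs_le]; constructor <;> linarith

/-- change of the quadratic form between nearby points of the cube -/
lemma quad_diff_le {J : Fin n → Fin n → ℝ} {M : ℝ} (hM : 0 ≤ M)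
    (hb : ∀ v : Fin n → ℝ, |∑ i, ∑ j, J i j * (v i * v j)| ≤ M * ∑ i, v i ^ 2) {η : ℝ} (hη : 0 < η)
    (x y : Fin n → ℝ) (hx : ∀ i, |x i| ≤ 1) (hy : ∀ i, |y i| ≤ 1) (hxy : ∀ i, |x i - y i| ≤ η) :
    (∑ i, ∑ j, J i j * (x i * x j)) - ∑ i, ∑ j, J i j * (y i * y j) ≤ 3 * M * η * n := by
  set B := fun v : Fin n → ℝ => ∑ i, ∑ j, J i j * (v i * v j) with hB
  set p := fun i => x i - y i with hp
  set s := fun i => η * (x i + y i) with hs'
  have e : B (fun i => p i + s i) - B (fun i => p i - s i) = 4 * η * (B x - B y) := by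
    simp only [hB, hp, hs', mul_sub, Finset.mul_sum, ← Finset.sum_sub_distrib]
    exact Finset.sum_congr rfl fun i _ => Finset.sum_congr rfl fun j _ => by ring
  have h1 := (abs_le.1 (hb fun i => p i + s i)).2
  have h2 := (abs_le.1 (hb fun i => p i - s i)).1
  have h3 : ∑ i, (p i + s i) ^ 2 + ∑ i, (p i - s i) ^ 2 ≤ n * (10 * η ^ 2) := by
    rw [← Finset.sum_add_distrib]
    refine (Finset.sum_le_card_nsmul _ _ (10 * η ^ 2) fun i _ => ?_).trans (by simp)
    have a1 : p i ^ 2 ≤ η ^ 2 := sq_le_sq.2 (by rw [abs_of_pos hη]; exact hxy i)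
    have a2 : (x i + y i) ^ 2 ≤ 4 := by
      have := abs_le.1 (hx i); have := abs_le.1 (hy i); nlinarith
    calc (p i + s i) ^ 2 + (p i - s i) ^ 2 = 2 * p i ^ 2 + 2 * η ^ 2 * (x i + y i) ^ 2 := by simp only [hs']; ring
      _ ≤ _ := by linarith [mul_le_mul_of_nonneg_left a2 (by positivity : 0 ≤ 2 * η ^ 2)]
  have h4 := mul_le_mul_of_nonneg_left h3 hM
  have h5 : 4 * η * (B x - B y) ≤ 4 * η * (3 * M * η * n) := by
    have : 0 ≤ M * (n * (2 * η ^ 2)) := by positivity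
    simp only [hB] at e h1 h2 ⊢
    linarith
  exact le_of_mul_le_mul_left h5 (by positivity)

lemma exp_sub_le (y : ℝ) : exp y ≤ 1 + y + y ^ 2 * exp |y| := by
  have he : 1 ≤ exp |y| := one_le_exp (abs_nonneg y)
  rcases le_total |y| 1 with h | h
  · have := (abs_le.1 (abs_exp_sub_one_sub_id_le h)).2
    nlinarith [sq_nonneg y]
  · rcases le_total 0 y with h0 | h0
    · rw [abs_of_nonneg h0] at h ⊢
      linarith [le_mul_of_one_le_left (exp_pos y).le (one_le_pow₀ (n := 2) h)]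
    · have h1 : exp y ≤ 1 := exp_le_one_iff.2 h0
      rw [abs_of_nonpos h0] at h he ⊢
      nlinarith [mul_le_mul_of_nonneg_left he (sq_nonneg y)]

/-- exponential moments of a function of quadratic growth -/
lemma exp_moment {Ψ : ℝ → ℝ} (hc : Continuous Ψ) {K d : ℝ} (hK : 0 ≤ K) (hd : 0 < d)
    (hb : ∀ g, |Ψ g| ≤ K * (1 + g ^ 2)) :
    ∃ σ > 0, Integrable (fun g => exp (σ * Ψ g)) (gaussianReal 0 1) ∧
      ∫ g, exp (σ * Ψ g) ∂gaussianReal 0 1 ≤ exp (σ * (∫ g, Ψ g ∂gaussianReal 0 1 + d)) := by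
  set s := 1 / (8 * (K + 1)) with hsdef
  have hs : 0 < s := by positivity
  have hsK : 2 * s * K < 1 / 2 := by
    rw [hsdef, show 2 * (1 / (8 * (K + 1))) * K = 2 * K / (8 * (K + 1)) by ring, div_lt_iff₀ (by positivity)]; linarith
  obtain ⟨hi, -⟩ := integral_exp_mul_sq hsK
  set F := fun g : ℝ => 2 / s ^ 2 * exp (2 * s * K) * exp (2 * s * K * g ^ 2) with hF
  have hFi : Integrable F (gaussianReal 0 1) := hi.const_mul _
  set M := ∫ g, F g ∂gaussianReal 0 1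
  have hM : 0 ≤ M := integral_nonneg fun g => by simp only [hF]; positivity
  set σ := min s (d / (M + 1)) with hσdef
  have hσ : 0 < σ := lt_min hs (by positivity)
  have hpt : ∀ g, exp (σ * Ψ g) ≤ 1 + σ * Ψ g + σ ^ 2 * F g := fun g => by
    refine (exp_sub_le _).trans ?_
    rw [mul_pow, abs_mul, abs_of_pos hσ, mul_assoc (σ ^ 2)]
    refine add_le_add le_rfl (mul_le_mul_of_nonneg_left ?_ (sq_nonneg σ))
    set x := s * |Ψ g| with hx
    have hx0 : 0 ≤ x := mul_nonneg hs.le (abs_nonneg _)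
    have h1 : x ^ 2 ≤ 2 * exp x := by linarith [quadratic_le_exp_of_nonneg hx0]
    have h2 : exp (σ * |Ψ g|) ≤ exp x := exp_le_exp.2 (mul_le_mul_of_nonneg_right (min_le_left _ _) (abs_nonneg _))
    have h3 : exp (2 * x) ≤ exp (2 * s * K) * exp (2 * s * K * g ^ 2) := by
      rw [← exp_add]
      refine exp_le_exp.2 ?_
      have := mul_le_mul_of_nonneg_left (hb g) (by positivity : (0:ℝ) ≤ 2 * s)
      linarith
    rw [show Ψ g ^ 2 = x ^ 2 / s ^ 2 by rw [hx, mul_pow, sq_abs]; field_simp, div_mul_eq_mul_div,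
      div_le_iff₀ (by positivity), show F g * s ^ 2 = 2 * (exp (2 * s * K) * exp (2 * s * K * g ^ 2)) by
        simp only [hF]; field_simp]
    refine (mul_le_mul h1 h2 (exp_pos _).le (by positivity)).trans ?_
    rw [mul_assoc, ← exp_add, ← two_mul]
    linarith
  have hΨ : Integrable Ψ (gaussianReal 0 1) := (((integrable_const (1:ℝ)).add (memLp_id_gaussianReal 2).integrable_sq).const_mul K).mono'
    hc.aestronglyMeasurable (Filter.Eventually.of_forall fun g => by simpa using hb g)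
  have hR : Integrable (fun g => 1 + σ * Ψ g + σ ^ 2 * F g) (gaussianReal 0 1) :=
    ((integrable_const _).add (hΨ.const_mul σ)).add (hFi.const_mul _)
  have hI : Integrable (fun g => exp (σ * Ψ g)) (gaussianReal 0 1) :=
    hR.mono' (by fun_prop) (Filter.Eventually.of_forall fun g => by rw [norm_eq_abs, abs_exp]; exact hpt g)
  refine ⟨σ, hσ, hI, (integral_mono hI hR hpt).trans ?_⟩
  have e1 : Integrable (fun g => 1 + σ * Ψ g) (gaussianReal 0 1) := (integrable_const _).add (hΨ.const_mul σ)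
  rw [integral_add e1 (hFi.const_mul _), integral_add (integrable_const _) (hΨ.const_mul σ),
    integral_const, probReal_univ, one_smul, integral_const_mul, integral_const_mul]
  have h1 : σ * M ≤ d := by
    have h := min_le_right s (d / (M + 1))
    rw [← hσdef, le_div_iff₀ (by positivity)] at h
    linarith
  have h2 := mul_le_mul_of_nonneg_left h1 hσ.le
  linarith [add_one_le_exp (σ * (∫ g, Ψ g ∂gaussianReal 0 1 + d))]

lemma exp_shrink {c x K : ℝ} (hK : K ≤ c * x / 2) : K * exp (-(c * x)) ≤ exp (-(c / 2 * x)) := by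
  rw [show -(c / 2 * x) = c * x / 2 + -(c * x) by ring, exp_add]
  refine mul_le_mul_of_nonneg_right ?_ (exp_pos _).le
  linarith [add_one_le_exp (c * x / 2)]

/-- negativity with exponential probability, on overlaps in `U` -/
def TapNegOn (β : ℝ) (U : Set ℝ) : Prop :=
  ∃ c > 0, ∃ N : ℕ, ∀ n ≥ N, (disorder n).real
    {g | ∃ m : Fin n → ℝ, (∀ i, |m i| < 1) ∧ profileQ m ∈ U ∧ -(c * n) < tapFun β g m} ≤ exp (-(c * n))

lemma TapNegOn.mono {β : ℝ} {U V : Set ℝ} (h : TapNegOn β V) (hUV : U ⊆ V) : TapNegOn β U := by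
  obtain ⟨c, hc, N, hN⟩ := h
  refine ⟨c, hc, N, fun n hn => le_trans (measureReal_mono ?_) (hN n hn)⟩
  rintro g ⟨m, h1, h2, h3⟩
  exact ⟨m, h1, hUV h2, h3⟩

lemma TapNegOn.union {β : ℝ} {U V : Set ℝ} (hU : TapNegOn β U) (hV : TapNegOn β V) : TapNegOn β (U ∪ V) := by
  obtain ⟨c₁, hc₁, N₁, h₁⟩ := hU
  obtain ⟨c₂, hc₂, N₂, h₂⟩ := hV
  set c := min c₁ c₂ with hcdef
  have hc : 0 < c := lt_min hc₁ hc₂
  refine ⟨c / 2, half_pos hc, max (max N₁ N₂) ⌈4 / c⌉₊, fun n hn => ?_⟩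
  simp only [ge_iff_le, max_le_iff] at hn
  have hn4 : 4 ≤ c * n := by
    have := (Nat.le_ceil (4 / c)).trans (Nat.cast_le.2 hn.2)
    rw [div_le_iff₀ hc] at this; linarith
  have hn0 : (0:ℝ) ≤ n := Nat.cast_nonneg n
  have l1 : c * n ≤ c₁ * n := mul_le_mul_of_nonneg_right (min_le_left _ _) hn0
  have l2 : c * n ≤ c₂ * n := mul_le_mul_of_nonneg_right (min_le_right _ _) hn0
  have l3 : c / 2 * n ≤ c * n := by linarith
  refine le_trans (measureReal_mono ?_) ((measureReal_union_le _ _).trans ((add_le_add (h₁ n hn.1.1) (h₂ n hn.1.2)).trans ?_))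
  · rintro g ⟨m, h1, h2 | h2, h3⟩
    · exact Or.inl ⟨m, h1, h2, by linarith⟩
    · exact Or.inr ⟨m, h1, h2, by linarith⟩
  · refine le_trans ?_ (exp_shrink (K := 2) (c := c) (x := n) (by linarith))
    linarith [exp_le_exp.2 (show -(c₁ * n) ≤ -(c * n) by linarith), exp_le_exp.2 (show -(c₂ * n) ≤ -(c * n) by linarith)]

/-- an envelope of quadratic growth for `tap_a2` -/
lemma tap_envelope {β q₀ : ℝ} (hβ0 : 0 ≤ β) (hβ : β < 1) (hq0 : 0 < q₀) (hq1 : q₀ ≤ 1) :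
    ∃ lam δ : ℝ, 0 < δ ∧ ∃ Ψ₀ : ℝ → ℝ, Continuous Ψ₀ ∧ Integrable Ψ₀ (gaussianReal 0 1) ∧
      (∀ g, |Ψ₀ g| ≤ (1 + |lam|) * (1 + g ^ 2)) ∧
      (∀ g u : ℝ, |u| < 1 → 2 * β * sqrt q₀ * g * u - u * artanh u - lam * u ^ 2 ≤ Ψ₀ g) ∧
      ∫ g, Ψ₀ g ∂gaussianReal 0 1 + lam * q₀ - β ^ 2 * q₀ * (1 - q₀) ≤ -δ := by
  obtain ⟨lam, δ, hδ, Ψ₁, hΨc, hΨi, hΨb, hΨv⟩ := Tap.tap_a2 hβ0 hβ hq0 hq1
  -- replace the envelope by one of quadratic growth
  set K₀ := 1 + |lam|
  set Ψ₀ := fun g => min (Ψ₁ g) (2 * |g| + |lam|) with hΨ₀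
  have hb0 : ∀ g u : ℝ, |u| < 1 → 2 * β * sqrt q₀ * g * u - u * artanh u - lam * u ^ 2 ≤ Ψ₀ g := fun g u hu => by
    refine le_min (hΨb g u hu) ?_
    have h1 : 2 * β * sqrt q₀ * g * u ≤ 2 * |g| := by
      refine (le_abs_self _).trans ?_
      rw [show 2 * β * sqrt q₀ * g * u = 2 * g * (β * sqrt q₀ * u) by ring, abs_mul, abs_mul, abs_two]
      refine mul_le_of_le_one_right (by positivity) ?_
      rw [abs_mul, abs_of_nonneg (mul_nonneg hβ0 (sqrt_nonneg _))]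
      exact mul_le_one₀ (mul_le_one₀ hβ.le (sqrt_nonneg _) (sqrt_le_one.2 hq1)) (abs_nonneg _) hu.le
    have h2 : -(lam * u ^ 2) ≤ |lam| := by
      refine (neg_le_abs _).trans ?_
      rw [abs_mul, abs_of_nonneg (sq_nonneg u)]
      exact mul_le_of_le_one_right (abs_nonneg _) ((sq_lt_one_iff_abs_lt_one u).2 hu).le
    linarith [mul_artanh_nonneg hu]
  have hnn : ∀ g, 0 ≤ Ψ₀ g := fun g => by
    have := hb0 g 0 (by simp); simpa using this
  have hgrow : ∀ g, |Ψ₀ g| ≤ K₀ * (1 + g ^ 2) := fun g => by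
    rw [abs_of_nonneg (hnn g)]
    refine (min_le_right _ _).trans ?_
    have : 0 ≤ |lam| * g ^ 2 := by positivity
    simp only [K₀]; nlinarith [sq_nonneg (|g| - 1), sq_abs g]
  have hc0 : Continuous Ψ₀ := hΨc.min (by fun_prop)
  have hi0 : Integrable Ψ₀ (gaussianReal 0 1) := (((integrable_const (1:ℝ)).add (memLp_id_gaussianReal 2).integrable_sq).const_mul K₀).mono'
    hc0.aestronglyMeasurable (Filter.Eventually.of_forall fun g => by simpa using hgrow g)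
  have hv0 : ∫ g, Ψ₀ g ∂gaussianReal 0 1 + lam * q₀ - β ^ 2 * q₀ * (1 - q₀) ≤ -δ := by
    linarith [integral_mono hi0 hΨi fun g => min_le_left (Ψ₁ g) (2 * |g| + |lam|)]
  exact ⟨lam, δ, hδ, Ψ₀, hc0, hi0, hgrow, hb0, hv0⟩

/-- grid points near overlap `q₀` with penalty in the `k`-th band of width `w` -/
noncomputable def levelSet (n K : ℕ) (q₀ ρ w : ℝ) (k : ℕ) : Finset (Fin n → ℝ) :=
  (Fintype.piFinset fun _ : Fin n => cubeVals K).filter fun v =>
    |profileQ v - q₀| ≤ ρ ∧ k * w ≤ profilePenalty v ∧ profilePenalty v ≤ (k + 1) * w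

/-- the linear form is dominated by the envelope on a band of penalties -/
lemma linear_bound {β q₀ lam ρ ρ' P : ℝ} (hn0 : 0 < n) (hβ0 : 0 ≤ β) (hβ : β < 1) (hq0 : 0 < q₀) (hρ : 0 ≤ ρ)
    (hρ' : ρ' = ρ / sqrt q₀) (Ψ₀ : ℝ → ℝ)
    (hb0 : ∀ g u : ℝ, |u| < 1 → 2 * β * sqrt q₀ * g * u - u * artanh u - lam * u ^ 2 ≤ Ψ₀ g)
    (m : Fin n → ℝ) (hm : ∀ i, |m i| < 1) (hq : |profileQ m - q₀| ≤ ρ) (hP : profilePenalty m ≤ P) (h : Fin n → ℝ) :
    2 * β * sqrt (profileQ m) * ∑ i, m i * h i ≤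
      P + lam * q₀ * n + |lam| * ρ * n + ρ' * n + ∑ i, (Ψ₀ (h i) + ρ' * h i ^ 2) := by
  have hn' : (0:ℝ) < n := by exact_mod_cast hn0
  have hsq0 : 0 < sqrt q₀ := sqrt_pos.2 hq0
  have hρ'0 : 0 ≤ ρ' := by rw [hρ']; positivity
  set q := profileQ m
  have hm2 : ∑ i, m i ^ 2 = q * n := by simp only [q, profileQ]; field_simp
  have hdiff : |sqrt q - sqrt q₀| ≤ ρ' := by
    rw [hρ']
    refine le_trans ?_ (div_le_div_of_nonneg_right hq hsq0.le)
    rw [le_div_iff₀ hsq0]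
    calc |sqrt q - sqrt q₀| * sqrt q₀ ≤ |sqrt q - sqrt q₀| * (sqrt q + sqrt q₀) :=
          mul_le_mul_of_nonneg_left (le_add_of_nonneg_left (sqrt_nonneg _)) (abs_nonneg _)
      _ = |(sqrt q - sqrt q₀) * (sqrt q + sqrt q₀)| := by
          rw [abs_mul, abs_of_nonneg (add_nonneg (sqrt_nonneg q) (sqrt_nonneg q₀))]
      _ = |q - q₀| := by
          congr 1
          linear_combination sq_sqrt (profileQ_nonneg m) - sq_sqrt hq0.le
  have hterm : ∀ i, 2 * β * sqrt q * (m i * h i) ≤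
      m i * artanh (m i) + lam * m i ^ 2 + (Ψ₀ (h i) + ρ' * h i ^ 2) + ρ' := fun i => by
    have h1 := hb0 (h i) (m i) (hm i)
    have h2 : 2 * β * (sqrt q - sqrt q₀) * (m i * h i) ≤ ρ' + ρ' * h i ^ 2 := by
      refine (le_abs_self _).trans ?_
      have hm : 2 * |m i * h i| ≤ 1 + h i ^ 2 := by
        rw [abs_mul]
        nlinarith [mul_le_mul_of_nonneg_right (hm i).le (abs_nonneg (h i)), sq_nonneg (|h i| - 1), sq_abs (h i)]
      rw [show 2 * β * (sqrt q - sqrt q₀) * (m i * h i) = (β * (sqrt q - sqrt q₀)) * (2 * (m i * h i)) by ring,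
        abs_mul, abs_mul, abs_of_nonneg hβ0, abs_mul, abs_two]
      refine (mul_le_mul (mul_le_mul hβ.le hdiff (abs_nonneg _) zero_le_one) hm (by positivity) (by positivity)).trans ?_
      linarith
    linarith
  have hsum := Finset.sum_le_sum (s := (Finset.univ : Finset (Fin n))) fun i _ => hterm i
  simp only [Finset.sum_add_distrib, ← Finset.mul_sum, Finset.sum_const, Finset.card_univ, Fintype.card_fin,
    nsmul_eq_mul, hm2] at hsum
  have hl : lam * (q * n) ≤ lam * q₀ * n + |lam| * ρ * n := by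
    have : lam * (q - q₀) ≤ |lam| * ρ := (le_abs_self _).trans
      (by rw [abs_mul]; exact mul_le_mul_of_nonneg_left hq (abs_nonneg _))
    linarith [mul_le_mul_of_nonneg_right this hn'.le]
  simp only [profilePenalty] at hP
  simp only [Finset.sum_add_distrib, ← Finset.mul_sum]
  linarith

/-- probability that the form exceeds `T` on one band -/
lemma level_bound {β q₀ lam ρ ρ' σ r d δ T : ℝ} (hn0 : 0 < n) (hβ0 : 0 ≤ β) (hβ : β < 1) (hq0 : 0 < q₀) (hρ : 0 ≤ ρ)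
    (hρ' : ρ' = ρ / sqrt q₀) (Ψ₀ : ℝ → ℝ)
    (hb0 : ∀ g u : ℝ, |u| < 1 → 2 * β * sqrt q₀ * g * u - u * artanh u - lam * u ^ 2 ≤ Ψ₀ g)
    (hσ : 0 < σ) (hr : 0 < r) (hr1 : r ≤ 1)
    (hσi : Integrable (fun g => exp (σ * (Ψ₀ g + ρ' * g ^ 2))) (gaussianReal 0 1))
    (hσv : ∫ g, exp (σ * (Ψ₀ g + ρ' * g ^ 2)) ∂gaussianReal 0 1 ≤ exp (σ * (∫ g, Ψ₀ g ∂gaussianReal 0 1 + ρ' + d)))
    (hv0 : ∫ g, Ψ₀ g ∂gaussianReal 0 1 + lam * q₀ - β ^ 2 * q₀ * (1 - q₀) ≤ -δ)
    (hδ : δ = 12 * d) (hρ2 : |lam| * ρ ≤ d) (hρ3 : ρ' ≤ d) {K : ℕ} (hK0 : 0 < K) (hrlog : r * log (2 * K) ≤ σ * d)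
    (hbig : σ ^ 2 * β ^ 2 / r ≤ σ * d / 2 * n) (k : ℕ)
    (hT : T = k * (d * n) + (β ^ 2 * q₀ * (1 - q₀) - 5 * d) * n) :
    (disorder n).real {g | ∃ v ∈ levelSet n K q₀ ρ (d * n) k, T < β * profileForm g v} ≤ exp (-(σ * d / 2 * n)) := by
  classical
  have hn' : (0:ℝ) < n := by exact_mod_cast hn0
  rcases (levelSet n K q₀ ρ (d * n) k).eq_empty_or_nonempty with h | h
  · simp [h, (exp_pos _).le]
  set S := levelSet n K q₀ ρ (d * n) k with hS
  have : Nonempty S := h.to_subtype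
  have hmem : ∀ a : S, (∀ i, (a : Fin n → ℝ) i ∈ cubeVals K) ∧ |profileQ (a : Fin n → ℝ) - q₀| ≤ ρ ∧
      profilePenalty (a : Fin n → ℝ) ≤ (k + 1) * (d * n) := fun a => by
    obtain ⟨h1, h2, -, h3⟩ := Finset.mem_filter.1 a.2
    exact ⟨Fintype.mem_piFinset.1 h1, h2, h3⟩
  have habs : ∀ (a : S) i, |(a : Fin n → ℝ) i| < 1 := fun a i => by
    have := cubeVals_abs hK0 ((hmem a).1 i)
    have : (0:ℝ) < 1 / (K:ℝ) := by positivity
    linarith
  have hmain := form_slepian_bound hn0 (fun a : S => (a : Fin n → ℝ)) (fun a i => (habs a i).le) (T := T)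
    (β := β) (C := (k + 1) * (d * n) + lam * q₀ * n + |lam| * ρ * n + ρ' * n)
    hσ hr hr1 (fun g => Ψ₀ g + ρ' * g ^ 2) hσi
    fun a h => linear_bound hn0 hβ0 hβ hq0 hρ hρ' Ψ₀ hb0 _ (habs a) (hmem a).2.1 (hmem a).2.2 h
  rw [show {g : Edge n → ℝ | ∃ v ∈ S, T < β * profileForm g v} =
      {g | ∃ a : S, T < β * profileForm g (a : Fin n → ℝ)} by ext g; simp, disorder_eq_gauss]
  refine hmain.trans ?_
  have hcard : (Fintype.card S : ℝ) ≤ exp (n * log (2 * K)) := by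
    rw [Fintype.card_coe, exp_nat_mul, exp_log (by positivity)]
    have h1 : S.card ≤ (2 * K) ^ n := by
      refine (Finset.card_filter_le _ _).trans ?_
      simpa using Nat.pow_le_pow_left (cubeVals_card K) n
    exact_mod_cast h1
  refine (mul_le_mul (mul_le_mul_of_nonneg_right (rpow_le_rpow (Nat.cast_nonneg _) hcard hr.le) (exp_pos _).le)
    (pow_le_pow_left₀ (integral_nonneg fun _ => (exp_pos _).le) hσv n) (pow_nonneg (integral_nonneg fun _ => (exp_pos _).le) n)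
    (by positivity)).trans ?_
  rw [← exp_mul, ← exp_nat_mul, ← exp_add, ← exp_add]
  refine exp_le_exp.2 ?_
  have e1 := mul_le_mul_of_nonneg_right hv0 hn'.le
  have e2 := mul_le_mul_of_nonneg_right hρ2 hn'.le
  have e3 := mul_le_mul_of_nonneg_right hρ3 hn'.le
  subst hT hδ
  have hk : (k + 1) * (d * n) + lam * q₀ * n + |lam| * ρ * n + ρ' * n -
      (k * (d * n) + (β ^ 2 * q₀ * (1 - q₀) - 5 * d) * n) +
      n * (∫ g, Ψ₀ g ∂gaussianReal 0 1 + ρ' + d) ≤ -(2 * d) * n := by linarith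
  have hk2 := mul_le_mul_of_nonneg_left hk hσ.le
  have hk3 := mul_le_mul_of_nonneg_right hrlog hn'.le
  linarith

/-- a violating profile rounds to a violating grid point in one of finitely many bands -/
lemma cover_step {β q₀ ρ d c' : ℝ} (hn0 : 0 < n) (hβ0 : 0 ≤ β) (hβ : β < 1) (hq0 : 0 < q₀) (hq1 : q₀ ≤ 1)
    (hρ : 0 < ρ) (hρd : ρ ≤ d) (hc' : c' ≤ d) {K : ℕ} (hK0 : 0 < K) (hη1 : 4 * (1 / (K:ℝ)) ≤ ρ)
    (hη2 : 20 * (1 / (K:ℝ)) ≤ d) {L : ℕ} (hL : artanh (1 - 1 / (K:ℝ)) / d < L) {g : Edge n → ℝ}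
    (hg : ∀ v : Fin n → ℝ, |∑ i, ∑ j, coupling g i j * (v i * v j)| ≤
      (2 + 5 * (1 / 4 : ℝ)) / (1 - 2 * (1 / 4)) * sqrt n * ∑ i, v i ^ 2)
    {m : Fin n → ℝ} (hm : ∀ i, |m i| < 1) (hq : profileQ m ∈ Ioo (q₀ - ρ / 2) (q₀ + ρ / 2))
    (hF : -(c' * n) < tapFun β g m) :
    ∃ k < L, ∃ v ∈ levelSet n K q₀ ρ (d * n) k,
      k * (d * n) + (β ^ 2 * q₀ * (1 - q₀) - 5 * d) * n < β * profileForm g v := by
  have hn' : (0:ℝ) < n := by exact_mod_cast hn0
  have hd : 0 < d := hρ.trans_le hρd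
  set rn := sqrt (n:ℝ)
  have hrn : 0 < rn := sqrt_pos.2 hn'
  set η := 1 / (K:ℝ)
  have hη : 0 < η := by positivity
  set A := artanh (1 - η)
  choose v hv hvm hvd using fun i => exists_round hK0 (hm i)
  have hv1 : ∀ i, |v i| ≤ 1 := fun i => (hvm i).trans (hm i).le
  have hQ : |profileQ v - profileQ m| ≤ 2 * η := by
    rw [profileQ, profileQ, ← sub_div, abs_div, abs_of_pos hn', div_le_iff₀ hn', ← Finset.sum_sub_distrib]
    refine (Finset.abs_sum_le_sum_abs _ _).trans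
      ((Finset.sum_le_card_nsmul _ _ (2 * η) fun i _ => ?_).trans (by simp [mul_comm]))
    rw [sq_sub_sq, abs_mul]
    refine mul_le_mul ((abs_add_le _ _).trans (by linarith [hv1 i, hm i])) ?_ (abs_nonneg _) two_pos.le
    rw [abs_sub_comm]; exact hvd i
  have hqv : |profileQ v - q₀| ≤ ρ := by
    have := abs_le.1 hQ
    rw [abs_le]; obtain ⟨a, b⟩ := hq; constructor <;> linarith
  set P := profilePenalty v
  have hP0 : 0 ≤ P := Finset.sum_nonneg fun i _ => mul_artanh_nonneg ((hvm i).trans_lt (hm i))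
  have hPm : P ≤ profilePenalty m := Finset.sum_le_sum fun i _ => mul_artanh_mono (hvm i) (hm i)
  have hPA : P ≤ A * n := by
    refine (Finset.sum_le_card_nsmul _ _ A fun i _ => ?_).trans (by simp [mul_comm])
    have h1 := cubeVals_abs hK0 (hv i)
    rw [mul_artanh_abs ((hvm i).trans_lt (hm i))]
    have h0 := abs_nonneg (v i)
    calc |v i| * artanh |v i| ≤ 1 * artanh |v i| := mul_le_mul_of_nonneg_right (hv1 i) (artanh_nonneg h0)
      _ ≤ A := by
        rw [one_mul]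
        exact artanh_le_artanh (by linarith) (by linarith) h1
  set k := ⌊P / (d * n)⌋₊
  have hk1 : k * (d * n) ≤ P := (le_div_iff₀ (by positivity)).1 (Nat.floor_le (by positivity))
  have hk2 : P ≤ (k + 1) * (d * n) := ((div_lt_iff₀ (by positivity)).1 (Nat.lt_floor_add_one _)).le
  have hkL : k < L := by
    refine (Nat.floor_lt (by positivity)).2 (lt_of_le_of_lt ?_ hL)
    rw [div_le_div_iff₀ (by positivity) hd]
    linarith [mul_le_mul_of_nonneg_right hPA hd.le]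
  refine ⟨k, hkL, v, Finset.mem_filter.2 ⟨Fintype.mem_piFinset.2 hv, hqv, hk1, hk2⟩, ?_⟩
  have hM := quad_diff_le (M := (2 + 5 * (1 / 4 : ℝ)) / (1 - 2 * (1 / 4)) * sqrt n)
    (by positivity) hg hη m v (fun i => (hm i).le) hv1 hvd
  have hX : β * profileForm g m ≤ β * profileForm g v + d * n := by
    have h1 : profileForm g m - profileForm g v ≤ 20 * η * n := by
      rw [profileForm, profileForm, ← sub_div, div_le_iff₀ hrn]
      refine hM.trans (le_of_lt ?_)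
      have : 0 < η * n * rn := by positivity
      norm_num [rn] at this ⊢
      linarith
    have h2 := mul_le_mul_of_nonneg_left h1 hβ0
    have h3 : β * (20 * η * n) ≤ d * n :=
      le_trans (mul_le_of_le_one_left (by positivity) hβ.le) (mul_le_mul_of_nonneg_right hη2 hn'.le)
    linarith
  have hbq : β ^ 2 * q₀ * (1 - q₀) * n - 3 * d * n ≤ β ^ 2 * profileQ m * (1 - profileQ m) * n := by
    set q := profileQ m
    have hq01 : 0 ≤ q ∧ q ≤ 1 := ⟨profileQ_nonneg m, by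
      simp only [q, profileQ]
      rw [div_le_one hn']
      refine (Finset.sum_le_card_nsmul _ _ 1 fun i _ => (sq_le_one_iff_abs_le_one _).2 (hm i).le).trans (by simp)⟩
    have h1 : |(q₀ - q) * (1 - q₀ - q)| ≤ ρ * 1 := by
      rw [abs_mul]
      refine mul_le_mul ?_ (abs_le.2 ⟨by linarith [hq01.2], by linarith [hq01.1]⟩) (abs_nonneg _) hρ.le
      obtain ⟨a, b⟩ := hq; rw [abs_le]; constructor <;> linarith
    have h2 : β ^ 2 * ((q₀ - q) * (1 - q₀ - q)) ≤ 3 * d := by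
      refine (mul_le_mul_of_nonneg_left ((le_abs_self _).trans h1) (sq_nonneg β)).trans ?_
      refine (mul_le_of_le_one_left (by positivity) (pow_le_one₀ hβ0 hβ.le)).trans ?_
      linarith
    linarith [mul_le_mul_of_nonneg_right h2 hn'.le]
  have hc'n : c' * n ≤ d * n := mul_le_mul_of_nonneg_right hc' hn'.le
  simp only [tapFun] at hF
  linarith

/-- negativity near one overlap -/
lemma tapNegOn_nhds {β q₀ : ℝ} (hβ0 : 0 ≤ β) (hβ : β < 1) (hq0 : 0 < q₀) (hq1 : q₀ ≤ 1) :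
    ∃ r > 0, TapNegOn β (Ioo (q₀ - r) (q₀ + r)) := by
  obtain ⟨lam, δ, hδ, Ψ₀, hc0, hi0, hgrow, hb0, hv0⟩ := tap_envelope hβ0 hβ hq0 hq1
  -- constants
  set d := δ / 12 with hddef
  have hd : 0 < d := by positivity
  have hsq0 : 0 < sqrt q₀ := sqrt_pos.2 hq0
  set ρ := d / (1 + |lam| + 1 / sqrt q₀) with hρdef
  have hden : 0 < 1 + |lam| + 1 / sqrt q₀ := by positivity
  have hρ : 0 < ρ := by positivity
  have hρe : ρ * (1 + |lam| + 1 / sqrt q₀) = d := div_mul_cancel₀ _ hden.ne'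
  have hρ1 : ρ ≤ d := by
    have : 0 ≤ ρ * (|lam| + 1 / sqrt q₀) := by positivity
    linarith
  have hρ2 : |lam| * ρ ≤ d := by
    have : 0 ≤ ρ * (1 + 1 / sqrt q₀) := by positivity
    linarith
  have hρ3 : ρ / sqrt q₀ ≤ d := by
    have : 0 ≤ ρ * (1 + |lam|) := by positivity
    rw [show ρ / sqrt q₀ = ρ * (1 / sqrt q₀) by ring]
    linarith
  set ρ' := ρ / sqrt q₀
  have hρ'0 : 0 ≤ ρ' := by positivity
  obtain ⟨σ, hσ, hσi, hσv⟩ := exp_moment (Ψ := fun g => Ψ₀ g + ρ' * g ^ 2) (K := 1 + |lam| + ρ') (d := d)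
    (by fun_prop) (by positivity) hd fun g => by
      refine (abs_add_le _ _).trans ?_
      rw [abs_of_nonneg (by positivity : 0 ≤ ρ' * g ^ 2)]
      linarith [hgrow g]
  have i2 : Integrable (fun g : ℝ => g ^ 2) (gaussianReal 0 1) := (memLp_id_gaussianReal 2).integrable_sq
  have e2 : ∫ g, g ^ 2 ∂gaussianReal 0 1 = 1 := by
    have h := variance_id_gaussianReal (μ := 0) (v := 1)
    rw [variance_eq_integral aemeasurable_id] at h
    simpa using h
  rw [integral_add hi0 (i2.const_mul ρ'), integral_const_mul, e2, mul_one] at hσv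
  obtain ⟨K, hK⟩ := exists_nat_gt (max (4 / ρ) (20 / d))
  have hK0' : (0:ℝ) < K := lt_of_le_of_lt (le_max_of_le_left (by positivity)) hK
  have hK0 : 0 < K := by exact_mod_cast hK0'
  set η := 1 / (K:ℝ) with hηdef
  have hη : 0 < η := by positivity
  have hη1 : 4 * η ≤ ρ := by
    have := (le_max_left _ _).trans hK.le
    rw [div_le_iff₀ hρ] at this
    rw [hηdef, mul_one_div, div_le_iff₀ hK0']; linarith
  have hη2 : 20 * η ≤ d := by
    have := (le_max_right _ _).trans hK.le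
    rw [div_le_iff₀ hd] at this
    rw [hηdef, mul_one_div, div_le_iff₀ hK0']; linarith
  obtain ⟨L, hL⟩ := exists_nat_gt (artanh (1 - 1 / (K:ℝ)) / d)
  have hlog : 0 < log (2 * K) + 1 := by
    have : (1:ℝ) ≤ K := by exact_mod_cast hK0
    have := log_nonneg (show (1:ℝ) ≤ 2 * K by linarith)
    linarith
  set r := min 1 (σ * d / (log (2 * K) + 1))
  have hr : 0 < r := lt_min one_pos (by positivity)
  have hr1 : r ≤ 1 := min_le_left _ _
  have hrlog : r * log (2 * K) ≤ σ * d := by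
    have h := min_le_right 1 (σ * d / (log (2 * K) + 1))
    have h2 : r * (log (2 * K) + 1) ≤ σ * d := (le_div_iff₀ hlog).1 h
    linarith
  obtain ⟨c₀, hc₀, hop⟩ := opnorm_bound (ε := 1 / 4) (δ := 1 / 4) (by norm_num) le_rfl (by norm_num) le_rfl
  set c := min c₀ (σ * d / 2) with hcdef
  have hc : 0 < c := lt_min hc₀ (by positivity)
  set c' := min (c / 2) d with hc'def
  refine ⟨ρ / 2, half_pos hρ, c', lt_min (half_pos hc) hd,
    ⌈max (max (2 * σ * β ^ 2 / (r * d)) (2 * (2 + L) / c)) 1⌉₊, fun n hn => ?_⟩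
  have hn1 : max (max (2 * σ * β ^ 2 / (r * d)) (2 * (2 + L) / c)) 1 ≤ (n:ℝ) :=
    (Nat.le_ceil _).trans (Nat.cast_le.2 hn)
  simp only [max_le_iff] at hn1
  have hn' : (0:ℝ) < n := by linarith
  have hn0 : 0 < n := by exact_mod_cast hn'
  set rn := sqrt (n:ℝ)
  have hrn : 0 < rn := sqrt_pos.2 hn'
  set T : ℕ → ℝ := fun k => k * (d * n) + (β ^ 2 * q₀ * (1 - q₀) - 5 * d) * n
  set E : ℕ → Set (Edge n → ℝ) := fun k => {g | ∃ v ∈ levelSet n K q₀ ρ (d * n) k, T k < β * profileForm g v}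
  set Bad := {g : Edge n → ℝ | ∃ v : Fin n → ℝ, (2 + 5 * (1 / 4 : ℝ)) / (1 - 2 * (1 / 4)) * sqrt n * ∑ i, v i ^ 2 <
    |∑ i, ∑ j, coupling g i j * (v i * v j)|}
  have hbig : σ ^ 2 * β ^ 2 / r ≤ σ * d / 2 * n := by
    have h := hn1.1.1
    rw [div_le_iff₀ (by positivity)] at h
    rw [div_le_iff₀ hr]
    linarith [mul_le_mul_of_nonneg_left h hσ.le]
  have hE : ∀ k, (disorder n).real (E k) ≤ exp (-(c * n)) := fun k =>
    (level_bound hn0 hβ0 hβ hq0 hρ.le rfl Ψ₀ hb0 hσ hr hr1 hσi hσv hv0 (by rw [hddef]; ring) hρ2 hρ3 hK0 hrlog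
      hbig k rfl).trans (exp_le_exp.2 (neg_le_neg (mul_le_mul_of_nonneg_right (min_le_right _ _) hn'.le)))
  have hBad : (disorder n).real Bad ≤ 2 * exp (-(c * n)) := by
    refine (hop n hn0).trans (mul_le_mul_of_nonneg_left (exp_le_exp.2 ?_) two_pos.le)
    linarith [mul_le_mul_of_nonneg_right (min_le_left c₀ (σ * d / 2)) hn'.le]
  have hsub : {g | ∃ m : Fin n → ℝ, (∀ i, |m i| < 1) ∧ profileQ m ∈ Ioo (q₀ - ρ / 2) (q₀ + ρ / 2) ∧
      -(c' * n) < tapFun β g m} ⊆ Bad ∪ ⋃ k ∈ Finset.range L, E k := by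
    rintro g ⟨m, hm, hq, hF⟩
    by_cases hg : g ∈ Bad
    · exact Or.inl hg
    refine Or.inr ?_
    simp only [Bad, Set.mem_ofPred_eq, not_exists, not_lt] at hg
    obtain ⟨k, hk, v, hv⟩ := cover_step hn0 hβ0 hβ hq0 hq1 hρ hρ1 (min_le_right _ _) hK0 hη1 hη2 hL hg hm hq hF
    exact Set.mem_biUnion (Finset.mem_range.2 hk) ⟨v, hv⟩
  refine (measureReal_mono hsub).trans ((measureReal_union_le _ _).trans
    ((add_le_add hBad ((measureReal_biUnion_finset_le _ _).trans (Finset.sum_le_card_nsmul _ _ _ fun k _ => hE k))).trans ?_))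
  rw [Finset.card_range, nsmul_eq_mul, ← add_mul]
  refine (exp_shrink ?_).trans (exp_le_exp.2 (neg_le_neg (mul_le_mul_of_nonneg_right (min_le_left _ _) hn'.le)))
  have := hn1.1.2
  rw [div_le_iff₀ hc] at this
  linarith

/-- For `β < 1` the TAP functional is at most `-c n` on all profiles with `|m|² ≥ ε n`,
with probability at least `1 - exp (-c n)`. -/
theorem tap_negative {β : ℝ} (hβ0 : 0 ≤ β) (hβ : β < 1) {ε : ℝ} (hε : 0 < ε) :
    ∃ c > 0, ∃ N : ℕ, ∀ n ≥ N, (disorder n).real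
      {g | ∃ m : Fin n → ℝ, (∀ i, |m i| < 1) ∧ ε * n ≤ ∑ i, m i ^ 2 ∧ -(c * n) < tapFun β g m} ≤
      exp (-(c * n)) := by
  have h : TapNegOn β (Icc ε 1) := by
    refine isCompact_Icc.induction_on ?_ (fun s t hst ht => ht.mono hst) (fun s t hs ht => hs.union ht) ?_
    · refine ⟨1, one_pos, 0, fun n _ => ?_⟩
      simp [(exp_pos _).le]
    · intro q hq
      obtain ⟨r, hr, h⟩ := tapNegOn_nhds hβ0 hβ (hε.trans_le hq.1) hq.2
      exact ⟨_, nhdsWithin_le_nhds (Ioo_mem_nhds (by linarith) (by linarith)), h⟩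
  obtain ⟨c, hc, N, hN⟩ := h
  refine ⟨c, hc, max N 1, fun n hn => le_trans (measureReal_mono ?_) (hN n (le_of_max_le_left hn))⟩
  rintro g ⟨m, hm, hmq, hF⟩
  have hn' : (0:ℝ) < n := by exact_mod_cast (le_of_max_le_right hn : 1 ≤ n)
  refine ⟨m, hm, ⟨(le_div_iff₀ hn').2 hmq, (div_le_one hn').2 ?_⟩, hF⟩
  exact (Finset.sum_le_card_nsmul _ _ 1 fun i _ => (sq_le_one_iff_abs_le_one _).2 (hm i).le).trans (by simp)

end Vale.Agent.P150
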