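import Vale.Agent.P150.SKNorm

/-! Gaussian comparison bound for quadratic forms on finite subsets of the cube. -/

open MeasureTheory ProbabilityTheory

namespace Vale.Agent.P150

variable {n : ℕ}

/-- `|m|²/n` -/
noncomputable def profileQ (m : Fin n → ℝ) : ℝ := (∑ i, m i ^ 2) / n

/-- `n^{-1/2} ∑_{i,j} J_ij m_i m_j` -/
noncomputable def profileForm (g : Edge n → ℝ) (m : Fin n → ℝ) : ℝ :=
  (∑ i, ∑ j, coupling g i j * (m i * m j)) / Real.sqrt n

lemma profileQ_nonneg (m : Fin n → ℝ) : 0 ≤ profileQ m := by unfold profileQ; positivity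

lemma rpow_le_tangent {u U r : ℝ} (hu : 0 ≤ u) (hU : 0 < U) (h0 : 0 ≤ r) (h1 : r ≤ 1) :
    u ^ r ≤ U ^ r * (1 + r * (u / U - 1)) := by
  have hb := rpow_one_add_le_one_add_mul_self (s := u / U - 1) (by linarith [div_nonneg hu hU.le]) h0 h1
  rw [add_sub_cancel, Real.div_rpow hu hU.le, div_le_iff₀ (Real.rpow_pos_of_pos hU r)] at hb
  linarith

/-- comparison of the quadratic form with a linear form, in exponential-moment form -/
theorem form_slepian_bound {α : Type*} [Fintype α] [Nonempty α] (hn : 0 < n) (v : α → Fin n → ℝ)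
    (hv : ∀ a i, |v a i| ≤ 1) {β σ r C T : ℝ} (hσ : 0 < σ) (hr : 0 < r) (hr1 : r ≤ 1) (Ψ : ℝ → ℝ)
    (hΨi : Integrable (fun x => Real.exp (σ * Ψ x)) (gaussianReal 0 1))
    (hB : ∀ a (h : Fin n → ℝ), 2 * β * Real.sqrt (profileQ (v a)) * ∑ i, v a i * h i ≤ C + ∑ i, Ψ (h i)) :
    (gauss (Edge n)).real {g | ∃ a, T < β * profileForm g (v a)} ≤
      (Fintype.card α : ℝ) ^ r * Real.exp (σ ^ 2 * β ^ 2 / r + σ * (C - T)) *
        (∫ x, Real.exp (σ * Ψ x) ∂gaussianReal 0 1) ^ n := by
  classical
  have hn' : (0:ℝ) < n := by exact_mod_cast hn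
  set rn := Real.sqrt n
  have hrn : 0 < rn := Real.sqrt_pos.2 hn'
  have hrn2 : rn * rn = n := Real.mul_self_sqrt hn'.le
  set k₀ := σ / r
  set q := fun a => profileQ (v a) with hqdef
  have hq0 : ∀ a, 0 ≤ q a := fun a => profileQ_nonneg _
  have hsq : ∀ a, ∑ i, v a i ^ 2 = n * q a := fun a => by
    simp only [hqdef, profileQ]; field_simp
  have hv2 : ∀ a i, v a i ^ 2 ≤ 1 := fun a i => (sq_le_one_iff_abs_le_one _).2 (hv a i)
  set S4 := fun a => ∑ i, (v a i ^ 2) ^ 2 with hS4
  have hS4n : ∀ a, S4 a ≤ n := fun a => by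
    refine (Finset.sum_le_card_nsmul _ _ 1 fun i _ => pow_le_one₀ (sq_nonneg _) (hv2 a i)).trans ?_
    simp
  set w := fun a => Real.sqrt 2 * β * Real.sqrt (1 - S4 a / n) with hwdef
  have hw : ∀ a, w a ^ 2 = 2 * β ^ 2 * (1 - S4 a / n) := fun a => by
    simp only [hwdef, mul_pow]
    rw [Real.sq_sqrt (by norm_num : (0:ℝ) ≤ 2), Real.sq_sqrt]
    rw [sub_nonneg, div_le_one hn']; exact hS4n a
  set A : α → Edge n ⊕ Bool → ℝ := fun a => Sum.elim (fun e => k₀ * (2 * β / rn * (v a e.1.1 * v a e.1.2)))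
    (fun b => if b then k₀ * (Real.sqrt 2 * β * rn * q a) else k₀ * (Real.sqrt 2 * β)) with hA
  set D : α → Fin n ⊕ α → ℝ := fun a => Sum.elim (fun i => k₀ * (2 * β * Real.sqrt (q a) * v a i))
    (fun b => if b = a then k₀ * w a else 0) with hD
  have h2 := Real.mul_self_sqrt (two_pos (α := ℝ)).le
  have innerA : ∀ a b, ∑ k, A a k * A b k = k₀ ^ 2 * β ^ 2 * (2 / n * ((∑ i, v a i * v b i) ^ 2 -
      ∑ i, (v a i * v b i) ^ 2) + 2 * n * (q a * q b) + 2) := fun a b => by
    have h := two_sum_edge fun i => v a i * v b i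
    simp only [hA, Fintype.sum_sum_type, Sum.elim_inl, Sum.elim_inr, Fintype.sum_bool, if_true, Bool.false_eq_true, if_false]
    have e1 : ∑ e : Edge n, k₀ * (2 * β / rn * (v a e.1.1 * v a e.1.2)) * (k₀ * (2 * β / rn * (v b e.1.1 * v b e.1.2))) =
        k₀ ^ 2 * β ^ 2 * (2 / (rn * rn)) * (2 * ∑ e : Edge n, v a e.1.1 * v b e.1.1 * (v a e.1.2 * v b e.1.2)) := by
      simp only [Finset.mul_sum]
      exact Finset.sum_congr rfl fun e _ => by field_simp
    rw [e1, h, hrn2]
    linear_combination (k₀ ^ 2 * β ^ 2 * (n * (q a * q b) + 1)) * h2 +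
      (k₀ ^ 2 * β ^ 2 * (Real.sqrt 2 * Real.sqrt 2) * (q a * q b)) * hrn2
  have innerD : ∀ a b, ∑ k, D a k * D b k = k₀ ^ 2 * (4 * β ^ 2 * (Real.sqrt (q a) * Real.sqrt (q b)) *
      ∑ i, v a i * v b i) + if a = b then k₀ ^ 2 * w a ^ 2 else 0 := fun a b => by
    simp only [hD, Fintype.sum_sum_type, Sum.elim_inl, Sum.elim_inr]
    congr 1
    · simp only [Finset.mul_sum]
      exact Finset.sum_congr rfl fun i _ => by ring
    · rw [Finset.sum_eq_single a (fun c _ hc => by simp [hc]) (by simp)]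
      by_cases h : a = b
      · subst h; simp; ring
      · simp [h]
  have hdiag : ∀ a, ∑ k, A a k * A a k = ∑ k, D a k * D a k := fun a => by
    rw [innerA, innerD, if_pos rfl, Real.mul_self_sqrt (hq0 a), hw,
      show ∑ i, v a i * v a i = n * q a by rw [← hsq]; simp [sq],
      show ∑ i, (v a i * v a i) ^ 2 = S4 a by simp [hS4, sq]]
    field_simp
    ring
  have hcross : ∀ a b, ∑ k, D a k * D b k ≤ ∑ k, A a k * A b k := fun a b => by
    by_cases h : a = b
    · subst h; exact (hdiag a).ge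
    rw [innerA, innerD, if_neg h, add_zero, mul_assoc (k₀ ^ 2) (β ^ 2)]
    refine mul_le_mul_of_nonneg_left ?_ (sq_nonneg k₀)
    have hS : ∑ i, (v a i * v b i) ^ 2 ≤ n := by
      refine (Finset.sum_le_card_nsmul _ _ 1 fun i _ => ?_).trans (by simp)
      rw [mul_pow]; exact mul_le_one₀ (hv2 a i) (sq_nonneg _) (hv2 b i)
    set s := ∑ i, v a i * v b i
    set p := Real.sqrt (q a) * Real.sqrt (q b)
    have hp : q a * q b = p * p := by
      rw [mul_mul_mul_comm, Real.mul_self_sqrt (hq0 a), Real.mul_self_sqrt (hq0 b)]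
    rw [hp]
    have key : 4 * p * s ≤ 2 / n * (s ^ 2 - ∑ i, (v a i * v b i) ^ 2) + 2 * n * (p * p) + 2 := by
      have h1 : (0:ℝ) ≤ 2 / n * (s - n * p) ^ 2 := by positivity
      have h3 : 2 / n * ∑ i, (v a i * v b i) ^ 2 ≤ 2 := by
        rw [div_mul_eq_mul_div, div_le_iff₀ hn']; linarith
      have h4 : 2 / (n:ℝ) * (s - n * p) ^ 2 = 2 / n * s ^ 2 - 4 * p * s + 2 * n * (p * p) := by field_simp; ring
      linarith
    have := mul_le_mul_of_nonneg_left key (sq_nonneg β)
    linarith
  have hcomp := slepian A D hr hr1 hdiag hcross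
  set U := (Fintype.card α : ℝ) * Real.exp (k₀ ^ 2 * β ^ 2)
  have hU : 0 < U := by positivity
  set I := ∫ x, Real.exp (σ * Ψ x) ∂gaussianReal 0 1
  -- right side
  have hR : ∫ z, esum D z ^ r ∂gauss (Fin n ⊕ α) ≤ Real.exp (σ * C) * I ^ n * U ^ r := by
    have hmp : MeasurePreserving (MeasurableEquiv.sumPiEquivProdPi fun _ : Fin n ⊕ α => ℝ)
        (gauss (Fin n ⊕ α)) ((gauss (Fin n)).prod (gauss α)) :=
      measurePreserving_sumPiEquivProdPi (X := fun _ : Fin n ⊕ α => ℝ) fun _ => gaussianReal 0 1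
    set f := fun h : Fin n → ℝ => Real.exp (σ * C) * ∏ i, Real.exp (σ * Ψ (h i)) with hf
    set u := fun ξ : α → ℝ => ∑ a, Real.exp (k₀ * w a * ξ a) with hu
    set G := fun p : (Fin n → ℝ) × (α → ℝ) => f p.1 * (U ^ r * (1 + r * (u p.2 / U - 1))) with hG
    have ei : ∀ a, Integrable (fun ξ : α → ℝ => Real.exp (k₀ * w a * ξ a)) (gauss α) := fun a =>
      integrable_of_bound (C := 1) (M := |k₀ * w a|) (by fun_prop) fun z => by
        rw [Real.abs_exp, one_mul]
        refine Real.exp_le_exp.2 ((le_abs_self _).trans ?_)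
        rw [abs_mul]; exact mul_le_mul_of_nonneg_left (abs_le_l1 z a) (abs_nonneg _)
    have ee : ∀ a, ∫ ξ, Real.exp (k₀ * w a * ξ a) ∂gauss α ≤ Real.exp (k₀ ^ 2 * β ^ 2) := fun a => by
      have h := mgf_dot (Pi.single a (k₀ * w a) : α → ℝ)
      simp only [dot, Pi.single_apply, ite_mul, zero_mul, Finset.sum_ite_eq', Finset.mem_univ, if_true,
        ite_pow, ne_eq, OfNat.ofNat_ne_zero, not_false_eq_true, zero_pow] at h
      rw [h]
      refine Real.exp_le_exp.2 ?_
      rw [mul_pow, hw]
      have : 0 ≤ k₀ ^ 2 * β ^ 2 * (S4 a / n) := by positivity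
      linarith
    have ui : Integrable u (gauss α) := integrable_finsetSum _ fun a _ => ei a
    have ue : ∫ ξ, u ξ ∂gauss α ≤ U := by
      simp only [hu]
      rw [integral_finsetSum _ fun a _ => ei a]
      refine (Finset.sum_le_card_nsmul _ _ _ fun a _ => ee a).trans (le_of_eq ?_)
      simp [U]
    have fi : Integrable f (gauss (Fin n)) :=
      (Integrable.fintype_prod (f := fun _ x => Real.exp (σ * Ψ x)) fun _ => hΨi).const_mul _
    have ti : Integrable (fun ξ => U ^ r * (1 + r * (u ξ / U - 1))) (gauss α) :=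
      ((integrable_const _).add (((ui.div_const U).sub (integrable_const _)).const_mul r)).const_mul _
    have hGi : Integrable G ((gauss (Fin n)).prod (gauss α)) := fi.mul_prod ti
    have hpt : ∀ z, esum D z ^ r ≤ G (MeasurableEquiv.sumPiEquivProdPi (fun _ : Fin n ⊕ α => ℝ) z) := fun z => by
      show _ ≤ G (fun i => z (Sum.inl i), fun a => z (Sum.inr a))
      set h := fun i => z (Sum.inl i)
      set ξ := fun a => z (Sum.inr a)
      set E := Real.exp (k₀ * (C + ∑ i, Ψ (h i)))
      have hu0 : 0 < u ξ := Finset.sum_pos (fun _ _ => Real.exp_pos _) Finset.univ_nonempty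
      have h1 : esum D z ≤ E * u ξ := by
        simp only [esum, hu, Finset.mul_sum, E]
        refine Finset.sum_le_sum fun a _ => ?_
        rw [← Real.exp_add]
        refine Real.exp_le_exp.2 ?_
        simp only [dot, Fintype.sum_sum_type, hD, Sum.elim_inl, Sum.elim_inr, ite_mul, zero_mul, Finset.sum_ite_eq',
          Finset.mem_univ, if_true]
        refine add_le_add ?_ le_rfl
        refine le_trans (le_of_eq ?_) (mul_le_mul_of_nonneg_left (hB a h) (div_nonneg hσ.le hr.le))
        simp only [Finset.mul_sum, hqdef, h]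
        exact Finset.sum_congr rfl fun i _ => by ring
      refine (Real.rpow_le_rpow (esum_pos D z).le h1 hr.le).trans ?_
      rw [Real.mul_rpow (Real.exp_pos _).le hu0.le]
      refine mul_le_mul (le_of_eq ?_) (rpow_le_tangent hu0.le hU hr.le hr1) (Real.rpow_nonneg hu0.le _) (by positivity)
      simp only [hf, k₀]
      rw [← Real.exp_mul, ← Real.exp_sum, ← Real.exp_add, ← Finset.mul_sum]
      congr 1
      field_simp
    refine (integral_mono (esum_rpow_integrable D hr.le hr1) ((hmp.integrable_comp_emb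
      (MeasurableEquiv.measurableEmbedding _)).2 hGi) hpt).trans ?_
    show ∫ z, G (MeasurableEquiv.sumPiEquivProdPi (fun _ : Fin n ⊕ α => ℝ) z) ∂gauss (Fin n ⊕ α) ≤ _
    rw [hmp.integral_comp' (g := G)]
    simp only [hG]
    rw [integral_prod_mul f fun ξ => U ^ r * (1 + r * (u ξ / U - 1))]
    have e1 : ∫ h, f h ∂gauss (Fin n) = Real.exp (σ * C) * I ^ n := by
      simp only [hf, gauss]
      rw [integral_const_mul, integral_fintype_prod_eq_pow (fun x : ℝ => Real.exp (σ * Ψ x)), Fintype.card_fin]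
    rw [e1]
    refine mul_le_mul_of_nonneg_left ?_ (mul_nonneg (Real.exp_pos _).le (pow_nonneg (integral_nonneg fun _ => (Real.exp_pos _).le) _))
    have ud : Integrable (fun ξ => u ξ / U - 1) (gauss α) := (ui.div_const U).sub (integrable_const _)
    rw [integral_const_mul, integral_add (integrable_const _) (ud.const_mul r),
      integral_const_mul, integral_sub (ui.div_const U) (integrable_const _), integral_div]
    simp only [integral_const, probReal_univ, one_smul]
    refine mul_le_of_le_one_right (Real.rpow_nonneg hU.le _) ?_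
    have : (∫ ξ, u ξ ∂gauss α) / U - 1 ≤ 0 := sub_nonpos.2 ((div_le_one hU).2 ue)
    have := mul_nonpos_of_nonneg_of_nonpos hr.le this
    linarith
  -- left side
  set E := {g : Edge n → ℝ | ∃ a, T < β * profileForm g (v a)}
  have hform : ∀ g a, β * profileForm g (v a) = ∑ e : Edge n, 2 * β / rn * (v a e.1.1 * v a e.1.2) * g e := fun g a => by
    rw [profileForm, quad_coupling, Finset.sum_div, Finset.mul_sum]
    exact Finset.sum_congr rfl fun e _ => by ring
  have hE : MeasurableSet E := by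
    simp only [E, Set.ofPred_exists, hform]
    exact MeasurableSet.iUnion fun a => measurableSet_lt measurable_const (by fun_prop)
  set cL := Real.exp (σ * T)
  have hL : (gauss (Edge n)).real E * cL ≤ ∫ z, esum A z ^ r ∂gauss (Edge n ⊕ Bool) := by
    have hmp : MeasurePreserving (MeasurableEquiv.sumPiEquivProdPi fun _ : Edge n ⊕ Bool => ℝ)
        (gauss (Edge n ⊕ Bool)) ((gauss (Edge n)).prod (gauss Bool)) :=
      measurePreserving_sumPiEquivProdPi (X := fun _ : Edge n ⊕ Bool => ℝ) fun _ => gaussianReal 0 1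
    set F := fun p : (Edge n → ℝ) × (Bool → ℝ) => esum A (Sum.elim p.1 p.2) ^ r
    have hcomp' : ∀ z, F (MeasurableEquiv.sumPiEquivProdPi (fun _ : Edge n ⊕ Bool => ℝ) z) = esum A z ^ r := fun z => by
      have e : Sum.elim (fun e => z (Sum.inl e)) (fun o => z (Sum.inr o)) = z := funext fun k => by cases k <;> rfl
      show esum A (Sum.elim (fun e => z (Sum.inl e)) (fun o => z (Sum.inr o))) ^ r = _
      rw [e]
    have hiF : Integrable F ((gauss (Edge n)).prod (gauss Bool)) := by
      rw [← hmp.integrable_comp_emb (MeasurableEquiv.measurableEmbedding _)]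
      exact (esum_rpow_integrable A hr.le hr1).congr (Filter.Eventually.of_forall fun z => (hcomp' z).symm)
    rw [← integral_congr_ae (Filter.Eventually.of_forall hcomp'), hmp.integral_comp' (g := F), integral_prod F hiF]
    refine le_trans (le_of_eq (by rw [integral_indicator_const _ hE, smul_eq_mul]))
      (integral_mono_ae ((integrable_const cL).indicator hE) hiF.integral_prod_left
        (hiF.prod_right_ae.mono fun g hg => ?_))
    by_cases hgE : g ∈ E
    · rw [Set.indicator_of_mem hgE]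
      obtain ⟨a, ha⟩ := hgE
      set X := β * profileForm g (v a) with hX
      set ω := fun b : Bool => r * A a (Sum.inr b)
      have hpt : ∀ d, Real.exp (σ * X) * Real.exp (dot ω d) ≤ F (g, d) := fun d => by
        refine le_trans (le_of_eq ?_) (Real.rpow_le_rpow (Real.exp_pos _).le
          (Finset.single_le_sum (f := fun a => Real.exp (dot (A a) (Sum.elim g d))) (fun _ _ => (Real.exp_pos _).le) (Finset.mem_univ a)) hr.le)
        rw [← Real.exp_mul, ← Real.exp_add]
        congr 1
        simp only [dot, Fintype.sum_sum_type, hA, Sum.elim_inl, Sum.elim_inr, ω, hX, hform, add_mul, Finset.sum_mul, Finset.mul_sum, k₀]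
        congr 1 <;> exact Finset.sum_congr rfl fun k _ => by field_simp
      refine le_trans ?_ (integral_mono ((integrable_of_bound (C := 1) (M := ∑ o, |ω o|) (by unfold dot; fun_prop) fun d => by
        rw [Real.abs_exp, one_mul]
        exact Real.exp_le_exp.2 ((le_abs_self _).trans (abs_dot_le (fun o => Finset.single_le_sum (f := fun o => |ω o|) (fun _ _ => abs_nonneg _) (Finset.mem_univ o)) d))).const_mul _) hg hpt)
      rw [integral_const_mul, mgf_dot]
      exact (Real.exp_le_exp.2 (mul_le_mul_of_nonneg_left ha.le hσ.le)).trans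
        (le_mul_of_one_le_right (Real.exp_pos _).le (Real.one_le_exp (by positivity)))
    · rw [Set.indicator_of_notMem hgE]
      exact integral_nonneg fun d => Real.rpow_nonneg (esum_pos A _).le r
  have h := hL.trans (hcomp.trans hR)
  rw [← le_div_iff₀ (Real.exp_pos _)] at h
  refine h.trans (le_of_eq ?_)
  simp only [U, k₀]
  rw [Real.mul_rpow (Nat.cast_nonneg _) (Real.exp_pos _).le, ← Real.exp_mul, Real.exp_add, mul_sub, Real.exp_sub,
    show (σ / r) ^ 2 * β ^ 2 * r = σ ^ 2 * β ^ 2 / r by field_simp]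
  ring

end Vale.Agent.P150
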